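import Vale.Agent.P267K.Main
import Vale.Agent.P267L.Top
import Vale.Agent.P267E.Main

/-! P267: rational curves on every surface of class VII. -/

open scoped Manifold ContDiff Topology
open Filter Metric Set

noncomputable section

namespace Vale.Agent.P267K

open Vale.Agent.P267

variable {X M : Type} [TopologicalSpace X] [ChartedSpace C2 X] [IsManifold 𝓘(ℂ, C2) ω X]
  [TopologicalSpace M] [ChartedSpace C2 M] [IsManifold 𝓘(ℂ, C2) ω M]
  [CompactSpace X] [T2Space X] [T2Space M] [ConnectedSpace M] {π : M → X} {g : M ≃ₜ M}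

theorem curves4 {t : M → ℝ} (h : IsCover π g t)
    (hP : ∀ m : ℕ, 1 ≤ m → H0 id (canon X ^ m) = ⊥) {n : ℕ}
    (hL : ∀ N : ℕ, 0 < N → ∃ (L : Fin (n * N) → M → M → ℂ) (c : (M → M → ℂ) → Fin (n * N) → ℤ),
      IsLattice (g ^ N) (pull π (canon X)) L c) :
    ∃ C : Fin n → Set X, Function.Injective C ∧ ∀ i, IsRationalCurve (C i) := by
  by_cases hK : NoTwistedCanonical π g
  · exact curves2_of (fun C => C.erg) h hK hL
  · exact theoremK h (fun k hk s hs => Submodule.span_eq_bot.1 (hP k hk) s ⟨rfl, hs⟩) hL hK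

theorem curves5 (h : IsCyclic π g) (hb : firstBetti X = 1)
    (hP : ∀ m : ℕ, 1 ≤ m → H0 id (canon X ^ m) = ⊥) {n : ℕ}
    (hL : ∀ N : ℕ, 0 < N → ∃ (L : Fin (n * N) → M → M → ℂ) (c : (M → M → ℂ) → Fin (n * N) → ℤ),
      IsLattice (g ^ N) (pull π (canon X)) L c) :
    ∃ C : Fin n → Set X, Function.Injective C ∧ ∀ i, IsRationalCurve (C i) := by
  obtain ⟨L, c, h1⟩ := hL 1 one_pos
  have h3 : IsLattice g (pull π (canon X)) L c := by simpa only [pow_one] using h1
  rcases h.drift hb h3 with ⟨t, ht⟩ | ⟨t, ht⟩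
  · exact curves4 ht hP hL
  · refine curves4 ht hP fun N hN => ?_
    obtain ⟨L, c, h1⟩ := hL N hN
    exact ⟨L, c, h.lat_inv h1⟩

end Vale.Agent.P267K
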