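import Vale.Agent.P267L.LQ1
import Vale.Agent.P267L.LD
import Vale.Agent.P267C.Glue

/-! P267, the case of a twisted canonical section: definitions. -/

open scoped Manifold ContDiff Topology
open Filter Metric Set Asymptotics

noncomputable section

namespace Vale.Agent.P267K

open Vale.Agent.P267

/-- A box in the plane. -/
def bx (ε r : ℝ) : Set (ℂ × ℂ) := ball 0 ε ×ˢ ball 0 r

/-- In the box the zero set of `f` is a finite branched cover of the first disc, unbranched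
outside `S`. -/
structure Bx (f : ℂ × ℂ → ℂ) (ε r : ℝ) (S : Set ℂ) : Prop where
  e0 : 0 < ε
  r0 : 0 < r
  an : AnalyticOnNhd ℂ f (bx ε r)
  out : ∀ v ∈ bx ε r, f v = 0 → ‖v.2‖ ≤ r / 2
  fin : ∀ z ∈ ball (0 : ℂ) ε, {w | w ∈ ball (0 : ℂ) r ∧ f (z, w) = 0}.Finite
  cl : IsClosed S
  cnt : S.Countable
  gr : ∀ v ∈ bx ε r, v.1 ∉ S → f v = 0 → ∃ η : ℂ → ℂ, AnalyticAt ℂ η v.1 ∧ η v.1 = v.2 ∧
    ∀ᶠ y in 𝓝 v, (f y = 0 ↔ y.2 = η y.1)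

/-- A union of sheets. -/
structure Pt (f : ℂ × ℂ → ℂ) (ε r : ℝ) (S : Set ℂ) (A : Set (ℂ × ℂ)) : Prop where
  sub : ∀ v ∈ A, v ∈ bx ε r ∧ f v = 0
  op : ∀ v ∈ A, ∀ᶠ y in 𝓝 v, f y = 0 → y ∈ A
  cl : ∀ v ∈ bx ε r, v.1 ∉ S → v ∉ A → ∀ᶠ y in 𝓝 v, y ∉ A
  den : ∀ v ∈ A, ∃ᶠ y in 𝓝 v, y ∈ A ∧ y.1 ∉ S

/-- The fibre of `A` over `z`. -/
def rts (A : Set (ℂ × ℂ)) (z : ℂ) : Set ℂ := {w | (z, w) ∈ A}

/-- The polynomial whose roots are the fibres. -/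
def sg (A : Set (ℂ × ℂ)) (v : ℂ × ℂ) : ℂ := ∏ᶠ w ∈ rts A v.1, (v.2 - w)

variable {M : Type} [TopologicalSpace M] [ChartedSpace C2 M]

/-- The zero set of `ν` is a curve. -/
def Zs (ν : M → ℝ) : Prop :=
  ∀ p, ∃ f : M → ℂ, HolAt f p ∧ ¬ f =ᶠ[𝓝 p] 0 ∧ ∀ᶠ y in 𝓝 p, (ν y = 0 ↔ f y = 0)

/-- The component of the smooth locus. -/
def cp (ν : M → ℝ) (x : M) : Set M := connectedComponentIn {y | P267C.Sm C2 ν y} x

/-- A union of components of the smooth locus. -/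
def Part (ν : M → ℝ) (A : Set M) : Prop := ∀ y ∈ A, P267C.Sm C2 ν y ∧ cp ν y ⊆ A

/-- On `V` the function `σ` generates the ideal of the closure of `A`. -/
def Gen (A : Set M) (σ : M → ℂ) (V : Set M) : Prop :=
  ∀ y ∈ V, HolAt σ y ∧ ¬ σ =ᶠ[𝓝 y] 0 ∧ (σ y = 0 ↔ y ∈ closure A) ∧
    ∀ h : M → ℂ, HolAt h y → (∀ᶠ x in 𝓝 y, x ∈ A → h x = 0) → h =O[𝓝 y] σ

omit [ChartedSpace C2 M] in
/-- The quotient, extended by continuity. -/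
def quo (a b : M → ℂ) (y : M) : ℂ := limUnder (𝓝[{x | b x ≠ 0}] y) (a / b)

variable (C : Cov M)

/-- The flat frames. -/
def th (l : ℂ) : C.I → M → ℂ := fun i q => Complex.exp (l * (C.t q + i.2))

/-- The orbit of a component. -/
def orb (ν : M → ℝ) (N : ℕ) (x : M) : Set M := ⋃ k : ℤ, cp ν ((C.g ^ (k * N)) x)

/-- An invariant curve and a fine atlas. -/
structure KH (ν : M → ℝ) : Prop where
  sec : P267C.Sec C2 ν
  ne : ∃ x, ν x ≠ 0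
  inv : ∀ x, ν (C.g x) = ν x
  gh : ∀ k : ℤ, ContMDiff 𝓘(ℂ, C2) 𝓘(ℂ, C2) ω (C.g ^ k : M ≃ₜ M)
  fine : ∀ a A, Part ν A → ∃ σ, Gen A σ (C.e a).source
  fin : ∀ a, ∃ T : Set M, T.Finite ∧ ∀ x ∈ (C.e a).source, P267C.Sm C2 ν x → ∃ y ∈ T, y ∈ cp ν x

/-- Representatives of the orbits of components. -/
structure Rp (ν : M → ℝ) (N : ℕ) (W : Finset M) : Prop where
  sm : ∀ w ∈ W, P267C.Sm C2 ν w
  cov : ∀ x, P267C.Sm C2 ν x → ∃ w ∈ W, x ∈ orb C ν N w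
  dis : ∀ w ∈ W, ∀ w' ∈ W, w' ∈ orb C ν N w → w = w'

/-- Holomorphic frames on the whole charts. -/
structure Fm (F : C.I → M → ℂ) : Prop where
  ne : ∀ i, ∀ p ∈ (C.ch i).source, F i p ≠ 0
  hol : ∀ i j, ∀ p ∈ (C.ch i).source ∩ (C.ch j).source, HolAt (F i / F j) p

/-- The bundle of the divisor `closure A` with its section. -/
structure Dv (N : ℕ) (A : Set M) (F : C.I → M → ℂ) (σ : M → ℂ) : Prop where
  fm : Fm C F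
  per : C.Pd N F
  inv : ∀ p, σ ((C.g ^ N) p) = σ p
  gen : ∀ i, Gen A (F i * σ) (C.ch i).source

/-- Periodic holomorphic functions on the closure of `A` are constant. -/
def Cst (N : ℕ) (A : Set M) : Prop :=
  ∀ φ : M → ℂ, (∀ p, φ ((C.g ^ N) p) = φ p) →
    (∀ p ∈ closure A, ∃ h, HolAt h p ∧ ∀ᶠ y in 𝓝 p, y ∈ closure A → φ y = h y) →
    ∃ c, ∀ y ∈ closure A, φ y = c

/-- The finite covers have no holomorphic two-form. -/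
def PG : Prop := ∀ N : ℕ, 0 < N → ∀ s, Sec C.κ s → (∀ p, s ((C.g ^ N) p) = s p) → s = 0

/-- The first cohomology of a flat bundle vanishes. -/
def H1z (l : ℂ) : Prop :=
  ∀ P : C.I → M → ℂ, C.Pd 1 P →
    (∀ i j, ∀ p ∈ C.U i (3 / 2) ∩ C.U j (3 / 2), HolAt (th C l i * (P i - P j)) p) →
    ∃ w : M → ℂ, ∀ i, ∀ p ∈ C.U i (3 / 2), HolAt (th C l i * (P i - w)) p

/-- An invariant section of bounded periodic frames. -/
structure Inv (Ψ : C.I → M → ℂ) (s : M → ℂ) (B : ℝ) : Prop where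
  fr : C.Fr Ψ 2 B
  per : C.Pd 1 Ψ
  inv : ∀ p, s (C.g p) = s p
  hol : ∀ i, ∀ p ∈ C.U i 2, HolAt (Ψ i * s) p
  ne : ∀ i, ∀ p ∈ C.U i 2, ¬ Ψ i * s =ᶠ[𝓝 p] 0
  bd : Bdd s

/-- A compactly supported form that is closed near the zeros of `s`. -/
structure Src (s : M → ℂ) (α : M → C2 →L[ℝ] ℂ) (K L : Set M) : Prop where
  cK : IsCompact K
  cL : IsCompact L
  ne : ∀ p ∈ K, s p ≠ 0
  sm : ∀ p, C.SmF α p
  cl : ∀ p ∉ K, ∃ a, C.Prim α a p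
  off : ∀ p ∉ L, α =ᶠ[𝓝 p] 0

/-- The local data of the twisted solution. -/
structure Tw (l : ℂ) (Ψ : C.I → M → ℂ) (s : M → ℂ) (α : M → C2 →L[ℝ] ℂ) (b f : C.I → M → ℂ)
    (T : ℤ) (D : ℝ) : Prop where
  zero : ∀ i : C.I, T ≤ |i.2| → ∀ p ∈ C.U i (3 / 2), b i p = 0
  bd : ∀ i, ∀ p ∈ C.U i (3 / 2), ‖b i p‖ ≤ D ∧ ‖f i p‖ ≤ D * C.wt 1 0 i
  sm : ∀ i, ∀ p ∈ C.U i (3 / 2), SmAt ((th C l / Ψ) i * f i) p
  cd : ∀ i, ∀ x ∈ C.U i (3 / 2), s x = 0 → ∀ a, C.Prim α a x → P267C.CD C2 (a - b i) x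
  hol : ∀ i j, ∀ p ∈ C.U i (3 / 2) ∩ C.U j (3 / 2),
    HolAt ((b i - b j) + (fun q => Complex.exp (l * C.t q)) * s * (f i - f j)) p

/-- The twisted sum of the translates of a form is exact along the zero set of `s`. -/
def TS (l : ℂ) (s : M → ℂ) : Prop :=
  ∀ α K L, Src C s α K L → ∃ h : M → ℂ, ∀ x, s x = 0 → ∀ (a : ℤ → M → ℂ) (W : Finset ℤ),
    (∀ k ∉ W, (C.g ^ k) x ∉ L) → (∀ k ∈ W, C.Prim α (a k) ((C.g ^ k) x)) →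
    P267C.CD C2 (h - ∑ k ∈ W, Complex.exp (-(l * k)) • (a k ∘ (C.g ^ k : M ≃ₜ M))) x

/-- Functions on the zero set of `s` with simple poles along one orbit. -/
def Po (s : M → ℂ) : Prop :=
  ∀ c ψ p, P267C.Crd C2 c ψ p → (∀ᶠ y in 𝓝 p, (s y = 0 ↔ (c y).2 = 0)) → ∃ f : M → ℂ,
    (∀ x, s x = 0 → (∀ k : ℤ, (C.g ^ k) x ≠ p) → P267C.CD C2 f x) ∧
    ∃ h : M → ℂ, ∀ᶠ y in 𝓝 p, s y = 0 → P267C.CD C2 h y ∧ (y ≠ p → f y = (c y).1⁻¹ + h y)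

end Vale.Agent.P267K
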