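import Vale.Agent.P267S.S2
import Vale.Agent.P267S.SC2
import Vale.Agent.P267S.SA4

/-! P267: the vanishing theorem for one rate of growth. -/

open scoped Manifold ContDiff Topology ENNReal Real
open Filter Metric Set MeasureTheory

noncomputable section

namespace Vale.Agent.P267

set_option linter.unusedSectionVars false

variable {M : Type} [TopologicalSpace M] [ChartedSpace C2 M] [T2Space M]

namespace Cov
variable (C : Cov M)

/-- The dual bundle has no section with the rate of growth `δ`. -/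
def NoSecD (F : C.I → M → ℂ) (δ : ℝ) : Prop := ∀ s, C.SecF (C.kf / F) s → C.Gr s δ → s = 0

/-- No limit of translates has a dual section with the rate of growth `δ`. -/
def NoLimD (G : ℕ → C.I → M → ℂ) (r δ : ℝ) : Prop :=
  ∀ (φ : ℕ → ℕ) (k : ℕ → ℤ) (F : C.I → M → ℂ), Tendsto φ atTop atTop →
    (∀ i, ∀ p ∈ C.U i r, Tendsto (fun m => G (φ m) (i.1, i.2 - k m) ((C.g ^ k m) p))
      (hyperfilter ℕ) (𝓝 (F i p))) → C.NoSecD F δ

/-- The frames of the flat bundle with the exponent `μ`. -/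
def tw (μ : ℂ) (i : C.I) (p : M) : ℂ := Complex.exp (μ * ((C.t p : ℂ) + i.2))

theorem k4_sec {δ A B : ℝ} (hδ : 0 ≤ δ) {F : C.I → M → ℂ} (hN : C.NoSecD F δ) {u : C.I → C2 → ℂ}
    (u1 : ∀ i, AnalyticOnNhd ℂ (u i) (ball 0 1))
    (u2 : ∀ i, ∀ p ∈ C.U i 1, ‖u i (C.ch i p)‖ ≤ A / C.wt δ 0 i ∧ ‖F i p‖ ≤ B)
    (u4 : ∀ i l, ∀ p ∈ C.U i 1 ∩ C.U l 1,
      u i (C.ch i p) = C.kf i p / C.kf l p * (F l p / F i p) * u l (C.ch l p)) (i : C.I) :
    ∀ z ∈ ball (0 : C2) 1, u i z = 0 := by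
  obtain ⟨s, hs⟩ : ∃ s : M → ℂ, ∀ p, s p =
    u (C.idx p) (C.ch (C.idx p) p) * F (C.idx p) p * (C.kf (C.idx p) p)⁻¹ := ⟨_, fun _ => rfl⟩
  have u5 : ∀ i, ∀ p ∈ C.U i 1, (u i ∘ C.ch i) p = ((C.kf / F) i * s) p := fun i p hp => by
    simp only [Function.comp_apply, Pi.mul_apply, Pi.div_apply, hs]
    rw [u4 i _ p ⟨hp, C.mem_U_idx p⟩]
    ring
  obtain ⟨L, hL, k5⟩ := C.geo_kf
  have u6 := hN s (fun i p hp => ((C.isCh i).hol_fun hp.1
    (u1 i _ (mem_ball_zero_iff.2 hp.2))).congr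
      (mem_of_superset ((C.isOpen_U i 1).mem_nhds hp) (u5 i)))
    ⟨|A| * Real.exp (δ * C.R) * B * L, fun p => by
      have hp := C.mem_U_idx p
      obtain ⟨b1, b2⟩ := u2 _ p hp
      have b3 := (k5 _ p (C.U_mono _ (by norm_num) hp)).2
      have w0 := C.wt_pos δ 0 (C.idx p)
      have b4 : (C.wt δ 0 (C.idx p))⁻¹ ≤ Real.exp (δ * C.R) * Real.exp (δ * |C.t p|) := by
        have := mul_le_mul_of_nonneg_right (C.wt_t hδ hp.1).1 (Real.exp_pos (δ * |C.t p|)).le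
        rw [← Real.exp_add, neg_mul, neg_add_cancel, Real.exp_zero] at this
        rw [inv_le_iff_one_le_mul₀ w0]
        linarith
      have b6 := (norm_nonneg _).trans b2
      have b7 := b1.trans (mul_le_mul (le_abs_self A) b4 (inv_pos.2 w0).le (abs_nonneg _))
      rw [hs, norm_mul, norm_mul]
      refine le_trans ?_ (le_of_eq (by ring : |A| *
        (Real.exp (δ * C.R) * Real.exp (δ * |C.t p|)) * B * L = _))
      gcongr⟩
  intro z hz
  obtain ⟨e1, e2⟩ := C.symm_mem_U i (by norm_num : (1 : ℝ) ≤ 4) (mem_ball_zero_iff.1 hz)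
  have := u5 _ _ e1
  rwa [u6, mul_zero, Function.comp_apply, e2] at this

theorem k4_core {r r₀ B δ : ℝ} (h1 : 1 < r₀) (h2 : r₀ < r) (h3 : r ≤ 3) (hδ : 0 < δ)
    {G : ℕ → C.I → M → ℂ} (hG : ∀ m, C.Fr (G m) r B) {F : C.I → M → ℂ}
    (hF : ∀ i, ∀ p ∈ C.U i r, Tendsto (fun m => G m i p) (hyperfilter ℕ) (𝓝 (F i p)))
    {η : ℕ → M → ℂ} (hη : ∀ m i, ∀ p ∈ C.U i r, SmAt (C.kf i / G m i * η m) p)
    (hb : ∀ m i, n2 (ball 0 1) (C.du (G m) (η m) i) ≤ ENNReal.ofReal (2 / C.wt δ 0 i) ^ 2)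
    {ε : ℕ → ℝ} (hε0 : ∀ m, 0 ≤ ε m) (hε : Tendsto ε atTop (𝓝 0))
    (hd : ∀ m i, n2 (ball 0 r₀) (dbar (C.du (G m) (η m) i)) ≤
      ENNReal.ofReal (ε m / C.wt δ 0 i) ^ 2)
    (hl : ∀ m, ∃ a, 1 ≤ n2 (ball 0 1) (C.du (G m) (η m) (a, 0))) : ¬ C.NoSecD F δ := by
  intro hN
  obtain ⟨ρ, hρ⟩ : ∃ ρ, ρ = (r₀ - 1) / 3 := ⟨_, rfl⟩
  have hρ0 : 0 < ρ := by linarith
  obtain ⟨K, hK, k1⟩ := dol_hol (r := r₀) (r' := 1 + 2 * ρ) (by linarith) (by linarith)
  have hs : ∀ m i, ∀ z ∈ ball (0 : C2) r, ContDiffAt ℝ ∞ (C.du (G m) (η m) i) z := fun m i =>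
    C.sm_ball (by linarith) (hη m i)
  have hr : ball (0 : C2) (1 + 2 * ρ) ⊆ ball 0 r := ball_subset_ball (by linarith)
  have hr' : ball (0 : C2) 1 ⊆ ball 0 (1 + 2 * ρ) := ball_subset_ball (by linarith)
  have hc : ∀ m i, ContinuousOn (C.du (G m) (η m) i) (ball 0 (1 + 2 * ρ)) := fun m i z hz =>
    (hs m i z (hr hz)).continuousAt.continuousWithinAt
  choose H a1 _ a2 using fun m i => k1 0 _ fun z hz => hs m i z (ball_subset_ball h2.le hz)
  have a3 := fun m i => apc_mul hK (a2 m i) (hd m i)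
  have a4 := fun m i => P278F.analyticOnNhd_of_differentiableOn isOpen_ball (a1 m i)
  have w0 := fun i => C.wt_pos δ 0 i
  have w1 : ∀ m i, 0 ≤ K * (ε m / C.wt δ 0 i) := fun m i =>
    mul_nonneg hK (div_nonneg (hε0 m) (w0 i).le)
  have w2 : ∀ i, Tendsto (fun m => K * (ε m / C.wt δ 0 i)) (hyperfilter ℕ) (𝓝 0) := fun i => by
    simpa using ((hε.mono_left Nat.hyperfilter_le_atTop).div_const (C.wt δ 0 i)).const_mul K
  obtain ⟨L, hL, k2⟩ := C.cov_n2 B hδ.le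
  obtain ⟨E, hE⟩ := hε.bddAbove_range
  obtain ⟨K₂, hK₂, k3⟩ := hol_mean hρ0
  have a5 : ∀ m i, ∀ z ∈ ball (0 : C2) (1 + ρ),
      ‖H m i z‖ ≤ K₂ * (2 * (L * 2 + K * E)) / C.wt δ 0 i := fun m i z hz => by
    have s1 : ball z ρ ⊆ ball 0 (1 + 2 * ρ) :=
      ball_subset_ball' (by linarith [mem_ball.1 hz])
    have := w0 i
    refine (k3 z _ _ (by have := w1 m i; positivity) ((a1 m i).mono s1) ((n2_mono_set s1).trans
      ((n2_le_add measurableSet_ball ((hc m i).aestronglyMeasurable measurableSet_ball)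
        fun y _ => norm_le_insert _ _).trans
        (sq_add_le (by positivity) (w1 m i) ((n2_mono_set hr).trans
          (k2 _ r (by linarith) h3 (hG m) _ 0 2 zero_le_two (hb m) i)) (a3 m i))))).trans ?_
    rw [mul_div_assoc K₂, mul_div_assoc 2, add_div, mul_div_assoc K]
    gcongr
    exact hE ⟨m, rfl⟩
  choose u u1 u2 using fun i => P299.montel_u (hyperfilter ℕ) isOpen_ball (fun m =>
    (a1 m i).mono (ball_subset_ball (by linarith : 1 + ρ ≤ 1 + 2 * ρ))) fun m => a5 m i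
  have hU : ∀ i, C.U i 1 ⊆ C.U i r := fun i => C.U_mono i (by linarith)
  have u3 : ∀ i, ∀ p ∈ C.U i 1, C.ch i p ∈ ball (0 : C2) (1 + ρ) := fun i p hp =>
    mem_ball_zero_iff.2 (by linarith [hp.2])
  have f1 : ∀ i, ∀ p ∈ C.U i r, F i p ≠ 0 := fun i p hp h0 => by
    have := ge_of_tendsto' ((hF i p hp).norm.const_mul B) fun m => by
      have h4 := mul_le_mul_of_nonneg_right ((hG m).bd i p hp).2 (norm_nonneg (G m i p))
      rwa [← norm_mul, inv_mul_cancel₀ ((hG m).ne i p hp), norm_one] at h4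
    rw [h0, norm_zero, mul_zero] at this
    linarith
  obtain ⟨K₃, k4⟩ := C.apc_cmp (r₁ := 1 + 2 * ρ) B (by linarith) (by linarith) h3
  have u4 : ∀ i l, ∀ p ∈ C.U i 1 ∩ C.U l 1,
      u i (C.ch i p) = C.kf i p / C.kf l p * (F l p / F i p) * u l (C.ch l p) := fun i l p hp => by
    refine sub_eq_zero.1 (norm_le_zero_iff.1 (le_of_tendsto_of_tendsto'
      ((u2 i _ (u3 i p hp.1) _ tendsto_const_nhds).sub ((((hF l p (hU l hp.2)).div
        (hF i p (hU i hp.1)) (f1 i p (hU i hp.1))).const_mul _).mul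
        (u2 l _ (u3 l p hp.2) _ tendsto_const_nhds))).norm ?_ fun m =>
      k4 i l _ _ _ _ _ _ (hG m) (w1 m i) (w1 m l) (hc m i) (a4 m i) (a4 m l) (a3 m i) (a3 m l)
        p hp))
    simpa using ((w2 i).const_mul K₃).add ((w2 l).const_mul (K₃ ^ 2))
  have u6 := C.k4_sec hδ.le hN (A := K₂ * (2 * (L * 2 + K * E))) (B := B)
    (fun i z hz => u1 i z (ball_subset_ball (by linarith) hz)) (fun i p hp =>
      ⟨le_of_tendsto' (u2 _ _ (u3 _ p hp) _ tendsto_const_nhds).norm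
        fun m => a5 m _ _ (u3 _ p hp), le_of_tendsto' (hF _ p (hU _ hp)).norm
        fun m => ((hG m).bd _ p (hU _ hp)).1⟩) u4
  exact apc_end hl (fun a => apc_small (hyperfilter ℕ) (by linarith) (u1 (a, 0)) (u6 _) (u2 (a, 0)))
    (fun m a => (a1 m (a, 0)).continuousOn.mono hr') (fun m a => w1 m (a, 0))
    (fun m a => (n2_mono_set hr').trans (a3 m _)) fun a => w2 (a, 0)

theorem k4_ap {r r₀ B δ : ℝ} (h1 : 1 < r₀) (h2 : r₀ < r) (h3 : r ≤ 3) (hδ : 0 < δ)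
    {G : ℕ → C.I → M → ℂ} (hG : ∀ m, C.Fr (G m) r B) (hN : C.NoLimD G r δ) :
    ∃ K : ℝ, 0 ≤ K ∧ ∀ᶠ n in atTop, C.AP (G n) r r₀ δ K := by
  obtain ⟨L, hL, hc⟩ := C.cov_n2 B hδ.le
  by_contra hcon
  have k1 : ∀ m : ℕ, ∃ n, m ≤ n ∧ ¬ C.AP (G n) r r₀ δ (L * ((m : ℝ) + 1)) := fun m =>
    frequently_atTop.1 (not_eventually.1 fun h => hcon ⟨_, by positivity, h⟩) m
  choose φ hφ hn using k1
  choose c η s1 s2 s3 s4 using fun m : ℕ => C.ap_one (h1.trans h2) h3 hδ hL (Nat.cast_add_one_pos m)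
    (hc _ _ h1.le (h2.le.trans h3) ((hG (φ m)).mono h2.le)) (hn m)
  have hG' := fun m => C.ap_fr (hG (φ m)) (-c m)
  have k2 : ∀ i p, ∃ x, p ∈ C.U i r → Tendsto
      (fun m => G (φ m) (i.1, i.2 - -c m) ((C.g ^ (-c m)) p)) (hyperfilter ℕ) (𝓝 x) := fun i p => by
    by_cases hp : p ∈ C.U i r
    · obtain ⟨x, hx⟩ := P299.HG_lim (hyperfilter ℕ) fun m => ((hG' m).bd i p hp).1
      exact ⟨x, fun _ => hx⟩
    · exact ⟨0, fun h => absurd h hp⟩
  choose F hF using k2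
  have w : ∀ m (i : C.I), C.wt δ (c m) (i.1, i.2 - -c m) = C.wt δ 0 i := fun m i => by simp [wt]
  refine C.k4_core h1 h2 h3 hδ hG' hF (η := fun m => η m ∘ (C.g ^ (-c m) : M ≃ₜ M))
    (fun m i p hp => ?_) (fun m i => ?_) (ε := fun m => 1 / ((m : ℝ) + 1)) (fun m => by positivity)
    tendsto_one_div_add_atTop_nhds_zero_nat (fun m i => ?_) (fun m => ?_)
    (hN φ (fun m => -c m) F (tendsto_atTop_mono hφ tendsto_id) hF)
  · refine ((C.sm_gz (-c m)).2 (s1 m _ _ ((C.U_shift i _ r p).2 hp))).congr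
      (.of_forall fun q => ?_)
    simp only [Function.comp_apply, Pi.mul_apply, Pi.div_apply, ap_kf]
  · rw [ap_shift, ← w m i]
    exact s2 m _
  · rw [ap_shift, ← w m i]
    exact s3 m _
  · obtain ⟨a, ha⟩ := s4 m
    refine ⟨a, ?_⟩
    rw [ap_shift]
    simpa using ha

theorem k4_s2 {r r' B δ : ℝ} {G : C.I → M → ℂ} (hG : C.Fr G r B)
    (hN : C.NoLimD (fun _ => G) r δ) (hδ : 0 < δ) (h1 : 1 < r') (h2 : r' < r) (h3 : r ≤ 3) :
    ∃ K : ℝ, 0 ≤ K ∧ C.S2 G r r' δ K := by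
  obtain ⟨K₁, h₁, hap⟩ := C.k4_ap h1 h2 h3 hδ (fun _ => hG) hN
  obtain ⟨K₂, h₂, hr⟩ := C.rsz h1 h2 h3 hδ h₁
  obtain ⟨K₃, h₃, hw⟩ := C.wb h1 h2 h3 hδ h₂ B
  obtain ⟨K₄, h₄, hf⟩ := C.s2_fin h1 h2 h3 hδ h₃ B
  refine ⟨K₄, h₄, fun c D α hα => ?_⟩
  obtain ⟨b, hb⟩ := hr _ B hG hap.exists.choose_spec c D α hα
  exact hf _ hG c D α _ hα (hw _ hG c D α b hα hb) (C.wc h1 h2 h3 hG hα hb)

variable {C}

theorem tw_sh (μ : ℂ) (i : C.I) (k : ℤ) (p : M) :
    C.tw μ (C.sh i k) ((C.g ^ k) p) = C.tw μ i p := by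
  simp only [tw, sh, C.t_gz]
  push_cast
  ring_nf

theorem tw_ne (μ : ℂ) (i : C.I) (p : M) : C.tw μ i p ≠ 0 := Complex.exp_ne_zero _

theorem tw_div (μ : ℂ) (i j : C.I) (p : M) :
    C.tw μ i p / C.tw μ j p = Complex.exp (μ * ((i.2 : ℂ) - j.2)) := by
  rw [tw, tw, ← Complex.exp_sub]
  ring_nf

theorem tw_sm (μ : ℂ) (i : C.I) (p : M) : SmAt (C.tw μ i) p :=
  ((smAt_const μ).mul ((C.t_sm p).add (smAt_const (i.2 : ℂ)))).exp

theorem tw_fr (μ : ℂ) (r : ℝ) : C.Fr (C.tw μ) r (Real.exp (‖μ‖ * C.R)) := by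
  refine ⟨fun i p _ => tw_ne μ i p, fun i j p _ => (holAt_const _).congr
    (.of_forall fun q => (tw_div μ i j q).symm), fun i p hp => ?_⟩
  have h1 : ‖μ * ((C.t p : ℂ) + i.2)‖ ≤ ‖μ‖ * C.R := by
    rw [norm_mul]
    refine mul_le_mul_of_nonneg_left ?_ (norm_nonneg _)
    have := C.t_ch hp.1
    rwa [← Real.norm_eq_abs, ← Complex.norm_real, Complex.ofReal_add, Complex.ofReal_intCast] at this
  refine ⟨(Complex.norm_exp_le_exp_norm _).trans (Real.exp_le_exp.2 h1), ?_⟩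
  rw [tw, ← Complex.exp_neg]
  exact (Complex.norm_exp_le_exp_norm _).trans (Real.exp_le_exp.2 (by rwa [norm_neg]))

/-- Sections that decay fast towards the positive end vanish. -/
theorem k4_lin {s : M → ℂ} {θ b μ δ D : ℝ} (h : C.Sub s θ fun _ => b) (hμ : 0 ≤ μ) (hδ : 0 ≤ δ)
    (hb : b + δ * (2 * C.R + 1) < μ * θ)
    (hD : ∀ p, ‖s p‖ * Real.exp (μ * C.t p - δ * |C.t p|) ≤ D) : s = 0 := by
  funext p₀
  have : Nonempty M := ⟨p₀⟩
  set φ : M → ℝ := fun p => ‖s p‖ * Real.exp (μ * C.t p - δ * |C.t p|) with hφ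
  have hB : BddAbove (range φ) := ⟨D, by rintro _ ⟨p, rfl⟩; exact hD p⟩
  have h3 : ⨆ p, φ p ≤ Real.exp (b + δ * (2 * C.R + 1) - μ * θ) * ⨆ p, φ p := ciSup_le fun p => by
    obtain ⟨q, k1, k2⟩ := h p μ hμ
    refine le_trans ?_ (mul_le_mul_of_nonneg_left (le_ciSup hB q) (Real.exp_pos _).le)
    have k3 := mul_le_mul_of_nonneg_right k2
      (Real.exp_pos (μ * C.t p - δ * |C.t p| - μ * θ)).le
    have k4 := mul_le_mul_of_nonneg_left ((abs_sub_abs_le_abs_sub (C.t q) (C.t p)).trans k1) hδ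
    simp only [hφ]
    calc _ = ‖s p‖ * Real.exp (μ * θ) * Real.exp (μ * C.t p - δ * |C.t p| - μ * θ) := by
          rw [mul_assoc, ← Real.exp_add]; ring_nf
      _ ≤ _ := k3
      _ = ‖s q‖ * Real.exp (b + μ * (C.t q - C.t p) + (μ * C.t p - δ * |C.t p| - μ * θ)) := by
          rw [Real.exp_add, Real.exp_add]; ring
      _ ≤ ‖s q‖ * Real.exp (b + δ * (2 * C.R + 1) - μ * θ + (μ * C.t q - δ * |C.t q|)) :=
          mul_le_mul_of_nonneg_left (Real.exp_le_exp.2 (by linarith)) (norm_nonneg _)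
      _ = _ := by rw [Real.exp_add]; ring
  have h4 : Real.exp (b + δ * (2 * C.R + 1) - μ * θ) < 1 := Real.exp_lt_one_iff.2 (by linarith)
  have h5 := (le_ciSup hB p₀).trans (show ⨆ p, φ p ≤ 0 by nlinarith)
  have h7 := Real.exp_pos (μ * C.t p₀ - δ * |C.t p₀|)
  simp only [hφ] at h5
  exact norm_le_zero_iff.1 (by nlinarith)

/-- After a large twist the dual bundle has no section. -/
theorem k4_nosec {G : C.I → M → ℂ} {r B : ℝ} (hG : C.Fr G r B) (hr : 1 < r) (h3 : r ≤ 3) :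
    ∃ μ₀ : ℝ, ∀ μ : ℂ, μ₀ ≤ μ.re → C.NoSecD (G * C.tw μ) 1 := by
  obtain ⟨B', hB⟩ := C.sa_dual hG h3
  obtain ⟨θ, b, hθ, hs⟩ := C.sa_sub_fr hB hr
  refine ⟨max 0 ((b + (2 * C.R + 1)) / θ + 1), fun μ hμ s h1 ⟨D, hD⟩ => ?_⟩
  have h2 := k4_lin (δ := 1) (D := D) (hs (fun p => Complex.exp (-(μ * C.t p)) * s p)
    fun i p hp => ((h1 i p hp).smul (Complex.exp (μ * i.2))).congr (.of_forall fun q => by
      simp only [Pi.smul_apply, Pi.mul_apply, Pi.div_apply, smul_eq_mul, tw, mul_add,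
        Complex.exp_add, Complex.exp_neg]
      field_simp)) ((le_max_left _ _).trans hμ) zero_le_one (by
      have := (div_le_iff₀ hθ).1 (show (b + (2 * C.R + 1)) / θ ≤ μ.re - 1 by
        linarith [le_max_right 0 ((b + (2 * C.R + 1)) / θ + 1)])
      linarith) fun p => by
      rw [norm_mul, Complex.norm_exp, mul_right_comm, ← Real.exp_add]
      have e : (-(μ * C.t p)).re + (μ.re * C.t p - 1 * |C.t p|) = -(1 * |C.t p|) := by simp; ring
      rw [e, Real.exp_neg, inv_mul_le_iff₀ (Real.exp_pos _), mul_comm]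
      exact hD p
  exact funext fun p => (mul_eq_zero.1 (congrFun h2 p)).resolve_left (Complex.exp_ne_zero _)

/-- The vanishing theorem for periodic frames after a large twist. -/
theorem k4_twist {G : C.I → M → ℂ} {B : ℝ} {N : ℕ} (hG : C.Fr G 2 B) (hN : 0 < N)
    (hp : ∀ i p, G (C.sh i N) ((C.g ^ (N : ℤ)) p) = G i p) : ∃ μ₀ : ℝ, ∀ μ : ℂ, μ₀ ≤ μ.re →
      ∃ K : ℝ, 0 ≤ K ∧ C.S2 (G * C.tw μ) (7 / 4) (3 / 2) 1 K := by
  choose m hm using fun k : Fin N => k4_nosec (hG.shift (k : ℕ)) one_lt_two (by norm_num)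
  obtain ⟨μ₀, h0⟩ := Finite.bddAbove_range m
  refine ⟨μ₀, fun μ hμ => C.k4_s2 (B := B * Real.exp (‖μ‖ * C.R)) ?_ (fun _ k F _ hF => ?_) one_pos
    (by norm_num) (by norm_num) (by norm_num)⟩
  · have := (hG.monoC (show (7 / 4 : ℝ) ≤ 2 by norm_num) le_rfl).div (tw_fr μ (7 / 4)).invC
    rwa [div_inv_eq_mul] at this
  · have hN' : (0 : ℤ) < N := by exact_mod_cast hN
    obtain ⟨j, hj⟩ : ∃ j : Fin N, ∀ᶠ l in hyperfilter ℕ, k l % N = (j : ℕ) :=
      Ultrafilter.eventually_exists_iff.1 (.of_forall fun l =>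
        ⟨⟨(k l % N).toNat, by have := Int.emod_lt_of_pos (k l) hN'; omega⟩,
          (Int.toNat_of_nonneg (Int.emod_nonneg _ hN'.ne')).symm⟩)
    have e : ∀ i, ∀ p ∈ C.U i 1, F i p = G (C.sh i (j : ℕ)) ((C.g ^ ((j : ℕ) : ℤ)) p) * C.tw μ i p :=
      fun i p hp' => tendsto_nhds_unique (hF i p (C.U_mono i (by norm_num) hp'))
        (tendsto_const_nhds.congr' (hj.mono fun l hl => by
          rw [← per_fr hp (k l / N) (C.sh i (j : ℕ)), sh_sh, ← C.gz_add, ← tw_sh μ i (k l), ← hl,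
            show k l % N + k l / N * N = k l from Int.emod_add_ediv_mul _ _,
            show k l / N * N + k l % N = k l from Int.ediv_mul_add_emod _ _]
          rfl))
    exact fun s hs hg => hm j μ ((h0 (mem_range_self j)).trans hμ) s (fun i p hp' =>
      (hs i p hp').congr (by
        filter_upwards [(C.isOpen_U i 1).mem_nhds hp'] with q hq
        simp only [Pi.mul_apply, Pi.div_apply, e i q hq])) hg

end Cov

end Vale.Agent.P267
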