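import Vale.Agent.P267K.K4a
import Vale.Agent.P267S.SV3

/-! P267: solving modulo a periodic section, local data. -/

open scoped Manifold ContDiff Topology
open Filter Metric Set

noncomputable section

namespace Vale.Agent.P267

set_option linter.unusedSectionVars false

variable {M : Type} [TopologicalSpace M] [ChartedSpace C2 M] [T2Space M]

namespace Cov
variable {C : Cov M} {α : M → C2 →L[ℝ] ℂ} {F : C.I → M → ℂ} {B : ℝ} {s : M → ℂ} {μ : ℂ}

theorem k4_df (β : C.I → M → C2 →L[ℝ] ℂ) (i j : C.I) (q : M) :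
    C.df (F⁻¹ * C.tw μ) (fun i q => Complex.exp (μ * i.2) • β i q) i j q =
      Complex.exp (μ * i.2) • C.df F⁻¹ β i j q := by
  refine ContinuousLinearMap.ext fun v => ?_
  change Complex.exp (μ * i.2) * β i q v - (F i q)⁻¹ * C.tw μ i q / ((F j q)⁻¹ * C.tw μ j q) *
    (Complex.exp (μ * j.2) * β j q v) =
    Complex.exp (μ * i.2) * (β i q v - (F i q)⁻¹ / (F j q)⁻¹ * β j q v)
  rw [mul_div_mul_comm, tw_div, mul_sub μ, Complex.exp_sub]
  field_simp

/-- The local data. -/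
theorem k4_data (hF : C.Fr F 2 B) (hσ : ∀ i, ∀ p ∈ C.U i 2, HolAt (F i * s) p) (hb : Bdd s)
    (h0 : ∀ i, ∀ p ∈ C.U i 2, ¬ F i * s =ᶠ[𝓝 p] 0) {K₂ : ℝ} (hK₂ : 0 ≤ K₂)
    (h2 : C.S2 (F⁻¹ * C.tw μ) (7 / 4) (3 / 2) 1 K₂) {K L : Set M} (hK : IsCompact K)
    (hK0 : ∀ p ∈ K, s p ≠ 0) (hα : ∀ p, C.SmF α p) (hc : ∀ p ∉ K, ∃ a, C.Prim α a p)
    (hL : IsCompact L) (hL0 : ∀ p ∉ L, α p = 0) :
    ∃ (β : C.I → M → C2 →L[ℝ] ℂ) (b f : C.I → M → ℂ) (T : ℤ) (D : ℝ),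
      (∀ i : C.I, T ≤ |i.2| → ∀ p ∈ C.U i (3 / 2), b i p = 0) ∧
      (∀ i, ∀ p ∈ C.U i (3 / 2), C.SmF (β i) p ∧
        C.Prim (α - fun q => (F i * s) q • β i q) (b i) p ∧ ContinuousAt ((F i)⁻¹ * f i) p ∧
        ‖f i p‖ ≤ D * C.wt 1 0 i ∧ ‖Complex.exp (-(μ * C.t p)) * b i p‖ ≤ D * C.wt 1 0 i) ∧
      ∀ i j, ∀ p ∈ C.U i (3 / 2) ∩ C.U j (3 / 2), HolAt (C.tw μ i * fun q =>
        (Complex.exp (-(μ * C.t q)) * b i q + s q * f i q) -
          (Complex.exp (-(μ * C.t q)) * b j q + s q * f j q)) p := by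
  obtain ⟨K₁, hK₁, hd⟩ := C.dolM (r := 7 / 4) (r' := 3 / 2) (by norm_num) (by norm_num)
    (by norm_num)
  obtain ⟨B₁, hB₁⟩ := hb
  have m1 : ∀ i, C.U i (7 / 4) ⊆ C.U i 2 := fun i => C.U_mono i (by norm_num)
  have m2 : ∀ i, C.U i (3 / 2) ⊆ C.U i (7 / 4) := fun i => C.U_mono i (by norm_num)
  obtain ⟨β, D, T, hD, hT, hβ⟩ := sv_forms hK hσ
    (fun i p hp hp' => mul_ne_zero (hF.ne i p hp) (hK0 p hp')) hα hc (2 + ‖μ‖)
  have a1 : ∀ i j, ∀ p ∈ C.U i 2 ∩ C.U j 2, ∀ a, C.Prim (C.df F⁻¹ β i j) a p →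
      C.Prim (C.df (F⁻¹ * C.tw μ) (fun i q => Complex.exp (μ * i.2) • β i q) i j)
        ((fun _ => Complex.exp (μ * i.2)) * a) p := fun i j p _ a ha =>
    (ha.hol_mul (holAt_const _)).congr (.of_forall fun q => (k4_df β i j q).symm) .rfl
  obtain ⟨f, f1, f2⟩ := h2 0 D (fun i q => Complex.exp (μ * i.2) • β i q) ⟨hD,
    fun i p hp => (hβ i p hp).1.smul (smAt_const _), fun i p hp => by
      rw [norm_smul]
      refine (mul_le_mul (Complex.norm_exp_le_exp_norm _) (hβ i p hp).2.1 (norm_nonneg _)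
        (Real.exp_pos _).le).trans (le_of_eq ?_)
      rw [wt_zero, wt_zero, mul_left_comm, ← Real.exp_add, norm_mul, Complex.norm_intCast]
      ring_nf,
    fun i j p hp => by
      have hp' : p ∈ C.U i 2 ∩ C.U j 2 := ⟨m1 i hp.1, m1 j hp.2⟩
      obtain ⟨k1, -, a, ha⟩ := hβ i p hp.1
      obtain ⟨k2, -, a', ha'⟩ := hβ j p hp.2
      obtain ⟨a, ha⟩ := sv_cancel (hσ i p hp'.1) (h0 i p hp'.1)
        (k1.sub (k2.smul ((sv_inv hF).hol i j p hp').smAt))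
        ((ha'.sub ha).congr (sv_df hF α β hp') (EventuallyEq.refl _ _))
      exact ⟨_, a1 i j p hp' a ha⟩⟩
  obtain ⟨f', A', e1, e2⟩ := sv_smooth (F := F⁻¹ * C.tw μ) (by norm_num) zero_le_one
    (mul_nonneg hK₂ hD) f1 fun i j p hp => (f2 i j p hp).1
  obtain ⟨A, hA⟩ := smF_bdd hL fun p _ => hα p
  obtain ⟨T₀, hT₀⟩ := hL.exists_bound_of_continuousOn C.continuous_t.continuousOn
  set T' : ℤ := max T (⌈T₀ + C.R⌉ + 1) with hT'
  have h3 : ∀ i : C.I, ∀ p ∈ C.U i (7 / 4), ‖(α - fun q => (F i * s) q • β i q) p‖ ≤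
      if T' ≤ |i.2| then 0 else |A| + B * B₁ * D := fun i p hp => by
    split_ifs with hi
    · have k1 : α p = 0 := hL0 p fun h => by
        have k2 := abs_le.1 (hT₀ p h)
        have k3 := abs_le.1 (C.t_ch hp.1)
        have k4 : (⌈T₀ + C.R⌉ : ℝ) + 1 ≤ |(i.2 : ℝ)| := by
          exact_mod_cast (le_max_right _ _).trans hi
        have k5 : |(i.2 : ℝ)| ≤ T₀ + C.R := abs_le.2 ⟨by linarith, by linarith⟩
        linarith [Int.le_ceil (T₀ + C.R)]
      simp [k1, hT i ((le_max_left _ _).trans hi), sv_z]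
    · have k1 : ‖α p‖ ≤ |A| := by
        by_cases h : p ∈ L
        · exact (hA p h).trans (le_abs_self A)
        · simp [hL0 p h]
      have k2 := (hF.bd i p (m1 i hp)).1
      have k3 := (hβ i p hp).2.1.trans (mul_le_of_le_one_right hD (C.wt_le_one (by positivity) 0 i))
      have k5 := (norm_nonneg _).trans k2
      refine (norm_sub_le _ _).trans (add_le_add k1 ?_)
      rw [norm_smul, Pi.mul_apply, norm_mul]
      exact mul_le_mul (mul_le_mul k2 (hB₁ p) (norm_nonneg _) k5) k3 (norm_nonneg _)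
        (mul_nonneg k5 ((norm_nonneg _).trans (hB₁ p)))
  choose b hb using fun i => hd i _ _ fun p hp => ⟨h3 i p hp, (hβ i p hp).2.2⟩
  have h4 : ∀ i : C.I, T' ≤ |i.2| → ∀ p ∈ C.U i (3 / 2), b i p = 0 := fun i hi p hp => by
    simpa [hi] using (hb i p hp).2
  obtain ⟨D', -, hD'⟩ := C.wt_fin 1 T' (B := 0) (P := fun i x => ∀ p ∈ C.U i (3 / 2),
    ‖Complex.exp (-(μ * C.t p)) * b i p‖ ≤ x) (fun i x y h k p hp => (k p hp).trans h)
    (fun i => ⟨Real.exp (‖μ‖ * (|(i.2 : ℝ)| + C.R)) * _, fun p hp => by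
      rw [norm_mul]
      refine mul_le_mul ((Complex.norm_exp_le_exp_norm _).trans (Real.exp_le_exp.2 ?_))
        (hb i p hp).2 (norm_nonneg _) (Real.exp_pos _).le
      rw [norm_neg, norm_mul, Complex.norm_real, Real.norm_eq_abs]
      have k := abs_le.1 (C.t_ch hp.1)
      exact mul_le_mul_of_nonneg_left (abs_le.2 ⟨by linarith [le_abs_self (i.2 : ℝ)],
        by linarith [neg_abs_le (i.2 : ℝ)]⟩) (norm_nonneg _)⟩)
    fun i hi p hp => by simp [h4 i hi p hp]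
  refine ⟨β, b, f', T', max A' D', h4, fun i p hp => ⟨(hβ i p (m2 i hp)).1, (hb i p hp).1, ?_,
    (e2 i p hp).2.trans (mul_le_mul_of_nonneg_right (le_max_left _ _) (C.wt_pos _ _ _).le),
    (hD' i p hp).trans (mul_le_mul_of_nonneg_right (le_max_right _ _) (C.wt_pos _ _ _).le)⟩,
    fun i j p hp => ?_⟩
  · refine ((e2 i p hp).1.div (tw_sm μ i p) (tw_ne μ i p)).continuousAt.congr
      (.of_forall fun q => ?_)
    have := tw_ne (C := C) μ i q
    simp only [Pi.mul_apply, Pi.div_apply, Pi.inv_apply]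
    field_simp
  · have hp' : p ∈ C.U i 2 ∩ C.U j 2 := ⟨m1 i (m2 i hp.1), m1 j (m2 j hp.2)⟩
    have k0 := (((hb j p hp.2).1.sub (hb i p hp.1).1).congr (sv_df hF α β hp')
      (EventuallyEq.refl _ _)).hol_mul (holAt_const (Complex.exp (μ * i.2)))
    have k1 := (sv_mul (hσ i p hp'.1) (f2 i j p hp)).hol_sub (k0.congr (.of_forall fun q => by
      beta_reduce
      rw [k4_df, smul_comm]) .rfl)
    refine k1.congr ((sv_ne hF hp'.1).mono fun q hq => ?_)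
    have k2 := congrFun (e1 i j) q
    simp only [Pi.sub_apply, Pi.mul_apply, Pi.inv_apply, tw, mul_add, Complex.exp_add,
      Complex.exp_neg] at k2 ⊢
    rw [← k2]
    field_simp
    ring

end Cov

end Vale.Agent.P267
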