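import Vale.Agent.P267K.K4b

/-! P267: solving modulo a periodic section. -/

open scoped Manifold ContDiff Topology
open Filter Metric Set

noncomputable section

namespace Vale.Agent.P267

set_option linter.unusedSectionVars false

variable {M : Type} [TopologicalSpace M] [ChartedSpace C2 M] [T2Space M]

/-- Holomorphic modulo `σ`, with a continuous cofactor. -/
def Dm (σ f : M → ℂ) (x : M) : Prop :=
  ∃ H a : M → ℂ, HolAt H x ∧ ContinuousAt a x ∧ f =ᶠ[𝓝 x] H + σ * a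

theorem Dm.add {σ f h : M → ℂ} {x : M} (h1 : Dm σ f x) (h2 : Dm σ h x) : Dm σ (f + h) x := by
  obtain ⟨H, a, k1, k2, k3⟩ := h1
  obtain ⟨H', a', k4, k5, k6⟩ := h2
  refine ⟨H + H', a + a', k1.add k4, k2.add k5, ?_⟩
  filter_upwards [k3, k6] with q e1 e2
  simp only [Pi.add_apply, Pi.mul_apply, e1, e2]
  ring

theorem Dm.smul {σ f : M → ℂ} {x : M} (c : ℂ) (h1 : Dm σ f x) : Dm σ (c • f) x := by
  obtain ⟨H, a, k1, k2, k3⟩ := h1
  refine ⟨c • H, c • a, k1.smul c, k2.const_smul c, k3.mono fun q e => ?_⟩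
  simp only [Pi.add_apply, Pi.mul_apply, Pi.smul_apply, smul_eq_mul, e]
  ring

theorem Dm.congr {σ f h : M → ℂ} {x : M} (h1 : Dm σ f x) (e : f =ᶠ[𝓝 x] h) : Dm σ h x := by
  obtain ⟨H, a, k1, k2, k3⟩ := h1
  exact ⟨H, a, k1, k2, e.symm.trans k3⟩

theorem dm_sum {σ : M → ℂ} {x : M} {W : Finset ℤ} {f : ℤ → M → ℂ} (h : ∀ k ∈ W, Dm σ (f k) x) :
    Dm σ (∑ k ∈ W, f k) x :=
  Finset.sum_induction f (fun f => Dm σ f x) (fun _ _ => Dm.add)
    ⟨0, 0, holAt_zero, continuousAt_const, by simp⟩ h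

theorem Dm.cd {σ f : M → ℂ} {x : M} (h : Dm σ f x) (hσ : HolAt σ x) (h0 : σ x = 0) :
    MDifferentiableAt 𝓘(ℂ, C2) 𝓘(ℂ, ℂ) f x := by
  obtain ⟨H, a, k1, k2, k3⟩ := h
  exact (k1.cd.add (hσ.cd_mul h0 k2)).congr_of_eventuallyEq k3

namespace Cov
variable {C : Cov M} {α : M → C2 →L[ℝ] ℂ} {F : C.I → M → ℂ} {B : ℝ} {s : M → ℂ} {μ : ℂ} {N : ℕ}

/-- The first cohomology of the flat bundle on the finite cover vanishes. -/
def H1Z (C : Cov M) (μ : ℂ) (N : ℕ) : Prop :=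
  ∀ P : C.I → M → ℂ, (∀ i p, P (C.sh i N) ((C.g ^ (N : ℤ)) p) = P i p) →
    (∀ i j, ∀ p ∈ C.U i (3 / 2) ∩ C.U j (3 / 2), HolAt (C.tw μ i * (P i - P j)) p) →
    ∃ w : M → ℂ, ∀ p, HolAt (C.tw μ (C.idx p) * (P (C.idx p) - w)) p

/-- The sum of the translates. -/
def trS (N : ℕ) (f : C.I → M → ℂ) (i : C.I) (p : M) : ℂ :=
  ∑' k : ℤ, f (C.sh i (k * N)) ((C.g ^ (k * N)) p)

theorem trS_per (f : C.I → M → ℂ) (i : C.I) (p : M) :
    trS N f (C.sh i N) ((C.g ^ (N : ℤ)) p) = trS N f i p := by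
  rw [trS, trS, ← (Equiv.addRight (1 : ℤ)).tsum_eq
    fun k : ℤ => f (C.sh i (k * N)) ((C.g ^ (k * N)) p)]
  refine tsum_congr fun k => ?_
  rw [sh_sh, ← C.gz_add, Equiv.coe_addRight, add_mul, one_mul, add_comm (N : ℤ)]

theorem trS_bd {f : C.I → M → ℂ} {D r : ℝ} (h : ∀ i, ∀ p ∈ C.U i r, ‖f i p‖ ≤ D * C.wt 1 0 i)
    (i : C.I) (k : ℤ) (p : M) (hp : p ∈ C.U i r) : ‖f (C.sh i (k * N)) ((C.g ^ (k * N)) p)‖ ≤
      D * Real.exp (-1 * |(i.2 : ℝ) - k * N|) := by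
  simpa [wt, sh] using h _ _ ((sh_mem i (k * N) r p).2 hp)

theorem k4_solve (hN : 0 < N) (hF : C.Fr F 2 B)
    (hp : ∀ i p, F (C.sh i N) ((C.g ^ (N : ℤ)) p) = F i p)
    (hs : ∀ p, s ((C.g ^ (N : ℤ)) p) = s p) (hσ : ∀ i, ∀ p ∈ C.U i 2, HolAt (F i * s) p)
    (hb : Bdd s) (h0 : ∀ i, ∀ p ∈ C.U i 2, ¬ F i * s =ᶠ[𝓝 p] 0) {K₂ : ℝ} (hK₂ : 0 ≤ K₂)
    (h2 : C.S2 (F⁻¹ * C.tw μ) (7 / 4) (3 / 2) 1 K₂) (h1 : C.H1Z μ N) {K L : Set M}
    (hK : IsCompact K) (hK0 : ∀ p ∈ K, s p ≠ 0) (hα : ∀ p, C.SmF α p)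
    (hc : ∀ p ∉ K, ∃ a, C.Prim α a p) (hL : IsCompact L) (hL0 : ∀ p ∉ L, α p = 0) :
    ∃ h : M → ℂ, ∀ x, s x = 0 → (∀ k : ℤ, k ≠ 0 → (C.g ^ (k * N)) x ∉ L) → ∀ a, C.Prim α a x →
      MDifferentiableAt 𝓘(ℂ, C2) 𝓘(ℂ, ℂ) (h - a) x := by
  obtain ⟨β, b, f, T, D, k1, k2, k3⟩ := k4_data hF hσ hb h0 hK₂ h2 hK hK0 hα hc hL hL0
  obtain ⟨B₁, hB₁⟩ := hb
  obtain ⟨S, -, hS⟩ := wt_tsum one_pos
  have hsum := fun (x : ℤ) (A : ℝ) => (hS N hN x).1.mul_left A
  set e : C.I → M → ℂ := fun i q => Complex.exp (-(μ * C.t q)) * b i q with he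
  have b1 := trS_bd (N := N) (f := f) fun i p hp => (k2 i p hp).2.2.2.1
  have b2 := trS_bd (N := N) (f := e) fun i p hp => (k2 i p hp).2.2.2.2
  have s1 := fun i p hp => Summable.of_norm_bounded (hsum i.2 D) fun k => b1 i k p hp
  have s2 := fun i p hp => Summable.of_norm_bounded (hsum i.2 D) fun k => b2 i k p hp
  have m1 : ∀ i, C.U i (3 / 2) ⊆ C.U i 2 := fun i => C.U_mono i (by norm_num)
  obtain ⟨w, hw⟩ := h1 (fun i => trS N e i + s * trS N f i) (fun i p => by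
    simp only [Pi.add_apply, Pi.mul_apply, trS_per, hs]) fun i j p hp => by
      have hW := (C.isOpen_U i (3 / 2)).inter (C.isOpen_U j (3 / 2))
      set u : ℤ → M → ℂ := fun k => (C.tw μ (C.sh i (k * N)) * fun q =>
        (e (C.sh i (k * N)) q + s q * f (C.sh i (k * N)) q) -
          (e (C.sh j (k * N)) q + s q * f (C.sh j (k * N)) q)) ∘ (C.g ^ (k * N) : M ≃ₜ M) with hu
      have hD : ∀ l (k : ℤ), ∀ q ∈ C.U l (3 / 2), ‖e (C.sh l (k * N)) ((C.g ^ (k * N)) q) +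
          s ((C.g ^ (k * N)) q) * f (C.sh l (k * N)) ((C.g ^ (k * N)) q)‖ ≤
            (D + B₁ * D) * Real.exp (-1 * |(l.2 : ℝ) - k * N|) := fun l k q hq => by
        refine (norm_add_le _ _).trans ?_
        rw [norm_mul (s _), add_mul, mul_assoc]
        exact add_le_add (b2 l k q hq) (mul_le_mul (hB₁ _) (b1 l k q hq) (norm_nonneg _)
          ((norm_nonneg _).trans (hB₁ q)))
      refine (C.hol_unif hW (f := fun W : Finset ℤ => fun q => ∑ k ∈ W, u k q) (fun W q hq =>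
        (HolAt.sum fun k _ => (C.hol_gz _).2 (k3 _ _ _ ⟨(sh_mem i _ _ q).2 hq.1,
          (sh_mem j _ _ q).2 hq.2⟩)).congr (.of_forall fun y => Finset.sum_apply y W u))
        (tendstoUniformlyOn_tsum (((hsum i.2 (D + B₁ * D)).add (hsum j.2 (D + B₁ * D))).mul_left
          (Real.exp (‖μ‖ * C.R))) fun k q hq => ?_) p hp).congr ?_
      · simp only [hu, Function.comp_apply, Pi.mul_apply, tw_sh, norm_mul]
        exact mul_le_mul ((tw_fr μ _).bd i q hq.1).1 ((norm_sub_le _ _).trans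
          (add_le_add (hD i k q hq.1) (hD j k q hq.2))) (norm_nonneg _) (Real.exp_pos _).le
      · filter_upwards [hW.mem_nhds hp] with q hq
        simp only [hu, Function.comp_apply, Pi.mul_apply, Pi.sub_apply, Pi.add_apply, tw_sh, trS,
          per_fun hs]
        rw [tsum_mul_left, (((s2 i q hq.1).hasSum.add ((s1 i q hq.1).hasSum.mul_left (s q))).sub
          ((s2 j q hq.2).hasSum.add ((s1 j q hq.2).hasSum.mul_left (s q)))).tsum_eq]
  refine ⟨fun q => Complex.exp (μ * C.t q) * w q, fun x hx hxL a ha => ?_⟩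
  set i := C.idx x with hi
  have hxi : x ∈ C.U i (3 / 2) := C.U_mono _ (by norm_num) (C.mem_U_idx x)
  have hN' : (1 : ℤ) ≤ N := by exact_mod_cast hN
  set W : Finset ℤ := insert 0 (Finset.Icc (-(|T| + |i.2|)) (|T| + |i.2|)) with hW
  have d1 : ∀ k ∈ W, Dm (F i * s) (Complex.exp (-(μ * (k * N))) •
      (b (C.sh i (k * N)) ∘ (C.g ^ (k * N) : M ≃ₜ M) - if k = 0 then a else 0)) x := fun k _ => by
    refine Dm.smul _ ?_
    have hy := (sh_mem i (k * N) _ x).2 hxi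
    obtain ⟨a', h3, h4⟩ : ∃ a', C.Prim α a' ((C.g ^ (k * N)) x) ∧
        a' ∘ (C.g ^ (k * N) : M ≃ₜ M) = if k = 0 then a else 0 := by
      split_ifs with hk
      · subst hk
        exact ⟨a, by simpa using ha, by simp; rfl⟩
      · exact ⟨0, Prim.of_hol holAt_zero (mem_of_superset
          (hL.isClosed.isOpen_compl.mem_nhds (hxL k hk)) hL0), rfl⟩
    have h5 := (h3.sub (k2 _ _ hy).2.1).congr (β := fun q => (F (C.sh i (k * N)) * s) q •
      β (C.sh i (k * N)) q) (.of_forall fun q => by simp) .rfl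
    obtain ⟨c, h6⟩ := sv_cancel (hσ _ _ (m1 _ hy)) (h0 _ _ (m1 _ hy)) (k2 _ _ hy).1 h5
    refine ⟨_, -(c ∘ (C.g ^ (k * N) : M ≃ₜ M)),
      (C.hol_gz _).2 ((sv_mul (hσ _ _ (m1 _ hy)) h6).hol_sub h5),
      ((C.sm_gz _).2 h6.1).continuousAt.neg, .of_forall fun q => ?_⟩
    simp only [← h4, Function.comp_apply, Pi.add_apply, Pi.sub_apply, Pi.mul_apply, Pi.neg_apply,
      per_fun hs, per_fr hp]
    ring
  have d2 : ContinuousAt (fun q => ∑' k : ℤ,
      ((F (C.sh i (k * N)))⁻¹ * f (C.sh i (k * N))) ((C.g ^ (k * N)) q)) x := by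
    refine (continuousOn_tsum (fun k q hq => (((k2 _ _ ((sh_mem i (k * N) _ q).2 hq)).2.2.1).comp
      (C.g ^ (k * N)).continuous.continuousAt).continuousWithinAt) ((hsum i.2 D).mul_left B)
      fun k q hq => ?_).continuousAt ((C.isOpen_U i (3 / 2)).mem_nhds hxi)
    have k4 := (hF.bd _ _ (m1 _ ((sh_mem i (k * N) _ q).2 hq))).2
    rw [Function.comp_apply, Pi.mul_apply, norm_mul]
    exact mul_le_mul k4 (b1 i k q hq) (norm_nonneg _) ((norm_nonneg _).trans k4)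
  have d3 : Dm (F i * s) (fun q => s q * (Complex.exp (μ * C.t q) * trS N f i q) -
      Complex.exp (-(μ * i.2)) * (C.tw μ i * (trS N e i + s * trS N f i - w)) q) x := by
    refine ⟨_, _, ((hw x).smul (Complex.exp (-(μ * i.2)))).neg,
      ((smAt_const μ).mul (C.t_sm x)).exp.continuousAt.mul d2, ?_⟩
    filter_upwards [sv_ne hF (m1 i hxi)] with q hq
    simp only [Pi.add_apply, Pi.neg_apply, Pi.smul_apply, Pi.mul_apply, Pi.inv_apply, smul_eq_mul,
      per_fr hp, tsum_mul_left, trS, ← hi]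
    field_simp
    ring
  refine (((dm_sum d1).add d3).congr ?_).cd (hσ i x (m1 i hxi)) (by simp [hx])
  filter_upwards [(C.isOpen_U i (3 / 2)).mem_nhds hxi] with q hq
  have e1 : trS N e i q = ∑ k ∈ W, e (C.sh i (k * N)) ((C.g ^ (k * N)) q) :=
    tsum_eq_sum fun k hk => by
      rw [hW, Finset.mem_insert, Finset.mem_Icc, ← abs_le, not_or, not_le] at hk
      have k4 : |k| ≤ |k * N| := by
        rw [abs_mul, abs_of_nonneg (zero_le_one.trans hN')]
        exact le_mul_of_one_le_right (abs_nonneg k) hN'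
      have k5 := abs_sub_abs_le_abs_sub (k * N) i.2
      rw [abs_sub_comm] at k5
      simp only [he]
      rw [k1 _ (by simp only [sh]; linarith [le_abs_self T, hk.2]) _ ((sh_mem i _ _ q).2 hq),
        mul_zero]
  have e2 : ∑ k ∈ W, Complex.exp (-(μ * (k * N))) * (if k = 0 then a else 0) q = a q := by
    rw [Finset.sum_eq_single_of_mem 0 (Finset.mem_insert_self _ _) fun k _ hk => by simp [hk]]
    simp
  have e3 : ∑ k ∈ W, Complex.exp (-(μ * (k * N))) * b (C.sh i (k * N)) ((C.g ^ (k * N)) q) =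
      Complex.exp (μ * C.t q) * trS N e i q := by
    rw [e1, Finset.mul_sum]
    refine Finset.sum_congr rfl fun k _ => ?_
    simp only [he, C.t_gz]
    rw [← mul_assoc (Complex.exp _), ← Complex.exp_add]
    push_cast
    ring_nf
  simp only [Pi.add_apply, Finset.sum_apply, Pi.smul_apply, Pi.sub_apply, Pi.mul_apply,
    Function.comp_apply, smul_eq_mul, mul_sub, Finset.sum_sub_distrib, e2, e3, tw, mul_add,
    Complex.exp_add, Complex.exp_neg (μ * i.2)]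
  field_simp
  ring

end Cov

end Vale.Agent.P267
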