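import Vale.Agent.P267S.SA4
import Vale.Agent.P267S.CBase

/-! P267: on every circle there is a multiplier without an eigenfunction. -/

open scoped Topology BoundedContinuousFunction
open Filter Metric Set

noncomputable section

namespace Vale.Agent.P267

set_option linter.unusedSectionVars false

/-- Infinitely many eigenvectors give a separated sequence. -/
theorem ne_riesz {V : Type} [NormedAddCommGroup V] [NormedSpace ℂ V] (A : V →ₗ[ℂ] V) (v : ℕ → V)
    (μ : ℕ → ℂ) (hμ : Function.Injective μ) (h0 : ∀ m, v m ≠ 0) (hA : ∀ m, A (v m) = μ m • v m) :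
    ∃ x : ℕ → V, (∀ m, x m ∈ Submodule.span ℂ (range v) ∧ ‖x m‖ = 1) ∧
      ∀ l m, l < m → ‖μ m‖ / 2 ≤ ‖A (x m) - A (x l)‖ ∨ μ m = 0 := by
  have hl : LinearIndependent ℂ v := Module.End.eigenvectors_linearIndependent' A μ hμ v fun m =>
    Module.End.hasEigenvector_iff.2 ⟨Module.End.mem_eigenspace_iff.2 (hA m), h0 m⟩
  set E : ℕ → Submodule ℂ V := fun m => Submodule.span ℂ (v '' Iio m) with hE
  have h1 : ∀ m, ∀ x ∈ E (m + 1), A x - μ m • x ∈ E m := fun m x hx => by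
    induction hx using Submodule.span_induction with
    | mem x hx =>
      obtain ⟨j, hj, rfl⟩ := hx
      rw [hA, ← sub_smul]
      rcases (Nat.lt_succ_iff.1 hj).eq_or_lt with rfl | hj
      · simp
      · exact Submodule.smul_mem _ _ (Submodule.subset_span ⟨j, hj, rfl⟩)
    | zero => simp
    | add x y _ _ hx hy =>
      rw [map_add, smul_add, add_sub_add_comm]
      exact add_mem hx hy
    | smul a x _ hx =>
      rw [map_smul, smul_comm, ← smul_sub]
      exact Submodule.smul_mem _ _ hx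
  have hm : ∀ {l m}, l ≤ m → E l ≤ E m := fun h =>
    Submodule.span_mono (image_mono (Iio_subset_Iio h))
  have h2 : ∀ m, ∃ x ∈ E (m + 1), ‖x‖ = 1 ∧ ∀ y ∈ E m, 1 / 2 ≤ ‖x - y‖ := fun m => by
    have : FiniteDimensional ℂ (E (m + 1)) :=
      FiniteDimensional.span_of_finite ℂ ((finite_Iio _).image v)
    obtain ⟨x, -, k1, k2⟩ := riesz_lemma_of_lt_one (𝕜 := ℂ) (F := (E m).submoduleOf (E (m + 1)))
      (Submodule.closed_of_finiteDimensional _)
      ⟨⟨v m, Submodule.subset_span ⟨m, Nat.lt_succ_self m, rfl⟩⟩,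
        hl.notMem_span_image (s := Iio m) (lt_irrefl m)⟩ (r := 1 / 2) (by norm_num)
    exact ⟨x, x.2, k1, fun y hy => k2 ⟨y, hm m.le_succ hy⟩ hy⟩
  choose x k1 k2 k3 using h2
  refine ⟨x, fun m => ⟨Submodule.span_mono (image_subset_range _ _) (k1 m), k2 m⟩,
    fun l m h => or_iff_not_imp_right.2 fun hne => ?_⟩
  have k4 : A (x l) ∈ E m := by
    have := add_mem (hm h.le (h1 l _ (k1 l))) ((E m).smul_mem (μ l) (hm h (k1 l)))
    rwa [sub_add_cancel] at this
  have k5 := k3 m _ ((E m).smul_mem (μ m)⁻¹ (sub_mem k4 (h1 m _ (k1 m))))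
  have e : A (x m) - A (x l) = μ m • (x m - (μ m)⁻¹ • (A (x l) - (A (x m) - μ m • x m))) := by
    rw [smul_sub, smul_inv_smul₀ hne]
    abel
  rw [e, norm_smul]
  nlinarith [norm_nonneg (μ m)]

variable {M : Type} [TopologicalSpace M] [ChartedSpace C2 M] [T2Space M]

namespace Cov
variable (C : Cov M)

/-- The maximum principle on a half of the cover. -/
theorem ne_max {h : M → ℂ} (hh : ∀ p, HolAt h p) {T B S : ℝ} (hB : ∀ p, C.t p ≤ T → ‖h p‖ ≤ B)
    (hS : ∀ p, C.t p ∈ Icc (T - (2 * C.R + 1)) T → ‖h p‖ ≤ S) {p : M} (hp : C.t p ≤ T)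
    (h0 : 0 ≤ S) : ‖h p‖ ≤ S := by
  obtain ⟨θ, hθ, hs⟩ := C.sa_sub_one
  have key : ∀ l : ℝ, 0 < l → ‖h p‖ ≤ S * Real.exp (l * (T - C.t p)) := fun l hl => by
    have : Nonempty {q // C.t q ≤ T} := ⟨⟨p, hp⟩⟩
    set φ : {q // C.t q ≤ T} → ℝ := fun q => ‖h q‖ * Real.exp (l * (C.t q - T)) with hφ
    have e1 : ∀ q : {q // C.t q ≤ T}, Real.exp (l * (C.t q - T)) ≤ 1 := fun q =>
      Real.exp_le_one_iff.2 (by nlinarith [q.2])
    have hb : BddAbove (range φ) := ⟨B, by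
      rintro _ ⟨q, rfl⟩
      exact (mul_le_of_le_one_right (norm_nonneg _) (e1 q)).trans (hB q q.2)⟩
    have h1 : ⨆ q, φ q ≤ max S (Real.exp (-(l * θ)) * ⨆ q, φ q) := ciSup_le fun q => by
      by_cases hq : T - (2 * C.R + 1) ≤ C.t q
      · exact le_max_of_le_left
          ((mul_le_of_le_one_right (norm_nonneg _) (e1 q)).trans (hS q ⟨hq, q.2⟩))
      · obtain ⟨y, k1, k2⟩ := hs h hh q l hl.le
        have k3 : C.t y ≤ T := by linarith [(abs_le.1 k1).2]
        refine le_max_of_le_right (le_trans ?_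
          (mul_le_mul_of_nonneg_left (le_ciSup hb ⟨y, k3⟩) (Real.exp_pos _).le))
        rw [Real.exp_zero, one_mul] at k2
        have k4 := mul_le_mul_of_nonneg_right k2 (Real.exp_pos (l * (C.t q - T) - l * θ)).le
        rw [mul_assoc, mul_assoc, ← Real.exp_add, ← Real.exp_add] at k4
        simp only [hφ]
        rw [mul_left_comm, ← Real.exp_add]
        calc _ = ‖h q‖ * Real.exp (l * θ + (l * (C.t q - T) - l * θ)) := by congr 2; ring
          _ ≤ _ := k4
          _ = _ := by congr 2; ring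
    have h2 : ⨆ q, φ q ≤ S := by
      rcases le_max_iff.1 h1 with k | k
      · exact k
      · have : Real.exp (-(l * θ)) < 1 := Real.exp_lt_one_iff.2 (by nlinarith)
        nlinarith
    have h3 := mul_le_mul_of_nonneg_right ((le_ciSup hb ⟨p, hp⟩).trans h2)
      (Real.exp_pos (l * (T - C.t p))).le
    simp only [hφ] at h3
    rwa [mul_assoc, ← Real.exp_add, show l * (C.t p - T) + l * (T - C.t p) = 0 by ring,
      Real.exp_zero, mul_one] at h3
  have h4 : Tendsto (fun l : ℝ => S * Real.exp (l * (T - C.t p))) (𝓝[>] 0) (𝓝 S) := by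
    have : Continuous fun l : ℝ => S * Real.exp (l * (T - C.t p)) := by fun_prop
    simpa using (this.tendsto 0).mono_left nhdsWithin_le_nhds
  exact ge_of_tendsto h4 (eventually_mem_nhdsWithin.mono key)

/-- Bounded sequences of holomorphic functions have close terms deeper in the cover. -/
theorem ne_cpt {X : ℕ → M → ℂ} (hX : ∀ m p, HolAt (X m) p) (hb : ∀ m p, C.t p ≤ 0 → ‖X m p‖ ≤ 1)
    {ε T : ℝ} (hε : 0 < ε) (hT : T ≤ -(2 * C.R)) (hT0 : T ≤ 0) :
    ∃ l m, l < m ∧ ∀ p, C.t p ≤ T → ‖X m p - X l p‖ ≤ ε := by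
  have h1 : ∀ p, ∃ y, C.t p ≤ 0 → Tendsto (fun m => X m p) (hyperfilter ℕ) (𝓝 y) := fun p => by
    by_cases hp : C.t p ≤ 0
    · exact (cb_lim _ (.of_forall fun m => hb m p hp)).imp fun _ h _ => h
    · exact ⟨0, fun h => absurd h hp⟩
  choose F hF using h1
  have h2 : ∀ᶠ m in hyperfilter ℕ, ∀ p, C.t p ∈ Icc (T - (2 * C.R + 1)) T →
      ‖X m p - F p‖ ≤ ε / 2 := by
    by_contra hn
    rw [← Ultrafilter.eventually_not] at hn
    obtain ⟨m₀, hm₀⟩ := hn.exists
    obtain ⟨p₀, -⟩ := not_forall.1 hm₀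
    have h3 : ∀ m, ∃ y, (¬ ∀ p, C.t p ∈ Icc (T - (2 * C.R + 1)) T → ‖X m p - F p‖ ≤ ε / 2) →
        C.t y ∈ Icc (T - (2 * C.R + 1)) T ∧ ε / 2 < ‖X m y - F y‖ := fun m => by
      by_cases h : ∀ p, C.t p ∈ Icc (T - (2 * C.R + 1)) T → ‖X m p - F p‖ ≤ ε / 2
      · exact ⟨p₀, fun h' => absurd h h'⟩
      · obtain ⟨y, hy⟩ := not_forall.1 h
        exact ⟨y, fun _ => ⟨(Classical.not_imp.1 hy).1, not_le.1 (Classical.not_imp.1 hy).2⟩⟩
    choose y hy using h3
    have h4 := hn.mono hy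
    obtain ⟨p, -, hp⟩ := (C.isCompact_t (T - (2 * C.R + 1)) T).ultrafilter_le_nhds
      ((hyperfilter ℕ).map y) (le_principal_iff.2 (mem_map.2 (h4.mono fun m k => k.1)))
    have hpT : C.t p ≤ T := le_of_tendsto ((C.continuous_t.tendsto p).comp hp)
      (h4.mono fun m k => k.1.2)
    have h5 : ∀ q ∈ C.U (C.idx p) 1, C.t q ≤ 0 := fun q hq => by
      linarith [abs_le.1 (C.cb_lev hq), abs_le.1 (C.cb_lev (C.cb_mem_idx p))]
    obtain ⟨G, hG⟩ := C.cb_montel_ch (hyperfilter ℕ) (C.idx p) (r := 1) (B := 1) (by norm_num)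
      (f := X) (.of_forall fun m q hq => ⟨hX m q, hb m q (h5 q hq)⟩)
    have h6 := ((hG p (C.cb_mem_idx p)).2 y hp).sub
      ((cb_cont (hG p (C.cb_mem_idx p)).1).tendsto.comp hp)
    rw [sub_self] at h6
    have h7 : ε / 2 ≤ ‖(0 : ℂ)‖ := ge_of_tendsto h6.norm (by
      filter_upwards [h4, hp ((C.cb_open _ 1).mem_nhds (C.cb_mem_idx p))] with m k1 k2
      rw [Function.comp_apply, tendsto_nhds_unique ((hG _ k2).2 _ tendsto_const_nhds)
        (hF _ (h5 _ k2))]
      exact k1.2.le)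
    rw [norm_zero] at h7
    linarith
  obtain ⟨l, hl⟩ := h2.exists
  obtain ⟨m, hm, hlm⟩ := (h2.and (Nat.hyperfilter_le_atTop (eventually_gt_atTop l))).exists
  refine ⟨l, m, hlm, fun p hp => C.ne_max (h := X m - X l) (fun q => cb_sub (hX m q) (hX l q))
    (B := 1 + 1) (fun q hq => (norm_sub_le _ _).trans
      (add_le_add (hb m q (hq.trans hT0)) (hb l q (hq.trans hT0)))) (fun q hq => ?_) hp hε.le⟩
  have := norm_sub_le_norm_sub_add_norm_sub (X m q) (F q) (X l q)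
  rw [norm_sub_rev (F q)] at this
  exact this.trans (by linarith [hm q hq, hl q hq])

/-- A multiplier of given modulus without an eigenfunction. -/
theorem noEig {N : ℕ} (hN : 2 * C.R ≤ N) (hN0 : 0 < N) {ρ : ℝ} (hρ : 1 ≤ ρ) :
    ∃ c : ℂ, ‖c‖ = ρ ∧ ∀ f : M → ℂ, (∀ p, HolAt f p) →
      (∀ p, f ((C.g ^ (N : ℤ)) p) = c * f p) → f = 0 := by
  by_contra hn
  have hρ0 : 0 < ρ := one_pos.trans_le hρ
  have hN' : (1 : ℝ) ≤ N := by exact_mod_cast hN0
  obtain ⟨c, hc, hc'⟩ : ∃ c : ℕ → ℂ, Function.Injective c ∧ ∀ m, ‖c m‖ = ρ := by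
    have hi : (sphere (0 : ℂ) ρ).Infinite :=
      (isConnected_sphere (by simp) 0 hρ0.le).isPreconnected.infinite_of_nontrivial
        ⟨ρ, by simp [hρ0.le], -ρ, by simp [hρ0.le], by
          rw [Ne, self_eq_neg]
          exact_mod_cast hρ0.ne'⟩
    exact ⟨fun m => hi.natEmbedding _ m, fun a b h => (hi.natEmbedding _).injective
      (Subtype.ext h), fun m => mem_sphere_zero_iff_norm.1 (hi.natEmbedding _ m).2⟩
  have h1 : ∀ m, ∃ f : M → ℂ, (∀ p, HolAt f p) ∧ (∀ p, f ((C.g ^ (N : ℤ)) p) = c m * f p) ∧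
      f ≠ 0 := fun m => by
    by_contra h
    exact hn ⟨c m, hc' m, fun f k1 k2 => not_not.1 fun k3 => h ⟨f, k1, k2, k3⟩⟩
  choose f k1 k2 k3 using h1
  have c0 : ∀ m, c m ≠ 0 := fun m => norm_pos_iff.1 (hc' m ▸ hρ0)
  have k4 : ∀ m p, f m ((C.g ^ (-N : ℤ)) p) = (c m)⁻¹ * f m p := fun m p => by
    have := k2 m ((C.g ^ (-N : ℤ)) p)
    rw [C.cb_zpow_neg'] at this
    rw [this, inv_mul_cancel_left₀ (c0 m)]
  have k5 : ∀ m (j : ℕ) p, f m ((C.g ^ (-(j * N) : ℤ)) p) = (c m)⁻¹ ^ j * f m p := fun m j p => by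
    induction j with
    | zero => simp
    | succ j ih =>
      rw [show (-((j + 1 : ℕ) * N) : ℤ) = -N + -(j * N) by push_cast; ring, C.cb_zpow_add, k4, ih]
      ring
  have hcont : ∀ m, Continuous (f m) := fun m =>
    continuous_iff_continuousAt.2 fun p => cb_cont (k1 m p)
  have k6 : ∀ m, ∃ B, ∀ p, C.t p ≤ 0 → ‖f m p‖ ≤ B := fun m => by
    obtain ⟨B, hB⟩ := (C.isCompact_t 0 N).exists_bound_of_continuousOn (hcont m).continuousOn
    refine ⟨B, fun p hp => ?_⟩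
    have hN1 : (0 : ℝ) < N := by linarith
    set j := ⌈-C.t p / N⌉₊
    have e1 := (div_le_iff₀ hN1).1 (Nat.le_ceil (-C.t p / N))
    have e2 := (lt_div_iff₀ hN1).1 (sub_lt_iff_lt_add.2
      (Nat.ceil_lt_add_one (div_nonneg (neg_nonneg.2 hp) hN1.le)))
    have e3 := k5 m j ((C.g ^ (j * N : ℤ)) p)
    rw [C.cb_zpow_neg] at e3
    rw [e3, norm_mul, norm_pow, norm_inv, hc']
    refine (mul_le_of_le_one_left (norm_nonneg _) (pow_le_one₀ (by positivity)
      (inv_le_one_of_one_le₀ hρ))).trans (hB _ ?_)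
    rw [mem_preimage, C.cb_t]
    push_cast
    constructor <;> linarith
  choose B hB using k6
  let W := {p : M // C.t p ≤ 0}
  have hG : ∀ p : W, C.t ((C.g ^ (-N : ℤ)) p) ≤ 0 := fun p => by
    rw [C.cb_t]; push_cast; linarith [p.2]
  let G : C(W, W) := ⟨fun p => ⟨(C.g ^ (-N : ℤ)) p, hG p⟩,
    ((C.g ^ (-N : ℤ)).continuous.comp continuous_subtype_val).subtype_mk hG⟩
  let v : ℕ → W →ᵇ ℂ := fun m => BoundedContinuousFunction.ofNormedAddCommGroup (fun p => f m p)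
    ((hcont m).comp continuous_subtype_val) (B m) fun p => hB m p p.2
  obtain ⟨x, h2, h3⟩ := ne_riesz (BoundedContinuousFunction.compContinuousCLM ℂ ℂ G).toLinearMap v
    (fun m => (c m)⁻¹) (fun a b h => hc (inv_injective h)) (fun m h => by
      obtain ⟨p, hp⟩ := Function.ne_iff.1 (k3 m)
      obtain ⟨j, hj⟩ := exists_nat_ge |C.t p|
      have e := DFunLike.congr_fun h ⟨(C.g ^ (-(j * N) : ℤ)) p, by
        rw [C.cb_t]
        push_cast
        nlinarith [le_abs_self (C.t p), abs_nonneg (C.t p)]⟩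
      exact mul_ne_zero (pow_ne_zero j (inv_ne_zero (c0 m))) hp ((k5 m j p).symm.trans e))
    fun m => BoundedContinuousFunction.ext fun p => k4 m p
  have h4 : ∀ y ∈ Submodule.span ℂ (range v), ∃ Y : M → ℂ, (∀ p, HolAt Y p) ∧ ∀ p : W, y p = Y p :=
    fun y hy => by
      induction hy using Submodule.span_induction with
      | mem y hy =>
        obtain ⟨m, rfl⟩ := hy
        exact ⟨f m, k1 m, fun _ => rfl⟩
      | zero => exact ⟨0, fun p => cb_const 0 p, fun _ => rfl⟩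
      | add y z _ _ hy hz =>
        obtain ⟨Y, a1, a2⟩ := hy
        obtain ⟨Z, b1, b2⟩ := hz
        exact ⟨Y + Z, fun p => cb_add (a1 p) (b1 p), fun p => by simp [a2, b2]⟩
      | smul a y _ hy =>
        obtain ⟨Y, a1, a2⟩ := hy
        exact ⟨a • Y, fun p => cb_smul a (a1 p), fun p => by simp [a2]⟩
  choose X h5 h6 using fun m => h4 _ (h2 m).1
  obtain ⟨l, m, hlm, h7⟩ := C.ne_cpt h5 (fun m p hp => by
    rw [← h6 m ⟨p, hp⟩, ← (h2 m).2]
    exact (x m).norm_coe_le_norm _) (ε := ρ⁻¹ / 4) (T := -N) (by positivity) (by linarith)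
    (by linarith)
  have h8 := (h3 l m hlm).resolve_right (inv_ne_zero (c0 m))
  rw [norm_inv, hc'] at h8
  have h9 := h8.trans ((BoundedContinuousFunction.norm_le (C := ρ⁻¹ / 4) (by positivity)).2
    fun p => by
      have := h7 (G p) (by
        change C.t ((C.g ^ (-N : ℤ)) p) ≤ _
        rw [C.cb_t]; push_cast; linarith [p.2])
      rwa [← h6, ← h6] at this)
  linarith [inv_pos.2 hρ0]

end Cov

end Vale.Agent.P267
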