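import Vale.Agent.P267K.K4c
import Vale.Agent.P267K.NoEig
import Vale.Agent.P267S.SCH2
import Vale.Agent.P267S.SCLA

/-! P267: the first cohomology of a generic large flat bundle vanishes. -/

open scoped Manifold ContDiff Topology
open Filter Metric Set

noncomputable section

namespace Vale.Agent.P267

set_option linter.unusedSectionVars false

variable {M : Type} [TopologicalSpace M] [ChartedSpace C2 M] [T2Space M]

namespace Cov
variable {C : Cov M} {N : ℕ}

theorem k4_h1 (hN : 2 * C.R ≤ N) (hN0 : 0 < N)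
    (hE : ∀ μ : ℂ, Euler (C.g ^ (N : ℤ) : M ≃ₜ M) (C.bun (C.tw μ)) C.κ 0) (μ₀ : ℝ) :
    ∃ μ : ℂ, μ₀ ≤ μ.re ∧ C.H1Z μ N := by
  obtain ⟨μ₁, h1⟩ := k4_nosec (fr_one (C := C) 2) one_lt_two (by norm_num)
  obtain ⟨m, m0, m1, m2⟩ : ∃ m : ℝ, 0 ≤ m ∧ μ₀ ≤ m ∧ μ₁ ≤ m := ⟨max 0 (max μ₀ μ₁), le_max_left _ _,
    (le_max_left _ _).trans (le_max_right _ _), (le_max_right _ _).trans (le_max_right _ _)⟩
  obtain ⟨c, hc, h2⟩ := C.noEig hN hN0 (ρ := Real.exp (m * N)) (Real.one_le_exp (by positivity))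
  have c0 : c ≠ 0 := norm_pos_iff.1 (hc ▸ Real.exp_pos _)
  have N0 : (N : ℂ) ≠ 0 := Nat.cast_ne_zero.2 hN0.ne'
  have N1 : (N : ℝ) ≠ 0 := Nat.cast_ne_zero.2 hN0.ne'
  obtain ⟨μ, e1, e2⟩ : ∃ μ : ℂ, μ.re = m ∧ Complex.exp (μ * N) = c := ⟨Complex.log c / N, by
    rw [Complex.div_natCast_re, Complex.log_re, hc, Real.log_exp, mul_div_cancel_right₀ _ N1], by
    rw [div_mul_cancel₀ _ N0, Complex.exp_log c0]⟩
  have u : ∀ p, p ∈ C.U (C.idx p) (3 / 2) := fun p => C.U_mono _ (by norm_num) (C.mem_U_idx p)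
  refine ⟨μ, e1 ▸ m1, fun P hP hH => ?_⟩
  obtain ⟨β, w, hw, h3, h4⟩ := la_pos (hE μ) (f₂ := fun p => P (C.idx p)) (fun s hs hh => by
    obtain ⟨B', hB⟩ := C.sa_dual (tw_fr μ 2) (by norm_num)
    by_contra h0
    obtain ⟨v, x, k1, k2, k3⟩ := sch2_norm hN0 hB (congrFun hs) hh h0
    rw [h1 μ (e1 ▸ m2) v (by rwa [one_mul]) ⟨1, fun p => (k2 p).trans (by
      rw [one_mul]
      exact Real.one_le_exp (by positivity))⟩, Pi.zero_apply, norm_zero] at k3
    exact absurd k3 (by norm_num)) (Submodule.subset_span ⟨funext fun p => funext fun q => by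
      simp only [pull]
      rw [idx_sh, hP], fun p => by
      filter_upwards [(C.isOpen_U _ _).mem_nhds (u p)] with q hq
      refine (hH _ _ q ⟨u q, hq⟩).neg.congr (.of_forall fun y => ?_)
      simp only [Pi.neg_apply, Pi.mul_apply, Pi.sub_apply, bun]
      ring⟩)
  by_cases hβ : β = 0
  · have h5 := h2 (fun q => Complex.exp (μ * C.t q) * w q) (fun p =>
      ((h3 p).smul (-Complex.exp (-(μ * (C.idx p).2)))).congr (.of_forall fun q => by
        simp only [hβ, Pi.smul_apply, Pi.mul_apply, Pi.sub_apply, smul_eq_mul, bun, tw, mul_add,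
          Complex.exp_add, Complex.exp_neg]
        field_simp
        ring)) fun p => by
      rw [show w ((C.g ^ (N : ℤ)) p) = w p from congrFun hw p, C.t_gz, ← e2, ← mul_assoc,
        ← Complex.exp_add]
      push_cast
      ring_nf
    exact absurd (funext fun q => (mul_eq_zero.1 (congrFun h5 q)).resolve_left
      (Complex.exp_ne_zero _)) (h4.resolve_left (not_not.2 hβ))
  · refine ⟨β⁻¹ • w, fun p => ((h3 p).smul β⁻¹).congr (.of_forall fun q => ?_)⟩
    simp only [Pi.smul_apply, Pi.mul_apply, Pi.sub_apply, smul_eq_mul, bun]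
    field_simp

end Cov

end Vale.Agent.P267
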