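import Vale.Agent.P267K.K4d
import Vale.Agent.P267S.ST1
import Vale.Agent.P267.BE2
import Vale.Agent.P267C.Rat

/-! P267: a compact component of a periodic curve is rational. -/

open scoped Manifold ContDiff Topology
open Filter Metric Set Asymptotics

noncomputable section

namespace Vale.Agent.P267

set_option linter.unusedSectionVars false

variable {M : Type} [TopologicalSpace M] [ChartedSpace C2 M] [T2Space M]

namespace Cov
variable {C : Cov M} {F : C.I → M → ℂ} {B : ℝ} {s : M → ℂ} {N : ℕ} {D : Set M} {p : M}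

theorem k4_nhd (hN : 0 < N) (hD : IsCompact D)
    (hd : ∀ x ∈ D, ∀ k : ℤ, k ≠ 0 → (C.g ^ (k * N)) x ∉ D) (hp : p ∈ D) :
    ∀ᶠ y in 𝓝 p, ∀ k : ℤ, k ≠ 0 → ∀ x ∈ D, (C.g ^ (k * N)) x ≠ y := by
  obtain ⟨T, hT⟩ := hD.exists_bound_of_continuousOn C.continuous_t.continuousOn
  obtain ⟨n, hn⟩ : ∃ n : ℤ, T + |C.t p| + 1 < n := exists_int_gt _
  have a1 : ∀ᶠ y in 𝓝 p, ∀ k ∈ Finset.Icc (-n) n, k ≠ 0 → y ∉ (C.g ^ (k * N) : M ≃ₜ M) '' D :=
    (Finset.eventually_all _).2 fun k _ => by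
      by_cases hk : k = 0
      · exact .of_forall fun _ h => absurd hk h
      · filter_upwards [(hD.image (C.g ^ (k * N)).continuous).isClosed.isOpen_compl.mem_nhds
          fun ⟨x, hx, e⟩ => hd x hx k hk (e ▸ hp)] with y hy _ using hy
  have a2 : ∀ᶠ y in 𝓝 p, |C.t y| < |C.t p| + 1 :=
    C.continuous_t.abs.continuousAt.eventually_lt continuousAt_const (lt_add_one _)
  filter_upwards [a1, a2] with y y1 y2 k hk x hx e
  refine y1 k ?_ hk ⟨x, hx, e⟩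
  have k1 := C.t_gz (k * N) x
  have k2 := abs_le.1 (hT x hx)
  have k3 := abs_lt.1 y2
  have k4 : |((k * N : ℤ) : ℝ)| ≤ n := abs_le.2 ⟨by rw [e] at k1; linarith, by rw [e] at k1; linarith⟩
  have k5 : |k * N| ≤ n := by exact_mod_cast k4
  have hN' : (1 : ℤ) ≤ N := by exact_mod_cast hN
  rw [abs_mul, abs_of_nonneg (zero_le_one.trans hN')] at k5
  rw [Finset.mem_Icc, ← abs_le]
  exact (le_mul_of_one_le_right (abs_nonneg k) hN').trans k5

theorem k4_pole [IsManifold 𝓘(ℂ, C2) ω M] (hN : 0 < N) (hD : IsCompact D)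
    (hD0 : ∀ x ∈ D, s x = 0) (hd : ∀ x ∈ D, ∀ k : ℤ, k ≠ 0 → (C.g ^ (k * N)) x ∉ D) (hpD : p ∈ D)
    (hS : ∀ (α : M → C2 →L[ℝ] ℂ) (K L : Set M), IsCompact K → (∀ p ∈ K, s p ≠ 0) →
      (∀ p, C.SmF α p) → (∀ p ∉ K, ∃ a, C.Prim α a p) → IsCompact L → (∀ p ∉ L, α p = 0) →
      ∃ h : M → ℂ, ∀ x, s x = 0 → (∀ k : ℤ, k ≠ 0 → (C.g ^ (k * N)) x ∉ L) → ∀ a, C.Prim α a x →
        MDifferentiableAt 𝓘(ℂ, C2) 𝓘(ℂ, ℂ) (h - a) x) {c : M → ℂ × ℂ} {ψ : ℂ × ℂ → M}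
    (hc : P267C.Crd C2 c ψ p) (hz : ∀ᶠ y in 𝓝 p, (s y = 0 ↔ (c y).2 = 0)) :
    ∃ f κ, P267C.Pole C2 C.t D c p f κ := by
  obtain ⟨P, r, hP, hr, hp, hN', hT, hcP⟩ := crd_chart hc (hz.and (k4_nhd hN hD hd hpD))
  obtain ⟨α, a, h1, h2, h3, h4, h5⟩ := C.polar hP hT
  have hs1 : ∀ y ∈ P.source, s y = 0 ↔ P y 1 = 0 := fun y hy => by
    rw [show s y = 0 ↔ (c y).2 = 0 from (hN' hy).1, (hcP y hy).2, mul_eq_zero, or_iff_right hr]
  have h00 : ∀ y, P y 0 = 0 → P y 1 = 0 → P y = 0 := fun y e0 e1 => by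
    funext j
    fin_cases j
    exacts [e0, e1]
  have hp0 : P p = 0 := by
    obtain ⟨e0, e1⟩ := hcP p hp
    rw [hc.c0] at e0 e1
    exact h00 p ((mul_eq_zero.1 e0.symm).resolve_left hr) ((mul_eq_zero.1 e1.symm).resolve_left hr)
  have hB : closedBall (0 : C2) 2 ⊆ P.target :=
    (closedBall_subset_closedBall (by norm_num)).trans hT
  have hL : IsCompact (P.symm '' closedBall 0 2) :=
    (isCompact_closedBall 0 2).image_of_continuousOn (P.continuousOn_symm.mono hB)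
  have hKB : {z : C2 | 1 ≤ ‖z 1‖ ∧ ‖z‖ ≤ 2} ⊆ closedBall 0 2 := fun z hz =>
    mem_closedBall_zero_iff.2 hz.2
  have hKc : IsClosed {z : C2 | 1 ≤ ‖z 1‖ ∧ ‖z‖ ≤ 2} :=
    (isClosed_le continuous_const (continuous_apply 1).norm).inter
      (isClosed_le continuous_norm continuous_const)
  have hK : IsCompact (P.symm '' {z : C2 | 1 ≤ ‖z 1‖ ∧ ‖z‖ ≤ 2}) :=
    ((isCompact_closedBall 0 2).of_isClosed_subset hKc hKB).image_of_continuousOn
      (P.continuousOn_symm.mono (hKB.trans hB))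
  have hKs : ∀ y ∈ P.symm '' {z : C2 | 1 ≤ ‖z 1‖ ∧ ‖z‖ ≤ 2}, s y ≠ 0 := by
    rintro _ ⟨z, hz, rfl⟩ h0
    have hz' := hB (hKB hz)
    rw [hs1 _ (P.map_target hz'), P.right_inv hz'] at h0
    have := hz.1
    rw [h0, norm_zero] at this
    exact absurd this (by norm_num)
  obtain ⟨h, hv⟩ := hS α _ _ hK hKs h1 h3 hL fun y hy => (h2 y hy).1.self_of_nhds
  have key : ∀ (b : M → ℂ), ∀ x ∈ D, C.Prim α b x →
      MDifferentiableAt 𝓘(ℂ, C2) 𝓘(ℂ, ℂ) ((-r⁻¹) • (h - b)) x := fun b x hx hb =>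
    (hv x (hD0 x hx) (fun k hk ⟨z, hz, e⟩ =>
      (hN' (P.map_target (hB hz))).2 k hk x hx e.symm) b hb).const_smul _
  refine ⟨(-r⁻¹) • (h - a), 0, fun x hx hxp => key a x hx ?_, ⟨(-r⁻¹) • (h - 0), ?_⟩, ?_⟩
  · by_cases h0 : x ∈ P.source
    · have e1 := (hs1 x h0).1 (hD0 x hx)
      refine h4 x h0 (by rw [e1, norm_zero]; exact one_pos) fun e0 => hxp ?_
      exact P.injOn h0 hp ((h00 x e0 e1).trans hp0.symm)
    · have h6 := h2 x (by
        rintro ⟨z, hz, rfl⟩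
        exact h0 (P.map_target (hB hz)))
      exact Cov.Prim.of_hol (holAt_zero.congr h6.2.symm) h6.1
  · have h6 : ∀ᶠ y in 𝓝 p, ‖P y‖ < 1 :=
      (P.continuousAt hp).norm.eventually_lt continuousAt_const (by rw [hp0, norm_zero]; exact one_pos)
    filter_upwards [P.open_source.mem_nhds hp, h6] with y y1 y2 y3
    refine ⟨key 0 y y3 (Cov.Prim.of_hol holAt_zero (h5 y y1 y2).1), fun _ => ?_⟩
    simp only [Pi.smul_apply, Pi.sub_apply, Pi.zero_apply, smul_eq_mul, (h5 y y1 y2).2,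
      (hcP y y1).1, mul_inv]
    ring
  · obtain ⟨T, hTb⟩ := hD.exists_bound_of_continuousOn C.continuous_t.continuousOn
    have h6 : ∀ᶠ y in comap C.t atBot, C.t y < -T :=
      tendsto_comap.eventually (eventually_lt_atBot _)
    rw [inf_principal_eq_bot.2 (h6.mono fun y hy hy' => by
      linarith [(abs_le.1 (hTb y hy')).1])]
    exact tendsto_bot

/-- A compact piece of the zero set of a periodic section, disjoint from its translates, is
rational through each of its smooth points. -/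
theorem k4_rat [ConnectedSpace M] [IsManifold 𝓘(ℂ, C2) ω M]
    (hN : 2 * C.R ≤ N) (hN0 : 0 < N) (hF : C.Fr F 2 B)
    (hFp : ∀ i p, F (C.sh i N) ((C.g ^ (N : ℤ)) p) = F i p)
    (hsp : ∀ p, s ((C.g ^ (N : ℤ)) p) = s p) (hs : C.SecF F s) (hb : Bdd s) (h0 : s ≠ 0)
    (hE : ∀ μ : ℂ, Euler (C.g ^ (N : ℤ) : M ≃ₜ M) (C.bun (C.tw μ)) C.κ 0) (hD : IsCompact D)
    {V : Set M} (hV : IsOpen V) (hDV : D = V ∩ {x | s x = 0})
    (hd : ∀ x ∈ D, ∀ k : ℤ, k ≠ 0 → (C.g ^ (k * N)) x ∉ D) (hp : p ∈ D)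
    (hm : P267C.Sm C2 (fun x => ‖s x‖) p) :
    ∃ A, P267C.RatC C2 A ∧ A ⊆ D ∧ ∀ᶠ y in 𝓝 p, s y = 0 → y ∈ A := by
  classical
  have := C.second
  obtain ⟨c, ψ, hc, hz⟩ := hm
  simp only [norm_eq_zero] at hz
  obtain ⟨μ₀, h1⟩ := k4_twist hF.invC hN0 fun i p => by simp only [Pi.inv_apply, hFp]
  obtain ⟨μ, h2, h3⟩ := k4_h1 hN hN0 hE μ₀
  obtain ⟨K₂, h4, h5⟩ := h1 μ h2
  have hσ := C.sa_ext hF one_le_two hs
  have hD0 : ∀ x ∈ D, s x = 0 := fun x hx => (hDV ▸ hx).2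
  have u : ∀ x, x ∈ C.U (C.idx x) 2 := fun x => C.U_mono _ one_le_two (C.mem_U_idx x)
  obtain ⟨f, κ, h6⟩ := k4_pole hN0 hD hD0 hd hp (fun α K L => k4_solve hN0 hF hFp hsp hσ hb
    (fun i p hp => sv_germ (st_bun hF one_le_two) hF (fun q => hσ _ q (u q)) h0 hp) h4 h5 h3) hc hz
  have := ChartedSpace.locallyCompactSpace C2 M
  obtain ⟨L, hL, l1, l2⟩ := exists_compact_between hD hV (hDV ▸ inter_subset_left)
  set N' : M → ℝ := fun x => if x ∈ L then ‖s x‖ else 1 with hN'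
  have e1 : {x | N' x = 0} = D := by
    ext x
    by_cases hx : x ∈ L
    · simp [hN', hx, hDV, l2 hx]
    · simpa [hN', hx] using fun h => hx (interior_subset (l1 h))
  have e2 : ∀ x ∈ D, N' =ᶠ[𝓝 x] fun y => ‖s y‖ := fun x hx =>
    mem_of_superset (mem_interior_iff_mem_nhds.1 (l1 hx)) fun y hy => if_pos hy
  have θ : ∀ x, (fun y => ‖s y‖) =Θ[𝓝 x] (F (C.idx x) * s) := fun x => by
    have hU := (C.isOpen_U _ 2).mem_nhds (u x)
    refine ⟨.of_bound B ?_, .of_bound B ?_⟩ <;> filter_upwards [hU] with y hy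
    · have k := mul_le_mul_of_nonneg_right (hF.bd _ y hy).2 (norm_nonneg ((F (C.idx x) * s) y))
      rwa [← norm_mul, Pi.mul_apply, inv_mul_cancel_left₀ (hF.ne _ y hy), ← norm_norm (s y)] at k
    · rw [norm_norm, Pi.mul_apply, norm_mul]
      exact mul_le_mul_of_nonneg_right (hF.bd _ y hy).1 (norm_nonneg _)
  have hsec : P267C.Sec C2 N' := fun x => by
    by_cases hx : x ∈ D
    · exact ⟨_, holAt_iff_contMDiffAt.1 (hσ _ x (u x)), (e2 x hx).isTheta.trans (θ x)⟩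
    refine ⟨fun _ => 1, contMDiffAt_const, ?_⟩
    by_cases hx' : x ∈ L
    · have k1 : (F (C.idx x) * s) x ≠ 0 :=
        mul_ne_zero (hF.ne _ x (u x)) fun h => hx (hDV ▸ ⟨l2 hx', h⟩)
      obtain ⟨k2, k3⟩ := (θ x).trans ((isEquivalent_const_iff_tendsto k1).2
        (hσ _ x (u x)).continuousAt).isTheta
      obtain ⟨a, ha, k4⟩ := (k2.trans (isBigO_const_const _ (one_ne_zero (α := ℂ)) _)).exists_pos
      obtain ⟨b, hb, k5⟩ := ((isBigO_const_const (1 : ℂ) k1 _).trans k3).exists_pos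
      refine ⟨.of_bound (a + 1) (k4.bound.mono fun y hy => ?_),
        .of_bound (b + 1) (k5.bound.mono fun y hy => ?_)⟩ <;> simp only [hN'] <;> split_ifs
      · nlinarith [norm_nonneg (1 : ℂ)]
      · simp [ha.le]
      · nlinarith [norm_nonneg ‖s y‖]
      · simp [hb.le]
    · refine (EventuallyEq.isTheta (g := fun _ => (1 : ℝ)) (mem_of_superset
        (hL.isClosed.isOpen_compl.mem_nhds hx') fun y hy => if_neg hy)).trans ?_
      exact ⟨isBigO_const_const _ one_ne_zero _, isBigO_const_const _ one_ne_zero _⟩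
  obtain ⟨T, hT⟩ := hD.exists_bound_of_continuousOn C.continuous_t.continuousOn
  obtain ⟨x₀, hx₀⟩ := Function.ne_iff.1 h0
  obtain ⟨A, a1, a2, a3⟩ := P267C.Cu.rat (E := C2) (N := N') ⟨C.continuous_t, C.isCompact_t, hsec,
    P267C.sing_countable (by simp) hsec ⟨x₀, fun h => hx₀ (hD0 _ (e1 ▸ h))⟩,
    ⟨T, fun x hx => (le_abs_self _).trans (hT x (e1 ▸ hx))⟩, hc, by
      filter_upwards [e2 p hp, hz] with y y1 y2
      rw [y1, norm_eq_zero, y2], e1 ▸ h6⟩ fun Ω Φ z _ _ k1 k2 k3 _ => by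
    obtain ⟨w, w1, w2⟩ := (k2.and (k3.eventually (eventually_lt_atBot (-T)))).exists
    linarith [(abs_le.1 (hT _ (e1 ▸ (k1 w w1).2))).1]
  refine ⟨A, a1, fun x hx => e1 ▸ a2 x hx, ?_⟩
  filter_upwards [e2 p hp, a3] with y y1 y2 y3
  exact y2 (by rw [y1, y3, norm_zero])

end Cov

end Vale.Agent.P267
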