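import Vale.Agent.P267K.Defs

/-! P267, the case of a twisted canonical section: extension over countably many lines. -/

open scoped Manifold ContDiff Topology
open Filter Metric Set Asymptotics

noncomputable section

namespace Vale.Agent.P267K

open Vale.Agent.P267

set_option linter.unusedSectionVars false

theorem ka_line {U : Set (ℂ × ℂ)} (hU : IsOpen U) {z₀ : ℂ} {H : ℂ × ℂ → ℂ} {B : ℝ}
    (hH : ∀ v ∈ U, v.1 ≠ z₀ → AnalyticAt ℂ H v ∧ ‖H v‖ ≤ B) :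
    ∃ G : ℂ × ℂ → ℂ, AnalyticOnNhd ℂ G U ∧ ∀ v ∈ U, v.1 ≠ z₀ → G v = H v := by
  classical
  let e := ContinuousLinearEquiv.finTwoArrow ℂ ℂ
  have hf : Differentiable ℂ fun y => (e y).1 - z₀ := e.differentiable.fst.sub_const z₀
  obtain ⟨G, h2, h3, -⟩ := P271A.extendE (hU.preimage e.continuous) (f := fun y => (e y).1 - z₀)
    (h := fun y => if (e y).1 - z₀ = 0 then 0 else H (e y)) hf.differentiableOn
    (fun y hy h4 => ((hH _ hy (sub_ne_zero.1 h4)).1.differentiableAt.comp y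
      e.differentiableAt).congr_of_eventuallyEq
        ((hf.continuous.continuousAt.eventually_ne h4).mono fun x hx => if_neg hx))
    (fun y _ h4 => if_pos h4) fun K hK hK' => by
      refine (MeasureTheory.setLIntegral_mono' hK'.measurableSet
        (g := fun _ => ENNReal.ofReal (|B| ^ 2)) fun y hy => ?_).trans_lt ?_
      · refine ENNReal.ofReal_le_ofReal (pow_le_pow_left₀ (norm_nonneg _) ?_ 2)
        split_ifs with h4
        · rw [norm_zero]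
          exact abs_nonneg B
        · exact (hH _ (hK hy) (sub_ne_zero.1 h4)).2.trans (le_abs_self B)
      · rw [MeasureTheory.setLIntegral_const]
        exact ENNReal.mul_lt_top ENNReal.ofReal_lt_top hK'.measure_lt_top
  refine ⟨fun v => G (e.symm v), P278F.analyticOnNhd_of_differentiableOn hU
    (h2.comp e.symm.differentiableOn fun v hv => by simpa using hv), fun v hv h4 => ?_⟩
  have h5 : (e (e.symm v)).1 - z₀ ≠ 0 := by
    rw [e.apply_symm_apply]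
    exact sub_ne_zero.2 h4
  have h6 := h3 (e.symm v) (by simpa using hv) h5
  rwa [if_neg h5, e.apply_symm_apply] at h6

theorem ext_pl {W : Set (ℂ × ℂ)} (hW : IsOpen W) {S : Set ℂ} (hc : IsClosed S)
    (hS : S.Countable) {h : ℂ × ℂ → ℂ} (ha : ∀ v ∈ W, v.1 ∉ S → AnalyticAt ℂ h v) {B : ℝ}
    (hb : ∀ v ∈ W, v.1 ∉ S → ‖h v‖ ≤ B) :
    ∃ H : ℂ × ℂ → ℂ, AnalyticOnNhd ℂ H W ∧ ∀ v ∈ W, v.1 ∉ S → H v = h v := by
  have hn : ∀ v : ℂ × ℂ, (𝓝[{y | y.1 ∉ S}] v).NeBot := fun v =>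
    mem_closure_iff_nhdsWithin_neBot.1 (((hS.dense_compl ℂ).preimage isOpenMap_fst) v)
  obtain ⟨H, hH⟩ : ∃ H : ℂ × ℂ → ℂ, ∀ v, H v = limUnder (𝓝[{y | y.1 ∉ S}] v) h := ⟨_, fun _ => rfl⟩
  obtain ⟨gd, hgd⟩ : ∃ gd : ℂ × ℂ → Prop, ∀ v, gd v ↔
      ∃ G, AnalyticAt ℂ G v ∧ ∀ᶠ y in 𝓝 v, y.1 ∉ S → G y = h y := ⟨_, fun _ => Iff.rfl⟩
  have h1 : ∀ (G : ℂ × ℂ → ℂ) v, ContinuousAt G v → (∀ᶠ y in 𝓝 v, y.1 ∉ S → G y = h y) →
      Tendsto h (𝓝[{y | y.1 ∉ S}] v) (𝓝 (G v)) := fun G v a b =>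
    (a.tendsto.mono_left nhdsWithin_le_nhds).congr' (eventually_nhdsWithin_iff.2 b)
  have h2 : ∀ v ∈ W, gd v → AnalyticAt ℂ H v ∧ ‖H v‖ ≤ B := by
    intro v hv hg
    obtain ⟨G, a, b⟩ := (hgd v).1 hg
    have e : G =ᶠ[𝓝 v] H := by
      filter_upwards [a.eventually_analyticAt, b.eventually_nhds] with y a' b'
      have := hn y
      rw [hH, (h1 G y a'.continuousAt b').limUnder_eq]
    refine ⟨a.congr e, ?_⟩
    have := hn v
    rw [← e.self_of_nhds]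
    refine le_of_tendsto (h1 G v a.continuousAt b).norm (eventually_nhdsWithin_iff.2 ?_)
    filter_upwards [hW.mem_nhds hv] with y hy hy' using hb y hy hy'
  have h3 : ∀ v ∈ W, v.1 ∉ S → gd v := fun v hv hv' =>
    (hgd v).2 ⟨h, ha v hv hv', Eventually.of_forall fun _ _ => rfl⟩
  have h4 : ∀ v ∈ W, v.1 ∉ S → H v = h v := by
    intro v hv hv'
    have := hn v
    rw [hH, (h1 h v (ha v hv hv').continuousAt (Eventually.of_forall fun _ _ => rfl)).limUnder_eq]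
  refine ⟨H, fun v hv => (h2 v hv ?_).1, h4⟩
  obtain ⟨r, hr, hrW⟩ := Metric.isOpen_iff.1 hW v hv
  rw [← ball_prod_same] at hrW
  have hsub : ∀ z ∈ ball v.1 r, (¬ ∀ᶠ z' in 𝓝 z, ∀ w ∈ ball v.2 r, gd (z', w)) → z ∈ S := by
    intro z hz hz'
    by_contra h5
    refine hz' ?_
    filter_upwards [isOpen_ball.mem_nhds hz, hc.isOpen_compl.mem_nhds h5] with x a b w hw
    exact h3 _ (hrW ⟨a, hw⟩) b
  by_contra hv'
  obtain ⟨z₀, hz, hi⟩ := P267C.iso_pt (U := ball v.1 r)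
    (S := {z | z ∈ ball v.1 r ∧ ¬ ∀ᶠ z' in 𝓝 z, ∀ w ∈ ball v.2 r, gd (z', w)}) isOpen_ball
    (fun z hz => hz.1) (fun z hz hz' => by
      have h5 : ∀ᶠ z' in 𝓝 z, ∀ w ∈ ball v.2 r, gd (z', w) := by_contra fun h6 => hz' ⟨hz, h6⟩
      exact h5.eventually_nhds.mono fun y hy h6 => h6.2 hy)
    (hS.mono fun z hz => hsub z hz.1 hz.2)
    ⟨v.1, mem_ball_self hr, fun h5 => hv' (h5.self_of_nhds v.2 (mem_ball_self hr))⟩
  obtain ⟨V, hV, oV, hzV⟩ := _root_.eventually_nhds_iff.1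
    ((eventually_nhdsWithin_iff.1 hi).and (isOpen_ball.mem_nhds hz.1))
  have oU : IsOpen (V ×ˢ ball v.2 r) := oV.prod isOpen_ball
  have hUW : V ×ˢ ball v.2 r ⊆ W := fun y hy => hrW ⟨(hV _ hy.1).2, hy.2⟩
  obtain ⟨G, a, b⟩ := ka_line (z₀ := z₀) (H := H) (B := B) oU fun y hy hy' => by
    refine h2 y (hUW hy) ?_
    have h5 : ∀ᶠ z' in 𝓝 y.1, ∀ w ∈ ball v.2 r, gd (z', w) :=
      by_contra fun h6 => (hV _ hy.1).1 hy' ⟨(hV _ hy.1).2, h6⟩
    exact h5.self_of_nhds y.2 hy.2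
  refine hz.2 ?_
  filter_upwards [oV.mem_nhds hzV] with z hzV' w hw
  refine (hgd _).2 ⟨G, a _ ⟨hzV', hw⟩, ?_⟩
  filter_upwards [oU.mem_nhds (show (z, w) ∈ V ×ˢ ball v.2 r from ⟨hzV', hw⟩)] with y hy hy'
  rw [b y hy fun h5 => hy' (h5 ▸ hsub z₀ hz.1 hz.2), h4 y (hUW hy) hy']

end Vale.Agent.P267K
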