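import Vale.Agent.P267K.Defs

/-! P267, the case of a twisted canonical section: boxes. -/

open scoped Manifold ContDiff Topology
open Filter Metric Set Asymptotics

noncomputable section

namespace Vale.Agent.P267K

open Vale.Agent.P267

set_option linter.unusedSectionVars false

theorem kb_op {f : ℂ × ℂ → ℂ} {y : ℂ × ℂ} (h : ∃ η : ℂ → ℂ, AnalyticAt ℂ η y.1 ∧ η y.1 = y.2 ∧
    ∀ᶠ v in 𝓝 y, (f v = 0 ↔ v.2 = η v.1)) : ∀ᶠ x in 𝓝 y, f x = 0 → ∃ η : ℂ → ℂ,
      AnalyticAt ℂ η x.1 ∧ η x.1 = x.2 ∧ ∀ᶠ v in 𝓝 x, (f v = 0 ↔ v.2 = η v.1) := by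
  obtain ⟨η, a1, -, a3⟩ := h
  filter_upwards [a3.eventually_nhds, continuousAt_fst.eventually a1.eventually_analyticAt]
    with x h1 h2 h3
  exact ⟨η, h2, (h1.self_of_nhds.1 h3).symm, h1⟩

theorem exists_bx {f : ℂ × ℂ → ℂ} (hf : AnalyticAt ℂ f 0)
    (hne : ¬ ∀ᶠ w in 𝓝 (0 : ℂ), f (0, w) = 0) {V : Set (ℂ × ℂ)} (hV : V ∈ 𝓝 0) :
    ∃ ε r S, Bx f ε r S ∧ bx ε r ⊆ V := by
  obtain ⟨Q, hQ, hs⟩ := P267C.str hf hne
  have hg : AnalyticAt ℂ (fun w : ℂ => f (0, w)) 0 :=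
    AnalyticAt.comp (g := f) (f := fun w : ℂ => ((0 : ℂ), w)) hf (analyticAt_const.prod analyticAt_id)
  obtain ⟨r1, hr1, h1⟩ := Metric.eventually_nhds_iff.1 (eventually_nhdsWithin_iff.1
    (hg.eventually_eq_zero_or_eventually_ne_zero.resolve_left hne))
  obtain ⟨r2, hr2, h2⟩ := Metric.eventually_nhds_iff.1
    (Eventually.and hV (hf.eventually_analyticAt.and hs))
  obtain ⟨r, r0, ra, rb⟩ : ∃ r : ℝ, 0 < r ∧ r < r1 ∧ r < r2 :=
    ⟨min r1 r2 / 2, half_pos (lt_min hr1 hr2),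
      (half_lt_self (lt_min hr1 hr2)).trans_le (min_le_left _ _),
      (half_lt_self (lt_min hr1 hr2)).trans_le (min_le_right _ _)⟩
  have h3 : ∀ v : ℂ × ℂ, ‖v.1‖ ≤ r → ‖v.2‖ ≤ r → dist v 0 < r2 := fun v a b => by
    rw [dist_zero_right]
    exact (norm_prod_le_iff.2 ⟨a, b⟩).trans_lt rb
  have hK : IsCompact (closedBall (0 : ℂ) r \ ball 0 (r / 2)) :=
    (isCompact_closedBall _ _).diff isOpen_ball
  obtain ⟨e, he, h4⟩ := Metric.eventually_nhds_iff.1
    (hK.eventually_forall_of_forall_eventually (x₀ := (0 : ℂ)) (P := fun z w => f (z, w) ≠ 0)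
      fun w hw => by
        have a := mem_closedBall_zero_iff.1 hw.1
        refine (h2 (h3 (0, w) (by simpa using r0.le) a)).2.1.continuousAt.eventually_ne
          (h1 (by rw [dist_zero_right]; exact a.trans_lt ra) ?_)
        rintro rfl
        exact hw.2 (mem_ball_self (half_pos r0)))
  have h5 : ∀ v ∈ closedBall (0 : ℂ) (min e r) ×ˢ closedBall (0 : ℂ) r, dist v 0 < r2 :=
    fun v hv => h3 v ((mem_closedBall_zero_iff.1 hv.1).trans (min_le_right _ _))
      (mem_closedBall_zero_iff.1 hv.2)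
  have h6 : bx (min e r) r ⊆ closedBall (0 : ℂ) (min e r) ×ˢ closedBall (0 : ℂ) r :=
    prod_mono ball_subset_closedBall ball_subset_closedBall
  let T : Set (ℂ × ℂ) := {y | y ∈ closedBall (0 : ℂ) (min e r) ×ˢ closedBall (0 : ℂ) r ∧
    f y = 0 ∧ ¬ ∃ η : ℂ → ℂ, AnalyticAt ℂ η y.1 ∧ η y.1 = y.2 ∧
      ∀ᶠ v in 𝓝 y, (f v = 0 ↔ v.2 = η v.1)}
  have hB : IsCompact (closedBall (0 : ℂ) (min e r) ×ˢ closedBall (0 : ℂ) r) :=
    (isCompact_closedBall _ _).prod (isCompact_closedBall _ _)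
  have hT : IsClosed T := by
    refine isOpen_compl_iff.1 (isOpen_iff_eventually.2 fun y hy => ?_)
    by_cases hb : y ∈ closedBall (0 : ℂ) (min e r) ×ˢ closedBall (0 : ℂ) r
    · by_cases h0 : f y = 0
      · filter_upwards [kb_op (by_contra fun h => hy ⟨hb, h0, h⟩)] with x a b
        exact b.2.2 (a b.2.1)
      · filter_upwards [(h2 (h5 y hb)).2.1.continuousAt.eventually_ne h0] with x a b
        exact a b.2.1
    · filter_upwards [hB.isClosed.isOpen_compl.mem_nhds hb] with x a b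
      exact a b.1
  refine ⟨min e r, r, Prod.fst '' T, ⟨lt_min he r0, r0, fun v hv => (h2 (h5 v (h6 hv))).2.1,
    fun v hv h0 => ?_, fun z hz => ?_,
    ((hB.of_isClosed_subset hT fun y hy => hy.1).image continuous_fst).isClosed,
    (hQ.mono fun y hy => ((h2 (h5 y hy.1)).2.2 hy.2.1).resolve_right hy.2.2).image _,
    fun v hv hS h0 => by_contra fun h => hS ⟨v, ⟨h6 hv, h0, h⟩, rfl⟩⟩,
    fun v hv => (h2 (h5 v (h6 hv))).1⟩
  · by_contra h
    exact h4 (hv.1.trans_le (min_le_left _ _)) v.2 ⟨ball_subset_closedBall hv.2,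
      fun a => h (mem_ball_zero_iff.1 a).le⟩ h0
  · have a1 : AnalyticOnNhd ℂ (fun w : ℂ => f (z, w)) (closedBall 0 r) := fun w hw =>
      AnalyticAt.comp (g := f) (f := fun w : ℂ => (z, w))
        (h2 (h5 (z, w) ⟨ball_subset_closedBall hz, hw⟩)).2.1 (analyticAt_const.prod analyticAt_id)
    have a2 : (r : ℂ) ∈ closedBall (0 : ℂ) r \ ball 0 (r / 2) := by
      simp only [Set.mem_sdiff, mem_closedBall_zero_iff, mem_ball_zero_iff, Complex.norm_real,
        Real.norm_of_nonneg r0.le]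
      exact ⟨le_rfl, by linarith⟩
    have a3 := (a1.eqOn_zero_or_eventually_ne_zero_of_preconnected
      (convex_closedBall _ _).isPreconnected).resolve_left fun h =>
        h4 (hz.trans_le (min_le_left _ _)) _ a2 (h a2.1)
    exact ((isCompact_closedBall _ _).finite_sdiff_of_mem_codiscreteWithin a3).subset
      fun w hw => ⟨ball_subset_closedBall hw.1, fun h => h hw.2⟩

end Vale.Agent.P267K
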