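import Vale.Agent.P267K.Defs

/-! P267, the case of a twisted canonical section: the sheets. -/

open scoped Manifold ContDiff Topology
open Filter Metric Set Asymptotics

noncomputable section

namespace Vale.Agent.P267K

open Vale.Agent.P267

set_option linter.unusedSectionVars false

variable {f : ℂ × ℂ → ℂ} {ε r : ℝ} {S : Set ℂ} {A : Set (ℂ × ℂ)} {σ : ℂ × ℂ → ℂ}

theorem locp (hB : Bx f ε r S) (hA : Pt f ε r S A) {z₀ : ℂ} (hz : z₀ ∈ ball (0 : ℂ) ε)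
    (hS : z₀ ∉ S) : ∃ (d : ℕ) (η : Fin d → ℂ → ℂ), (∀ j, AnalyticAt ℂ (η j) z₀) ∧
      ∀ᶠ z in 𝓝 z₀, Function.Injective (fun j => η j z) ∧ rts A z = range fun j => η j z := by
  have hfin : (rts A z₀).Finite :=
    (hB.fin z₀ hz).subset fun w hw => ⟨(hA.sub _ hw).1.2, (hA.sub _ hw).2⟩
  obtain ⟨d, ρ, hρ, hr⟩ := hfin.fin_param
  have hρA : ∀ j, (z₀, ρ j) ∈ A := fun j => show ρ j ∈ rts A z₀ from hr ▸ mem_range_self j
  choose η h1 h2 h3 using fun j => hB.gr (z₀, ρ j) (hA.sub _ (hρA j)).1 hS (hA.sub _ (hρA j)).2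
  refine ⟨d, η, h1, ?_⟩
  have ht : ∀ j, Tendsto (fun z => (z, η j z)) (𝓝 z₀) (𝓝 (z₀, ρ j)) := fun j => by
    have := (continuousAt_id.prodMk (h1 j).continuousAt).tendsto
    rwa [show (id (z₀, ρ j).1, η j (z₀, ρ j).1) = (z₀, ρ j) from Prod.ext rfl (h2 j)] at this
  have e1 : ∀ᶠ z in 𝓝 z₀, ∀ j, (z, η j z) ∈ A := eventually_all.2 fun j => by
    filter_upwards [(ht j).eventually (h3 j), (ht j).eventually (hA.op _ (hρA j))] with z a b
    exact b (a.2 rfl)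
  have e2 : ∀ᶠ z in 𝓝 z₀, ∀ i j, i ≠ j → η i z ≠ η j z :=
    eventually_all.2 fun i => eventually_all.2 fun j => by
      by_cases hij : i = j
      · exact Eventually.of_forall fun _ h => absurd hij h
      · have hne : η i z₀ ≠ η j z₀ := fun h => hij (hρ ((h2 i).symm.trans (h.trans (h2 j))))
        exact (((h1 i).continuousAt.ne_iff_eventually_ne (h1 j).continuousAt).1 hne).mono
          fun z h _ => h
  have e3 : ∀ᶠ z in 𝓝 z₀, ∀ w ∈ closedBall (0 : ℂ) (r / 2), (z, w) ∈ A → ∃ j, w = η j z := by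
    refine (isCompact_closedBall _ _).eventually_forall_of_forall_eventually fun w hw => ?_
    by_cases h : (z₀, w) ∈ A
    · obtain ⟨j, rfl⟩ : w ∈ range ρ := hr.symm ▸ (show w ∈ rts A z₀ from h)
      filter_upwards [h3 j] with y a b
      exact ⟨j, a.1 (hA.sub _ b).2⟩
    · have hb : (z₀, w) ∈ bx ε r := ⟨hz, closedBall_subset_ball (half_lt_self hB.r0) hw⟩
      filter_upwards [hA.cl _ hb hS h] with y a b
      exact absurd b a
  filter_upwards [e1, e2, e3] with z a b c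
  refine ⟨fun i j h => by_contra fun hij => b i j hij h, Subset.antisymm (fun w hw => ?_) ?_⟩
  · obtain ⟨j, hj⟩ := c w (mem_closedBall_zero_iff.2 (hB.out _ (hA.sub _ hw).1 (hA.sub _ hw).2)) hw
    exact ⟨j, hj.symm⟩
  · rintro _ ⟨j, rfl⟩
    exact a j

theorem sg_loc (hB : Bx f ε r S) (hA : Pt f ε r S A) {z₀ : ℂ} (hz : z₀ ∈ ball (0 : ℂ) ε)
    (hS : z₀ ∉ S) : ∃ (d : ℕ) (η : Fin d → ℂ → ℂ), (∀ j, AnalyticAt ℂ (η j) z₀) ∧
      ∀ᶠ z in 𝓝 z₀, Function.Injective (fun j => η j z) ∧ (rts A z = range fun j => η j z) ∧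
        ∀ w, sg A (z, w) = ∏ j, (w - η j z) := by
  obtain ⟨d, η, h1, h2⟩ := locp hB hA hz hS
  refine ⟨d, η, h1, h2.mono fun z h => ⟨h.1, h.2, fun w => ?_⟩⟩
  show ∏ᶠ u ∈ rts A z, (w - u) = _
  rw [h.2, finprod_mem_range h.1, finprod_eq_prod_of_fintype]

end Vale.Agent.P267K
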