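import Vale.Agent.P267K.KC

/-! P267, the case of a twisted canonical section: the number of sheets. -/

open scoped Manifold ContDiff Topology
open Filter Metric Set Asymptotics

noncomputable section

namespace Vale.Agent.P267K

open Vale.Agent.P267

set_option linter.unusedSectionVars false

variable {f : ℂ × ℂ → ℂ} {ε r : ℝ} {S : Set ℂ} {A : Set (ℂ × ℂ)} {σ : ℂ × ℂ → ℂ}

theorem kc2_conn {ε : ℝ} (hε : 0 < ε) {S : Set ℂ} (hS : S.Countable) :
    IsPreconnected (ball (0 : ℂ) ε \ S) := by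
  obtain ⟨e, hs, ht⟩ : ∃ e : OpenPartialHomeomorph ℂ ℂ, e.source = univ ∧ e.target = ball 0 ε :=
    ⟨OpenPartialHomeomorph.univBall 0 ε, OpenPartialHomeomorph.univBall_source _ _,
      OpenPartialHomeomorph.univBall_target _ hε⟩
  have hi : Function.Injective e := injOn_univ.1 (hs ▸ e.injOn)
  have hc : Continuous e := continuousOn_univ.1 (hs ▸ e.continuousOn)
  have h1 : IsPreconnected (e ⁻¹' S)ᶜ :=
    ((hS.preimage_of_injOn hi.injOn).isConnected_compl_of_one_lt_rank (by simp)).isPreconnected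
  have h2 : ball (0 : ℂ) ε \ S = e '' (e ⁻¹' S)ᶜ := by
    ext z
    constructor
    · rintro ⟨hz, hzS⟩
      have h3 := e.right_inv (ht ▸ hz)
      exact ⟨e.symm z, fun h => hzS (h3 ▸ h), h3⟩
    · rintro ⟨w, hw, rfl⟩
      exact ⟨ht ▸ e.map_source (hs ▸ mem_univ w), hw⟩
  rw [h2]
  exact h1.image _ hc.continuousOn

theorem kc2_loc (hB : Bx f ε r S) (hA : Pt f ε r S A) {z₀ : ℂ} (hz : z₀ ∈ ball (0 : ℂ) ε)
    (hS : z₀ ∉ S) : ∃ d : ℕ, ∀ᶠ z in 𝓝 z₀, (rts A z).Finite ∧ (rts A z).ncard = d := by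
  obtain ⟨d, η, -, h⟩ := locp hB hA hz hS
  refine ⟨d, h.mono fun z hz => ?_⟩
  rw [hz.2]
  refine ⟨finite_range _, ?_⟩
  rw [← image_univ, ncard_image_of_injective _ hz.1, ncard_univ, Nat.card_fin]

theorem card_const (hB : Bx f ε r S) (hA : Pt f ε r S A) :
    ∃ d : ℕ, ∀ z ∈ ball (0 : ℂ) ε, z ∉ S → (rts A z).Finite ∧ (rts A z).ncard = d := by
  by_cases hne : (ball (0 : ℂ) ε \ S).Nonempty
  · obtain ⟨z₀, hz₀⟩ := hne
    refine ⟨(rts A z₀).ncard, fun z hz hS => ⟨?_, ?_⟩⟩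
    · obtain ⟨d, hd⟩ := kc2_loc hB hA hz hS
      exact hd.self_of_nhds.1
    · refine (kc2_conn hB.e0 hB.cnt).induction₂
        (fun x y => (rts A x).ncard = (rts A y).ncard) (fun x hx => ?_)
        (fun _ _ _ _ _ _ h h' => h.trans h') (fun _ _ _ _ h => h.symm) ⟨hz, hS⟩ hz₀
      obtain ⟨d, hd⟩ := kc2_loc hB hA hx.1 hx.2
      exact (hd.mono fun y hy => hd.self_of_nhds.2.trans hy.2.symm).filter_mono nhdsWithin_le_nhds
  · exact ⟨0, fun z hz hS => (hne ⟨z, hz, hS⟩).elim⟩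

theorem gen_meet (hB : Bx f ε r S) (hA : Pt f ε r S A) (hne : A.Nonempty) {z : ℂ}
    (hz : z ∈ ball (0 : ℂ) ε) (hS : z ∉ S) : (rts A z).Nonempty := by
  obtain ⟨d, hd⟩ := card_const hB hA
  obtain ⟨v, hv⟩ := hne
  obtain ⟨y, hy, hyS⟩ := (hA.den v hv).exists
  have h1 := hd y.1 (hA.sub y hy).1.1 hyS
  have h2 : 0 < (rts A y.1).ncard := (ncard_pos h1.1).2 ⟨y.2, hy⟩
  have h3 := hd z hz hS
  exact (ncard_pos h3.1).1 (h3.2 ▸ h1.2 ▸ h2)

end Vale.Agent.P267K
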