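import Vale.Agent.P267K.KA
import Vale.Agent.P267K.KC2

/-! P267, the case of a twisted canonical section: the generator and its zeros. -/

open scoped Manifold ContDiff Topology
open Filter Metric Set Asymptotics

noncomputable section

namespace Vale.Agent.P267K

open Vale.Agent.P267

set_option linter.unusedSectionVars false

variable {f : ℂ × ℂ → ℂ} {ε r : ℝ} {S : Set ℂ} {A : Set (ℂ × ℂ)} {σ : ℂ × ℂ → ℂ}

theorem gen_ext (hB : Bx f ε r S) (hA : Pt f ε r S A) :
    ∃ σ : ℂ × ℂ → ℂ, AnalyticOnNhd ℂ σ (bx ε r) ∧ ∀ v ∈ bx ε r, v.1 ∉ S → σ v = sg A v := by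
  obtain ⟨d, hd⟩ := card_const hB hA
  refine ext_pl (isOpen_ball.prod isOpen_ball) hB.cl hB.cnt (B := (2 * r) ^ d)
    (fun v hv hS => ?_) fun v hv hS => ?_
  · obtain ⟨m, η, h1, h2⟩ := sg_loc hB hA hv.1 hS
    have h3 : AnalyticAt ℂ (fun y : ℂ × ℂ => ∏ j, (y.2 - η j y.1)) v :=
      Finset.analyticAt_fun_prod _ fun j _ =>
        analyticAt_snd.sub ((h1 j).comp (f := Prod.fst) analyticAt_fst)
    refine h3.congr ?_
    filter_upwards [continuousAt_fst.eventually h2] with y hy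
    exact (hy.2.2 y.2).symm
  · obtain ⟨h1, h2⟩ := hd v.1 hv.1 hS
    rw [sg, finprod_mem_eq_finite_toFinset_prod _ h1, norm_prod, ← h2, ncard_eq_toFinset_card _ h1,
      ← Finset.prod_const]
    refine Finset.prod_le_prod (fun _ _ => norm_nonneg _) fun w hw => ?_
    have h3 : ‖w‖ < r := mem_ball_zero_iff.1 (hA.sub _ (h1.mem_toFinset.1 hw)).1.2
    have h4 : ‖v.2‖ < r := mem_ball_zero_iff.1 hv.2
    linarith [norm_sub_le v.2 w]

end Vale.Agent.P267K
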