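import Vale.Agent.P267K.KC2

/-! P267, the case of a twisted canonical section: the zeros of the generator. -/

open scoped Manifold ContDiff Topology
open Filter Metric Set Asymptotics

noncomputable section

namespace Vale.Agent.P267K

open Vale.Agent.P267

set_option linter.unusedSectionVars false

variable {f : ℂ × ℂ → ℂ} {ε r : ℝ} {S : Set ℂ} {A : Set (ℂ × ℂ)} {σ : ℂ × ℂ → ℂ}

theorem gen_zero (hB : Bx f ε r S) (hA : Pt f ε r S A) (h1 : AnalyticOnNhd ℂ σ (bx ε r))
    (h2 : ∀ v ∈ bx ε r, v.1 ∉ S → σ v = sg A v) :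
    ∀ v ∈ bx ε r, (σ v = 0 ↔ v ∈ closure A) := by
  obtain ⟨d, hd⟩ := card_const hB hA
  intro v hv
  refine ⟨fun h0 => by_contra fun hn => ?_, fun hc => ?_⟩
  · obtain ⟨δ, hδ, hb⟩ := Metric.isOpen_iff.1 isClosed_closure.isOpen_compl v hn
    have := P267C.compl_neBot hB.cnt v.1
    have hc : ContinuousAt (fun z => ‖σ (z, v.2)‖) v.1 :=
      (ContinuousAt.comp (f := fun z => (z, v.2)) (h1 v hv).continuousAt (by fun_prop)).norm
    have h3 : δ ^ d ≤ ‖σ (v.1, v.2)‖ := by
      refine ge_of_tendsto (hc.tendsto.mono_left (nhdsWithin_le_nhds (s := Sᶜ))) ?_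
      filter_upwards [self_mem_nhdsWithin, mem_nhdsWithin_of_mem_nhds (isOpen_ball.mem_nhds hv.1),
        mem_nhdsWithin_of_mem_nhds (ball_mem_nhds v.1 hδ)] with z z1 z2 z3
      obtain ⟨hf, hcard⟩ := hd z z2 z1
      rw [h2 (z, v.2) ⟨z2, hv.2⟩ z1, sg, finprod_mem_eq_finite_toFinset_prod _ hf, norm_prod,
        ← hcard, ncard_eq_toFinset_card _ hf, ← Finset.prod_const]
      refine Finset.prod_le_prod (fun _ _ => hδ.le) fun w hw => not_lt.1 fun k => ?_
      refine hb (a := (z, w)) ?_ (subset_closure (hf.mem_toFinset.1 hw))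
      rw [mem_ball, Prod.dist_eq]
      exact max_lt z3 (by rwa [dist_comm, dist_eq_norm])
    rw [show σ (v.1, v.2) = 0 from h0, norm_zero] at h3
    exact absurd h3 (not_le.2 (pow_pos hδ d))
  · have h3 : v ∈ closure {y | y ∈ A ∧ y.1 ∉ S} :=
      closure_minimal (fun y hy => mem_closure_iff_frequently.2 (hA.den y hy)) isClosed_closure hc
    refine tendsto_nhds_unique_of_frequently_eq (h1 v hv).continuousAt.tendsto tendsto_const_nhds
      ((mem_closure_iff_frequently.1 h3).mono fun y hy => ?_)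
    have hy' := (hA.sub y hy.1).1
    have hf := (hd y.1 hy'.1 hy.2).1
    rw [h2 y hy' hy.2, sg, finprod_mem_eq_finite_toFinset_prod _ hf]
    exact Finset.prod_eq_zero (hf.mem_toFinset.2 hy.1) (sub_self _)

end Vale.Agent.P267K
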