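import Vale.Agent.P267K.KD2

/-! P267, the case of a twisted canonical section: division by the generator. -/

open scoped Manifold ContDiff Topology
open Filter Metric Set Asymptotics

noncomputable section

namespace Vale.Agent.P267K

open Vale.Agent.P267

set_option linter.unusedSectionVars false

variable {f : ℂ × ℂ → ℂ} {ε r : ℝ} {S : Set ℂ} {A : Set (ℂ × ℂ)} {σ : ℂ × ℂ → ℂ}

theorem ke_open (ε r : ℝ) : IsOpen (bx ε r) := isOpen_ball.prod isOpen_ball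

theorem ke_ne {h σ : ℂ × ℂ → ℂ} {v : ℂ × ℂ} (hh : ContinuousAt h v) (hσ : ContinuousAt σ v)
    (h0 : σ v ≠ 0) : h =O[𝓝 v] σ :=
  isBigO_of_div_tendsto_nhds ((hσ.eventually_ne h0).mono fun _ h1 h2 => (h1 h2).elim) _
    (hh.div hσ h0).tendsto

theorem ke_gen (hB : Bx f ε r S) (hA : Pt f ε r S A)
    (h2 : ∀ v ∈ bx ε r, v.1 ∉ S → σ v = sg A v) {v : ℂ × ℂ} (hv : v ∈ bx ε r) (hS : v.1 ∉ S)
    {h : ℂ × ℂ → ℂ} (hh : AnalyticAt ℂ h v) (h0 : ∀ᶠ y in 𝓝 v, y ∈ A → h y = 0) (hz : σ v = 0) :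
    h =O[𝓝 v] σ := by
  classical
  obtain ⟨d, η, hη, H⟩ := sg_loc hB hA hv.1 hS
  obtain ⟨H1, -, H3⟩ := H.self_of_nhds
  have e0 : ∏ j, (v.2 - η j v.1) = 0 := by rw [← H3, ← h2 v hv hS, hz]
  obtain ⟨j, -, hj⟩ := Finset.prod_eq_zero_iff.1 e0
  have hj' : η j v.1 = v.2 := (sub_eq_zero.1 hj).symm
  have c : ∀ i, ContinuousAt (fun y : ℂ × ℂ => η i y.1) v := fun i =>
    (hη i).continuousAt.comp continuousAt_fst
  have H' := (continuousAt_fst (p := v)).tendsto.eventually H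
  have t1 : Tendsto (fun y : ℂ × ℂ => (y.1, η j y.1)) (𝓝 v) (𝓝 v) := by
    have := (continuousAt_fst.prodMk (c j)).tendsto
    rwa [hj'] at this
  have a1 : h =O[𝓝 v] fun y => y.2 - η j y.1 := by
    have b := (hh.hasStrictFDerivAt.isBigO_sub.comp_tendsto (tendsto_id.prodMk_nhds t1)).trans
      (g := fun y : ℂ × ℂ => y - (y.1, η j y.1)) (k := fun y => y.2 - η j y.1)
      (IsBigO.of_bound 1 (Eventually.of_forall fun y => by simp [Prod.norm_def]))
    refine b.congr' ?_ EventuallyEq.rfl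
    filter_upwards [H', t1.eventually h0] with y y1 y2
    have : η j y.1 ∈ rts A y.1 := y1.2.1 ▸ mem_range_self j
    simp only [Function.comp_apply, id, y2 this, sub_zero]
  have a2 : (fun _ => (1 : ℂ)) =O[𝓝 v] fun y => ∏ i ∈ Finset.univ.erase j, (y.2 - η i y.1) := by
    refine ke_ne continuousAt_const
      (tendsto_finset_prod _ fun i _ => (continuousAt_snd.sub (c i)).tendsto) ?_
    refine Finset.prod_ne_zero_iff.2 fun i hi h => Finset.ne_of_mem_erase hi (H1 ?_)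
    exact (sub_eq_zero.1 h).symm.trans hj'.symm
  refine (a1.mul a2).congr' (Eventually.of_forall fun y => mul_one _) ?_
  filter_upwards [H', (ke_open ε r).mem_nhds hv,
    (continuousAt_fst (p := v)).tendsto.eventually (hB.cl.isOpen_compl.mem_nhds hS)] with y y1 y2 y3
  rw [h2 y y2 y3, Finset.mul_prod_erase _ (fun i => y.2 - η i y.1) (Finset.mem_univ j)]
  exact (y1.2.2 y.2).symm

theorem gen_div (hB : Bx f ε r S) (hA : Pt f ε r S A) (h1 : AnalyticOnNhd ℂ σ (bx ε r))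
    (h2 : ∀ v ∈ bx ε r, v.1 ∉ S → σ v = sg A v) {y : ℂ × ℂ} (hy : y ∈ bx ε r) {h : ℂ × ℂ → ℂ}
    (hh : AnalyticAt ℂ h y) (h0 : ∀ᶠ v in 𝓝 y, v ∈ A → h v = 0) : h =O[𝓝 y] σ := by
  obtain ⟨U, hU, hUo, hyU⟩ := _root_.eventually_nhds_iff.1 (((ke_open ε r).eventually_mem hy).and
    (hh.eventually_analyticAt.and h0.eventually_nhds))
  by_contra hn
  have hc : {v | v ∈ U ∧ ¬ h =O[𝓝 v] σ}.Countable := by
    refine ((hB.cnt.mono (inter_subset_left (t := ball (0 : ℂ) ε))).biUnion fun z hz =>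
      (hB.fin z hz.2).countable.image fun w => (z, w)).mono fun v hv => ?_
    obtain ⟨v1, v2, v3⟩ := hU v hv.1
    have a : σ v = 0 := by_contra fun a => hv.2 (ke_ne v2.continuousAt (h1 v v1).continuousAt a)
    have b : v.1 ∈ S := by_contra fun b => hv.2 (ke_gen hB hA h2 v1 b v2 v3 a)
    have c : f v = 0 := by
      by_contra c
      exact mem_closure_iff_frequently.1 ((gen_zero hB hA h1 h2 v v1).1 a)
        (((hB.an v v1).continuousAt.eventually_ne c).mono fun x hx hxA => hx (hA.sub x hxA).2)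
    exact mem_biUnion ⟨b, v1.1⟩ ⟨v.2, ⟨v1.2, c⟩, rfl⟩
  obtain ⟨x, hx, H⟩ := P267C.iso_pt (S := {v | v ∈ U ∧ ¬ h =O[𝓝 v] σ}) hUo
    (fun v hv => hv.1) (fun x hx hx' =>
    (P267C.secb_ev (not_not.1 fun a => hx' ⟨hx, a⟩)).mono fun v hv hv' => hv'.2 hv) hc ⟨y, hyU, hn⟩
  refine hx.2 (P267C.hart (hU x hx.1).2.1 (h1 x (hU x hx.1).1) ?_)
  filter_upwards [H, mem_nhdsWithin_of_mem_nhds (hUo.mem_nhds hx.1)] with v v1 v2
  exact not_not.1 fun a => v1 ⟨v2, a⟩

end Vale.Agent.P267K
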