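import Vale.Agent.P267K.Defs

/-! P267, the case of a twisted canonical section: components of the smooth locus. -/

open scoped Manifold ContDiff Topology
open Filter Metric Set Asymptotics

noncomputable section

namespace Vale.Agent.P267K

open Vale.Agent.P267

set_option linter.unusedSectionVars false

variable {M : Type} [TopologicalSpace M] [ChartedSpace C2 M] [IsManifold 𝓘(ℂ, C2) ω M]
  [T2Space M] {ν : M → ℝ} {A : Set M} {x y : M}

theorem sm_zero (h : P267C.Sm C2 ν x) : ν x = 0 := by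
  obtain ⟨c, ψ, hc, h⟩ := h
  exact h.self_of_nhds.2 (by rw [hc.c0]; rfl)

theorem kg1_ev (h : P267C.Sm C2 ν x) : ∀ᶠ y in 𝓝 x, ν y = 0 → P267C.Sm C2 ν y := by
  obtain ⟨c, ψ, hc, h⟩ := h
  have tc : Tendsto c (𝓝 x) (𝓝 0) := hc.c0 ▸ hc.an.continuousAt
  filter_upwards [(contMDiffAt_iff_contMDiffAt_nhds (by simp)).1 hc.an,
    tc ((contMDiffAt_iff_contMDiffAt_nhds (by simp)).1 hc.ho), hc.l.eventually_nhds,
    tc hc.r.eventually_nhds, h.eventually_nhds] with y h1 h2 h3 h4 h5 hy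
  have e : (c y).2 = 0 := h5.self_of_nhds.1 hy
  have a1 : AnalyticAt ℂ (fun v : ℂ × ℂ => v + c y) 0 := analyticAt_id.add analyticAt_const
  have a2 : AnalyticAt ℂ (fun v : ℂ × ℂ => v - c y) (c y) := analyticAt_id.sub analyticAt_const
  have t : Tendsto (fun v : ℂ × ℂ => v + c y) (𝓝 0) (𝓝 (c y)) := by
    have := a1.continuousAt.tendsto
    rwa [zero_add] at this
  refine ⟨fun z => c z - c y, fun v => ψ (v + c y), ⟨sub_self _,
    ContMDiffAt.comp y a2.contDiffAt.contMDiffAt h1,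
    ContMDiffAt.comp 0 (g := ψ) (by rwa [zero_add]) a1.contDiffAt.contMDiffAt,
    h3.mono fun z hz => by rwa [sub_add_cancel], ?_⟩, h5.mono fun z hz => ?_⟩
  · filter_upwards [t.eventually h4] with v hv
    rw [hv, add_sub_cancel_right]
  · rw [Prod.snd_sub, e, sub_zero]
    exact hz

theorem cp_ev (h : P267C.Sm C2 ν x) : ∀ᶠ y in 𝓝 x, ν y = 0 → y ∈ cp ν x := by
  have h0 := kg1_ev h
  obtain ⟨c, ψ, hc, h⟩ := h
  have p0 : ψ 0 = x := hc.c0 ▸ hc.l.self_of_nhds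
  have tc : Tendsto c (𝓝 x) (𝓝 0) := hc.c0 ▸ hc.an.continuousAt
  have tψ : Tendsto ψ (𝓝 0) (𝓝 x) := p0 ▸ hc.ho.continuousAt
  have c1 : Continuous fun z : ℂ => (z, (0 : ℂ)) := by fun_prop
  have h1 : Tendsto (fun z : ℂ => (z, (0 : ℂ))) (𝓝 0) (𝓝 0) := c1.tendsto 0
  have h2 : ∀ᶠ z in 𝓝 (0 : ℂ), ContinuousAt ψ (z, 0) ∧ P267C.Sm C2 ν (ψ (z, 0)) := by
    filter_upwards [h1 ((contMDiffAt_iff_contMDiffAt_nhds (by simp)).1 hc.ho), h1.eventually hc.r,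
      (tψ.comp h1).eventually h, (tψ.comp h1).eventually h0] with z a1 a2 a3 a4
    exact ⟨ContMDiffAt.continuousAt a1, a4 (a3.2 (congrArg Prod.snd a2))⟩
  obtain ⟨r, hr, h3⟩ := Metric.eventually_nhds_iff_ball.1 h2
  have h4 : (fun z : ℂ => ψ (z, 0)) '' ball 0 r ⊆ cp ν x := by
    refine IsPreconnected.subset_connectedComponentIn ((convex_ball _ _).isPreconnected.image _
      fun z hz => ((h3 z hz).1.comp_of_eq c1.continuousAt rfl).continuousWithinAt)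
      ⟨0, mem_ball_self hr, p0⟩ ?_
    rintro _ ⟨z, hz, rfl⟩
    exact (h3 z hz).2
  filter_upwards [((continuous_fst.tendsto 0).comp tc) (ball_mem_nhds 0 hr), h, hc.l] with
    y a1 a2 a3 hy
  refine h4 ⟨(c y).1, a1, ?_⟩
  rw [← a2.1 hy]
  exact a3

theorem mem_cp (h : P267C.Sm C2 ν x) : x ∈ cp ν x := mem_connectedComponentIn h

theorem cp_sm (h : y ∈ cp ν x) : P267C.Sm C2 ν y :=
  connectedComponentIn_subset {y | P267C.Sm C2 ν y} x h

theorem cp_eq (h : y ∈ cp ν x) : cp ν y = cp ν x := (connectedComponentIn_eq h).symm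

theorem part_cp (ν : M → ℝ) (x : M) : Part ν (cp ν x) :=
  fun _ hy => ⟨cp_sm hy, (cp_eq hy).le⟩

theorem Part.op (h : Part ν A) (hx : x ∈ A) : ∀ᶠ y in 𝓝 x, ν y = 0 → y ∈ A :=
  (cp_ev (h x hx).1).mono fun _ hy h0 => (h x hx).2 (hy h0)

theorem Part.cl (h : Part ν A) (hx : P267C.Sm C2 ν x) (h0 : x ∉ A) : ∀ᶠ y in 𝓝 x, y ∉ A := by
  filter_upwards [cp_ev hx] with y hy hA
  refine h0 ((h y hA).2 ?_)
  rw [cp_eq (hy (sm_zero (h y hA).1))]
  exact mem_cp hx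

theorem Part.of_closure (h : Part ν A) (hx : P267C.Sm C2 ν x) (h0 : x ∈ closure A) : x ∈ A := by
  by_contra h1
  exact mem_closure_iff_frequently.1 h0 (h.cl hx h1)

theorem Zs.closed (h : Zs ν) : IsClosed {x | ν x = 0} := by
  refine isClosed_iff_frequently.2 fun p hp => ?_
  obtain ⟨f, hf, -, he⟩ := h p
  have hc : ContinuousAt f p := (holAt_iff_contMDiffAt.1 hf).continuousAt
  refine he.self_of_nhds.2 ?_
  by_contra h0
  obtain ⟨y, h1, h2, h3⟩ := (hp.and_eventually (he.and (hc.eventually_ne h0))).exists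
  exact h3 (h2.1 h1)

theorem Part.closure_sub (h : Part ν A) (hZ : IsClosed {x | ν x = 0}) (hx : x ∈ closure A) :
    ν x = 0 :=
  closure_minimal (fun y hy => sm_zero (h y hy).1) hZ hx

theorem sm_congr {ν' : M → ℝ} (h : ∀ x, ν x = 0 ↔ ν' x = 0) :
    P267C.Sm C2 ν = P267C.Sm C2 ν' ∧ cp ν = cp ν' ∧ Part ν = Part ν' := by
  have e : P267C.Sm C2 ν = P267C.Sm C2 ν' := by
    funext p
    simp only [P267C.Sm, h]
  have e2 : cp ν = cp ν' := by
    funext p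
    simp only [cp, e]
  refine ⟨e, e2, ?_⟩
  funext B
  simp only [Part, e, e2]

theorem kg1_map {ν' : M → ℝ} {φ : M ≃ₜ M} (h1 : ContMDiff 𝓘(ℂ, C2) 𝓘(ℂ, C2) ω φ)
    (h2 : ContMDiff 𝓘(ℂ, C2) 𝓘(ℂ, C2) ω φ.symm) (h : ∀ x, ν (φ x) = ν' x)
    (hs : P267C.Sm C2 ν (φ x)) : P267C.Sm C2 ν' x := by
  obtain ⟨c, ψ, hc, he⟩ := hs
  have t : Tendsto φ (𝓝 x) (𝓝 (φ x)) := φ.continuous.tendsto x
  refine ⟨fun y => c (φ y), fun v => φ.symm (ψ v), ⟨hc.c0, ContMDiffAt.comp x hc.an (h1 x),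
    ContMDiffAt.comp 0 (h2 _) hc.ho, ?_, ?_⟩, ?_⟩
  · filter_upwards [t.eventually hc.l] with y hy
    rw [hy, φ.symm_apply_apply]
  · filter_upwards [hc.r] with v hv
    rw [φ.apply_symm_apply, hv]
  · filter_upwards [t.eventually he] with y hy
    rw [← h]
    exact hy

theorem sm_map {φ : M ≃ₜ M} (h1 : ContMDiff 𝓘(ℂ, C2) 𝓘(ℂ, C2) ω φ)
    (h2 : ContMDiff 𝓘(ℂ, C2) 𝓘(ℂ, C2) ω φ.symm) (h : ∀ x, ν (φ x) = ν x) :
    (∀ x, P267C.Sm C2 ν (φ x) ↔ P267C.Sm C2 ν x) ∧ ∀ x y, φ y ∈ cp ν (φ x) ↔ y ∈ cp ν x := by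
  have e : ∀ x, P267C.Sm C2 ν (φ x) ↔ P267C.Sm C2 ν x := fun x =>
    ⟨kg1_map h1 h2 h, fun hs => kg1_map (φ := φ.symm) (ν := ν) h2 h1
      (fun y => by rw [← h, φ.apply_symm_apply]) (by rwa [φ.symm_apply_apply])⟩
  refine ⟨e, fun x y => ?_⟩
  by_cases hx : P267C.Sm C2 ν x
  · have e1 : φ '' {y | P267C.Sm C2 ν y} = {y | P267C.Sm C2 ν y} := by
      ext z
      obtain ⟨w, rfl⟩ := φ.surjective z
      rw [φ.injective.mem_set_image]
      exact (e w).symm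
    have e2 := φ.image_connectedComponentIn (s := {y | P267C.Sm C2 ν y}) hx
    rw [e1] at e2
    unfold cp
    rw [← e2, φ.injective.mem_set_image]
  · unfold cp
    rw [connectedComponentIn_eq_empty (x := x) hx,
      connectedComponentIn_eq_empty (x := φ x) fun hs => hx ((e x).1 hs)]
    exact Iff.rfl

end Vale.Agent.P267K
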