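import Vale.Agent.P267K.KB
import Vale.Agent.P267K.KD
import Vale.Agent.P267K.KE
import Vale.Agent.P267K.KG1

/-! P267, the case of a twisted canonical section: local generators on the surface. -/

open scoped Manifold ContDiff Topology
open Filter Metric Set Asymptotics

noncomputable section

namespace Vale.Agent.P267K

open Vale.Agent.P267

set_option linter.unusedSectionVars false

variable {M : Type} [TopologicalSpace M] [ChartedSpace C2 M] [IsManifold 𝓘(ℂ, C2) ω M]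
  [T2Space M] {ν : M → ℝ} {A : Set M} {x y : M}

section
open P267C
variable {F G : Type} [NormedAddCommGroup F] [NormedSpace ℂ F] [FiniteDimensional ℂ F]
  [NormedAddCommGroup G] [NormedSpace ℂ G] [FiniteDimensional ℂ G]
  {c : M → ℂ × ℂ} {ψ : ℂ × ℂ → M} {p : M}

theorem kf_comp {f : M → G} {φ : F → M} {z : F} (h : An C2 f (φ z)) (hφ : Ho C2 φ z) :
    AnalyticAt ℂ (fun w => f (φ w)) z :=
  (ContMDiffAt.comp z h hφ).contDiffAt.analyticAt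

theorem kf_post {f : M → F} {u : F → G} {x : M} (h : An C2 f x) (hu : AnalyticAt ℂ u (f x)) :
    An C2 (fun y => u (f y)) x :=
  ContMDiffAt.comp x hu.contDiffAt.contMDiffAt h

theorem kf_pre {φ : F → M} {u : G → F} {z : G} (h : Ho C2 φ (u z)) (hu : AnalyticAt ℂ u z) :
    Ho C2 (fun w => φ (u w)) z :=
  ContMDiffAt.comp z h hu.contDiffAt.contMDiffAt

theorem kf_p0 (h : Crd C2 c ψ p) : ψ 0 = p := h.c0 ▸ h.l.self_of_nhds

theorem kf_tc (h : Crd C2 c ψ p) : Tendsto c (𝓝 p) (𝓝 0) := h.c0 ▸ h.an.continuousAt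

theorem kf_tp (h : Crd C2 c ψ p) : Tendsto ψ (𝓝 0) (𝓝 p) := kf_p0 h ▸ h.ho.continuousAt

theorem kf_shift (h1 : An C2 c y) (h2 : Ho C2 ψ (c y)) (h3 : ∀ᶠ x in 𝓝 y, ψ (c x) = x)
    (h4 : ∀ᶠ v in 𝓝 (c y), c (ψ v) = v) {η : ℂ → ℂ} (hη : AnalyticAt ℂ η (c y).1)
    (e : η (c y).1 = (c y).2) :
    ∃ ψ', Crd C2 (fun x => ((c x).1 - (c y).1, (c x).2 - η (c x).1)) ψ' y := by
  have a1 : AnalyticAt ℂ (fun v : ℂ × ℂ => (v.1 + (c y).1, v.2 + η (v.1 + (c y).1))) 0 :=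
    (analyticAt_fst.add analyticAt_const).prod (analyticAt_snd.add
      (hη.comp_of_eq (analyticAt_fst.add analyticAt_const) (zero_add _)))
  have e0 : ((0 : ℂ × ℂ).1 + (c y).1, (0 : ℂ × ℂ).2 + η ((0 : ℂ × ℂ).1 + (c y).1)) = c y := by
    simp [e]
  refine ⟨fun v => ψ (v.1 + (c y).1, v.2 + η (v.1 + (c y).1)), by simp [e],
    kf_post h1 (u := fun v => (v.1 - (c y).1, v.2 - η v.1))
      ((analyticAt_fst.sub analyticAt_const).prod
        (analyticAt_snd.sub (hη.comp_of_eq analyticAt_fst rfl))),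
    kf_pre (u := fun v : ℂ × ℂ => (v.1 + (c y).1, v.2 + η (v.1 + (c y).1))) (by rwa [e0]) a1,
    h3.mono fun x hx => by simpa using hx, ?_⟩
  have t := a1.continuousAt.tendsto
  rw [e0] at t
  filter_upwards [t.eventually h4] with v hv
  simp [hv]

theorem kf_crd {f : M → ℂ} {x : M} (hf : An C2 f x) (hne : ¬ ∀ᶠ y in 𝓝 x, f y = 0) :
    ∃ c ψ, Crd C2 c ψ x ∧ ¬ ∀ᶠ w in 𝓝 (0 : ℂ), f (ψ (0, w)) = 0 := by
  have h1 : An C2 (chartAt C2 x) x :=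
    contMDiffAt_of_mem_maximalAtlas (IsManifold.chart_mem_maximalAtlas x) (mem_chart_source C2 x)
  have h2 : Ho C2 (chartAt C2 x).symm (chartAt C2 x x + 0) := contMDiffAt_symm_of_mem_maximalAtlas
    (IsManifold.chart_mem_maximalAtlas x) (by simp)
  have h3 : Ho C2 (fun v => (chartAt C2 x).symm (chartAt C2 x x + v)) 0 :=
    kf_pre h2 (analyticAt_const.add analyticAt_id)
  have h4 : ∀ᶠ y in 𝓝 x,
      (chartAt C2 x).symm (chartAt C2 x x + (chartAt C2 x y - chartAt C2 x x)) = y :=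
    ((chartAt C2 x).eventually_left_inverse (mem_chart_source C2 x)).mono fun y hy => by
      rwa [add_sub_cancel]
  have h5 : Tendsto (fun y => chartAt C2 x y - chartAt C2 x x) (𝓝 x) (𝓝 0) :=
    tendsto_sub_nhds_zero_iff.2 h1.continuousAt
  have L₀ : (ℂ × ℂ) ≃L[ℂ] C2 := ContinuousLinearEquiv.ofFinrankEq (by simp)
  have hb : L₀ (0, 1) ≠ 0 := by simp
  obtain ⟨a, ha, h6⟩ : ∃ a : C2, a ≠ 0 ∧
      ¬ ∀ᶠ w in 𝓝 (0 : ℂ), f ((chartAt C2 x).symm (chartAt C2 x x + w • a)) = 0 := by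
    by_contra k
    refine hne ((h4.and (h5.eventually (mfd_dir (kf_comp (by simpa using hf) h3) hb
      fun a ha => not_not.1 fun k' => k ⟨a, ha, k'⟩))).mono fun y hy => ?_)
    rw [← hy.1]
    exact hy.2
  obtain ⟨A, hA⟩ := SeparatingDual.exists_continuousLinearEquiv_apply_eq (R := ℂ) hb ha
  obtain ⟨L, hL⟩ : ∃ L : (ℂ × ℂ) ≃L[ℂ] C2, ∀ w : ℂ, L (0, w) = w • a := ⟨L₀.trans A, fun w => by
    rw [← hA, ← map_smul, ← map_smul]
    simp⟩
  refine ⟨fun y => L.symm (chartAt C2 x y - chartAt C2 x x),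
    fun v => (chartAt C2 x).symm (chartAt C2 x x + L v), ⟨by simp,
      kf_post h1 (u := fun v => L.symm (v - chartAt C2 x x))
        ((L.symm.analyticAt _).comp_of_eq (analyticAt_id.sub analyticAt_const) rfl),
      kf_pre (φ := fun v => (chartAt C2 x).symm (chartAt C2 x x + v)) (by simpa using h3)
        (L.analyticAt _), by simpa using h4, ?_⟩, by simpa only [hL] using h6⟩
  have t : Tendsto (fun v => chartAt C2 x x + L v) (𝓝 0) (𝓝 (chartAt C2 x x)) :=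
    Continuous.tendsto' (by fun_prop) _ _ (by simp)
  filter_upwards [t.eventually ((chartAt C2 x).eventually_right_inverse' (mem_chart_source C2 x))]
    with v hv
  simp [hv]

theorem kf_unc (h : Sm C2 ν p) {Q : Set M} (hQ : Q.Countable) :
    ∃ᶠ y in 𝓝 p, ν y = 0 ∧ y ∉ Q := by
  obtain ⟨c, ψ, hc, h⟩ := h
  have := compl_neBot (hQ.image fun y => (c y).1) 0
  have h1 : Tendsto (fun z : ℂ => (z, (0 : ℂ))) (𝓝[((fun y => (c y).1) '' Q)ᶜ] 0) (𝓝 0) :=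
    ((Continuous.prodMk_left (0 : ℂ)).tendsto 0).mono_left nhdsWithin_le_nhds
  refine ((kf_tp hc).comp h1).frequently (Eventually.frequently ?_)
  filter_upwards [((kf_tp hc).comp h1).eventually h, h1.eventually hc.r, self_mem_nhdsWithin]
    with z a1 a2 a3
  exact ⟨a1.2 (congrArg Prod.snd a2), fun a4 => a3 ⟨_, a4, congrArg Prod.fst a2⟩⟩

/-- The coordinates are good at `v`. -/
def kf_G (ν : M → ℝ) (f : M → ℂ) (c : M → ℂ × ℂ) (ψ : ℂ × ℂ → M) (v : ℂ × ℂ) : Prop :=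
  Ho C2 ψ v ∧ An C2 c (ψ v) ∧ (∀ᶠ w in 𝓝 v, c (ψ w) = w) ∧
    ∀ᶠ x in 𝓝 (ψ v), ψ (c x) = x ∧ (ν x = 0 ↔ f x = 0)

variable {f : M → ℂ} {ε r : ℝ} {S : Set ℂ} {v : ℂ × ℂ}

theorem kf_G.tc (h : kf_G ν f c ψ v) : Tendsto c (𝓝 (ψ v)) (𝓝 v) := by
  have := h.2.1.continuousAt.tendsto
  rwa [h.2.2.1.self_of_nhds] at this

theorem kf_G.tp (h : kf_G ν f c ψ v) : Tendsto ψ (𝓝 v) (𝓝 (ψ v)) := h.1.continuousAt

theorem kf_open (ε r : ℝ) : IsOpen (bx ε r) := isOpen_ball.prod isOpen_ball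

theorem kf_pt (hB : Bx (fun v => f (ψ v)) ε r S) (hG : ∀ v ∈ bx ε r, kf_G ν f c ψ v)
    (hA : Part ν A) : Pt (fun v => f (ψ v)) ε r S {v | v ∈ bx ε r ∧ ψ v ∈ A} := by
  have hz : ∀ v ∈ bx ε r, (ν (ψ v) = 0 ↔ f (ψ v) = 0) := fun v hv => (hG v hv).2.2.2.self_of_nhds.2
  have hs : ∀ v ∈ bx ε r, ψ v ∈ A → f (ψ v) = 0 := fun v hv h => (hz v hv).1 (sm_zero (hA _ h).1)
  refine ⟨fun v hv => ⟨hv.1, hs v hv.1 hv.2⟩, fun v hv => ?_, fun v hv hS hn => ?_, fun v hv => ?_⟩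
  · filter_upwards [(hG v hv.1).tp.eventually (hA.op hv.2), (kf_open ε r).mem_nhds hv.1] with
      w a1 a2 a3
    exact ⟨a2, a1 ((hz w a2).2 a3)⟩
  · by_cases h0 : f (ψ v) = 0
    · obtain ⟨η, e1, e2, e3⟩ := hB.gr v hv hS h0
      obtain ⟨g1, g2, g3, g4⟩ := hG v hv
      have e := g3.self_of_nhds
      obtain ⟨ψ', h3⟩ := kf_shift g2 (e.symm ▸ g1) (g4.mono fun _ h => h.1) (e.symm ▸ g3)
        (η := η) (e.symm ▸ e1) (e.symm ▸ e2)
      have h4 : Sm C2 ν (ψ v) := by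
        refine ⟨_, ψ', h3, ?_⟩
        filter_upwards [g4, (hG v hv).tc.eventually e3] with x b1 b2
        rw [b1.1] at b2
        exact b1.2.trans (b2.trans sub_eq_zero.symm)
      filter_upwards [(hG v hv).tp.eventually (hA.cl h4 fun h => hn ⟨hv, h⟩)] with w a1 a2
      exact a1 a2.2
    · filter_upwards [(hB.an v hv).continuousAt.eventually_ne h0] with w a1 a2
      exact a1 (hs w a2.1 a2.2)
  · have hQ : {w | w ∈ bx ε r ∧ f (ψ w) = 0 ∧ w.1 ∈ S}.Countable := by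
      refine ((hB.cnt.mono (inter_subset_left (t := ball 0 ε))).biUnion fun z hz =>
        ((hB.fin z hz.2).image (Prod.mk z)).countable).mono fun w hw => ?_
      exact mem_iUnion₂.2 ⟨w.1, ⟨hw.2.2, hw.1.1⟩, w.2, ⟨hw.1.2, hw.2.1⟩, rfl⟩
    refine (hG v hv.1).tc.frequently (((kf_unc (hA _ hv.2).1 (hQ.image ψ)).and_eventually
      ((hA.op hv.2).and ((hG v hv.1).2.2.2.and ((hG v hv.1).tc.eventually
        ((kf_open ε r).mem_nhds hv.1))))).mono ?_)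
    rintro x ⟨⟨a1, a2⟩, a3, a4, a5⟩
    exact ⟨⟨a5, a4.1.symm ▸ a3 a1⟩, fun a6 => a2 ⟨c x, ⟨a5, a4.1.symm ▸ a4.2.1 a1, a6⟩, a4.1⟩⟩

theorem kf_gen (hZ : Zs ν) (hB : Bx (fun v => f (ψ v)) ε r S) (hG : ∀ v ∈ bx ε r, kf_G ν f c ψ v)
    (hA : Part ν A) : ∃ σ, Gen A σ {y | ψ (c y) = y ∧ c y ∈ bx ε r} := by
  have hP := kf_pt hB hG hA
  obtain ⟨σ, h1, h2⟩ := gen_ext hB hP
  have hev : ∀ v ∈ bx ε r, ∀ᶠ x in 𝓝 (ψ v), ψ (c x) = x ∧ c x ∈ bx ε r := fun v hv =>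
    ((hG v hv).2.2.2.mono fun _ h => h.1).and ((hG v hv).tc.eventually ((kf_open ε r).mem_nhds hv))
  have hcl : ∀ y, ψ (c y) = y → c y ∈ bx ε r → (σ (c y) = 0 ↔ y ∈ closure A) := fun y e hy => by
    rw [gen_zero hB hP h1 h2 _ hy, mem_closure_iff_frequently, mem_closure_iff_frequently]
    refine ⟨fun h => e ▸ (hG _ hy).tp.frequently (h.mono fun w hw => hw.2), fun h => ?_⟩
    rw [← e] at h
    refine (hG _ hy).tc.frequently ((h.and_eventually (hev _ hy)).mono ?_)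
    rintro x ⟨a1, a2, a3⟩
    exact ⟨a3, a2.symm ▸ a1⟩
  refine ⟨fun y => σ (c y), fun y ⟨e, hy⟩ => ?_⟩
  have g := hG _ hy
  have k1 := hev _ hy
  have k2 := g.tc
  have k3 := g.tp
  have k4 := g.2.1
  rw [e] at k1 k2 k3 k4
  refine ⟨holAt_iff_contMDiffAt.2 (kf_post k4 (h1 _ hy)), fun h0 => ?_, hcl y e hy,
    fun h hh h0 => ?_⟩
  · obtain ⟨u, -, u1, u2⟩ := hZ y
    refine u1 ?_
    filter_upwards [h0, k1, u2] with x a1 a2 a3
    exact a3.1 (hA.closure_sub hZ.closed ((hcl x a2.1 a2.2).1 a1))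
  · have h3 := gen_div hB hP h1 h2 hy (h := fun w => h (ψ w))
      (kf_comp (e.symm ▸ holAt_iff_contMDiffAt.1 hh) g.1)
      ((k3.eventually h0).mono fun w a1 a2 => a1 a2.2)
    exact (h3.comp_tendsto k2).congr' (k1.mono fun x hx => congrArg h hx.1) EventuallyEq.rfl

end

theorem genM (hZ : Zs ν) (p : M) : ∃ V ∈ 𝓝 p, ∃ T : Set M, T.Finite ∧ ∀ A, Part ν A →
    (∃ σ, Gen A σ V) ∧ ((A ∩ V).Nonempty → (A ∩ T).Nonempty) := by
  obtain ⟨f, hf, hne, hz⟩ := hZ p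
  have hf' := holAt_iff_contMDiffAt.1 hf
  obtain ⟨c, ψ, hc, h0⟩ := kf_crd hf' hne
  have hV : ∀ᶠ v in 𝓝 0, kf_G ν f c ψ v :=
    ((contMDiffAt_iff_contMDiffAt_nhds (by simp)).1 hc.ho).and (((kf_tp hc).eventually
      ((contMDiffAt_iff_contMDiffAt_nhds (by simp)).1 hc.an)).and (hc.r.eventually_nhds.and
        ((kf_tp hc).eventually (hc.l.and hz).eventually_nhds)))
  obtain ⟨ε, r, S, hB, hG⟩ := exists_bx (kf_comp ((kf_p0 hc).symm ▸ hf') hc.ho) h0 hV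
  have := P267C.compl_neBot hB.cnt 0
  obtain ⟨z, z1, z2⟩ := Filter.nonempty_of_mem (inter_mem
    (nhdsWithin_le_nhds (ball_mem_nhds (0 : ℂ) hB.e0)) (self_mem_nhdsWithin (s := Sᶜ)))
  refine ⟨{y | ψ (c y) = y ∧ c y ∈ bx ε r}, hc.l.and ((kf_tc hc).eventually
    ((kf_open ε r).mem_nhds ⟨mem_ball_self hB.e0, mem_ball_self hB.r0⟩)), _,
    ((hB.fin z z1).image (Prod.mk z)).image ψ, fun A hA => ⟨kf_gen hZ hB hG hA, ?_⟩⟩
  rintro ⟨y, y1, y2, y3⟩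
  have hP := kf_pt hB hG hA
  obtain ⟨w, hw⟩ := gen_meet hB hP ⟨c y, y3, y2.symm ▸ y1⟩ z1 z2
  exact ⟨ψ (z, w), hw.2, (z, w), ⟨w, ⟨hw.1.2, (hP.sub _ hw).2⟩, rfl⟩, rfl⟩

end Vale.Agent.P267K
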