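import Vale.Agent.P267K.KG1

/-! P267, the case of a twisted canonical section: orbits. -/

open scoped Manifold ContDiff Topology
open Filter Metric Set Asymptotics

noncomputable section

namespace Vale.Agent.P267K

open Vale.Agent.P267

set_option linter.unusedSectionVars false

variable {M : Type} [TopologicalSpace M] [ChartedSpace C2 M] [IsManifold 𝓘(ℂ, C2) ω M]
  [T2Space M] [ConnectedSpace M] {C : Cov M} {ν : M → ℝ} {A : Set M} {x y : M} {N : ℕ}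
  {F Ψ : C.I → M → ℂ} {σ s : M → ℂ}

theorem KH.inv_gz (H : KH C ν) (k : ℤ) (x : M) : ν ((C.g ^ k) x) = ν x := by
  induction k using Int.induction_on with
  | zero => rfl
  | succ k ih => rw [C.AB_succ, H.inv, ih]
  | pred k ih =>
    have := H.inv ((C.g ^ (-(k : ℤ) - 1)) x)
    rw [← C.AB_succ, sub_add_cancel, ih] at this
    exact this.symm

theorem kg2_map (H : KH C ν) (k : ℤ) :
    (∀ x, P267C.Sm C2 ν ((C.g ^ k) x) ↔ P267C.Sm C2 ν x) ∧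
      ∀ x y, (C.g ^ k) y ∈ cp ν ((C.g ^ k) x) ↔ y ∈ cp ν x := by
  have h2 := H.gh (-k)
  rw [zpow_neg] at h2
  exact sm_map (φ := C.g ^ k) (H.gh k) h2 (H.inv_gz k)

theorem KH.sm_gz (H : KH C ν) (k : ℤ) : P267C.Sm C2 ν ((C.g ^ k) x) ↔ P267C.Sm C2 ν x :=
  (kg2_map H k).1 x

theorem KH.cp_gz (H : KH C ν) (k : ℤ) : (C.g ^ k) y ∈ cp ν ((C.g ^ k) x) ↔ y ∈ cp ν x :=
  (kg2_map H k).2 x y

theorem KH.part_gz (H : KH C ν) (hA : Part ν A) (k : ℤ) : Part ν ((C.g ^ k : M ≃ₜ M) '' A) := by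
  rintro _ ⟨a, ha, rfl⟩
  refine ⟨(H.sm_gz k).2 (hA a ha).1, fun z hz => ?_⟩
  obtain ⟨z, rfl⟩ := (C.g ^ k).surjective z
  exact ⟨z, (hA a ha).2 ((H.cp_gz k).1 hz), rfl⟩

theorem KH.closed (H : KH C ν) : IsClosed {x | ν x = 0} := by
  have := C.second
  exact H.sec.closed

theorem KH.sing (H : KH C ν) : {x | ν x = 0 ∧ ¬ P267C.Sm C2 ν x}.Countable := by
  have := C.second
  exact P267C.sing_countable (by simp) H.sec H.ne

theorem part_orb (C : Cov M) (ν : M → ℝ) (N : ℕ) (x : M) : Part ν (orb C ν N x) := by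
  intro y hy
  obtain ⟨k, hk⟩ := mem_iUnion.1 hy
  refine ⟨cp_sm hk, ?_⟩
  rw [cp_eq hk]
  exact subset_iUnion (fun k : ℤ => cp ν ((C.g ^ (k * N)) x)) k

theorem mem_orb (N : ℕ) (h : P267C.Sm C2 ν x) : x ∈ orb C ν N x := by
  refine mem_iUnion.2 ⟨0, ?_⟩
  rw [zero_mul]
  exact mem_cp h

theorem KH.orb_inv (H : KH C ν) : (C.g ^ N) y ∈ orb C ν N x ↔ y ∈ orb C ν N x := by
  rw [← zpow_natCast]
  simp only [orb, mem_iUnion]
  refine ⟨fun ⟨k, hk⟩ => ⟨k - 1, ?_⟩, fun ⟨k, hk⟩ => ⟨k + 1, ?_⟩⟩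
  · rw [← H.cp_gz N, ← C.gz_add, show (N : ℤ) + (k - 1) * N = k * N by ring]
    exact hk
  · rw [show (k + 1) * (N : ℤ) = N + k * N by ring, C.gz_add, H.cp_gz]
    exact hk

theorem KH.orb_eq (H : KH C ν) (h : y ∈ orb C ν N x) : orb C ν N y = orb C ν N x := by
  obtain ⟨k, hk⟩ := mem_iUnion.1 h
  have e : ∀ m : ℤ, cp ν ((C.g ^ (m * N)) y) = cp ν ((C.g ^ ((m + k) * N)) x) := fun m => by
    rw [add_mul, C.gz_add]
    exact cp_eq ((H.cp_gz _).2 hk)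
  ext z
  simp only [orb, mem_iUnion, e]
  exact ⟨fun ⟨m, hm⟩ => ⟨_, hm⟩, fun ⟨m, hm⟩ => ⟨m - k, by rwa [sub_add_cancel]⟩⟩

end Vale.Agent.P267K
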