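import Vale.Agent.P267K.KG2

/-! P267, the case of a twisted canonical section: holomorphic functions on a compact curve. -/

open scoped Manifold ContDiff Topology
open Filter Metric Set Asymptotics

noncomputable section

namespace Vale.Agent.P267K

open Vale.Agent.P267

set_option linter.unusedSectionVars false

variable {M : Type} [TopologicalSpace M] [ChartedSpace C2 M] [IsManifold 𝓘(ℂ, C2) ω M]
  [T2Space M] [ConnectedSpace M] {C : Cov M} {ν : M → ℝ} {A : Set M} {x y : M} {N : ℕ}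
  {F Ψ : C.I → M → ℂ} {σ s : M → ℂ}

theorem kg3_dich (C : Cov M) (hA : Part ν A) {φ : M → ℂ} (hy : y ∈ A)
    (hφ : ∃ h, HolAt h y ∧ ∀ᶠ x in 𝓝 y, x ∈ closure A → φ x = h x) :
    P267C.Flat {x | ν x = 0} φ y ∨ ∀ᶠ x in 𝓝[≠] y, x ∈ A →
      φ '' A ∈ 𝓝 (φ x) ∧ ¬ P267C.Flat {x | ν x = 0} φ x := by
  have := C.second
  obtain ⟨h, h1, h2⟩ := hφ
  have hE : ∀ᶠ x in 𝓝 y, ν x = 0 → x ∈ A ∧ φ x = h x := by
    filter_upwards [h2, hA.op hy] with x a1 a2 hx using ⟨a2 hx, a1 (subset_closure (a2 hx))⟩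
  refine (P267C.loc_sm (hA y hy).1 (f := h) ((C.hol_ev h1).mono fun x hx _ => hx.cd)).imp
    (fun k => ?_) fun k => ?_
  · filter_upwards [k, hE] with x a1 a2 hx
    rw [(a2 hx).2, a1 hx, (hE.self_of_nhds (sm_zero (hA y hy).1)).2]
  · filter_upwards [k, nhdsWithin_le_nhds hE.eventually_nhds] with x a1 a2 hx
    have z := sm_zero (hA x hx).1
    have e := (a2.self_of_nhds z).2
    refine ⟨?_, fun hF => (a1 z).1.not_flat ?_⟩
    · obtain ⟨τ, b0, b1, b2, -⟩ := (a1 z).1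
      have b3 : Tendsto τ (𝓝 (h x)) (𝓝 x) := by
        have b4 := b0.continuousAt.tendsto
        rwa [b1] at b4
      rw [e]
      filter_upwards [b2, b3.eventually a2] with w c1 c2
      exact ⟨τ w, (c2 c1.1).1, (c2 c1.1).2.trans c1.2⟩
    · filter_upwards [hF, a2] with w c1 c2 hw
      rw [← (c2 hw).2, c1 hw, e]

theorem kg3_cp (C : Cov M) (hA : Part ν A) {φ : M → ℂ} (hy : y ∈ A)
    (hφ : ∀ p ∈ closure A, ∃ h, HolAt h p ∧ ∀ᶠ x in 𝓝 p, x ∈ closure A → φ x = h x)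
    (hF : P267C.Flat {x | ν x = 0} φ y) (hx : x ∈ cp ν y) : φ x = φ y := by
  have := C.second
  have hp : IsPreconnected (cp ν y) := isPreconnected_connectedComponentIn
  refine (hp.induction₂' (fun a b => P267C.Flat {x | ν x = 0} φ a →
    P267C.Flat {x | ν x = 0} φ b ∧ φ b = φ a) (fun a ha => ?_)
    (fun a b c _ _ _ h1 h2 h3 => ⟨(h2 (h1 h3).1).1, (h2 (h1 h3).1).2.trans (h1 h3).2⟩)
    (mem_cp (hA y hy).1) hx hF).2
  have ha' := (hA y hy).2 ha
  by_cases k' : P267C.Flat {x | ν x = 0} φ a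
  · filter_upwards [nhdsWithin_le_nhds k', nhdsWithin_le_nhds k'.ev, self_mem_nhdsWithin]
      with b a1 a2 hb
    have z := sm_zero (cp_sm hb)
    exact ⟨fun _ => ⟨a2 z, a1 z⟩, fun _ => ⟨k', (a1 z).symm⟩⟩
  · have k := (kg3_dich C hA ha' (hφ a (subset_closure ha'))).resolve_left k'
    filter_upwards [nhdsWithin_le_nhds (eventually_nhdsWithin_iff.1 k), self_mem_nhdsWithin]
      with b a1 hb
    refine ⟨fun h => absurd h k', fun h => ?_⟩
    rcases eq_or_ne b a with rfl | hne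
    · exact ⟨h, rfl⟩
    · exact absurd h (a1 hne ((hA y hy).2 hb)).2

theorem kg3_per {φ : M → ℂ} (h : ∀ p, φ ((C.g ^ N) p) = φ p) (k : ℤ) (p : M) :
    φ ((C.g ^ (k * N)) p) = φ p := by
  have h' : ∀ (m : ℤ) q, φ ((C.g ^ ((m + 1) * N)) q) = φ ((C.g ^ (m * N)) q) := fun m q => by
    rw [add_mul, one_mul, add_comm, C.gz_add, zpow_natCast, h]
  induction k using Int.induction_on with
  | zero => rw [zero_mul, zpow_zero]; rfl
  | succ n ih => rw [h', ih]
  | pred n ih => rw [← h', sub_add_cancel, ih]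

theorem kg3_inv (H : KH C ν) (k : ℤ) (hy : y ∈ orb C ν N x) :
    (C.g ^ (k * N)) y ∈ orb C ν N x := by
  obtain ⟨m, hm⟩ := mem_iUnion.1 hy
  refine mem_iUnion.2 ⟨k + m, ?_⟩
  rw [add_mul, C.gz_add]
  exact (H.cp_gz _).2 hm

theorem kg3_top {K Q : Set ℂ} (hK : IsCompact K) (hQ : Q.Countable)
    (h : ∀ w ∈ K, w ∉ Q → K ∈ 𝓝 w) {w : ℂ} (hw : K ∈ 𝓝 w) : False := by
  have hd : Dense Qᶜ := fun w => mem_closure_iff_nhdsWithin_neBot.2 (P267C.compl_neBot hQ w)
  rcases (P267C.compl_conn hQ).subset_or_subset isOpen_interior hK.isClosed.isOpen_compl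
    (disjoint_compl_right.mono_left interior_subset) (fun v hv => by
      by_cases k : v ∈ K
      · exact Or.inl (mem_interior_iff_mem_nhds.2 (h v k hv))
      · exact Or.inr k) with k | k
  · exact hK.ne_univ (eq_univ_of_forall fun v =>
      closure_minimal (k.trans interior_subset) hK.isClosed (hd v))
  · obtain ⟨v, h1, h2⟩ := hd.inter_nhds_nonempty hw
    exact k h1 h2

theorem KH.cst (H : KH C ν) (hN : 0 < N) (x : M) : Cst C N (orb C ν N x) := by
  intro φ hper hφ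
  have := C.second
  have hA := part_orb C ν N x
  have hc : ContinuousOn φ (closure (orb C ν N x)) := fun p hp => by
    obtain ⟨h, h1, h2⟩ := hφ p hp
    exact h1.continuousAt.continuousWithinAt.congr_of_eventuallyEq
      (eventually_nhdsWithin_iff.2 h2) (h2.self_of_nhds hp)
  by_cases hF : ∃ y ∈ orb C ν N x, P267C.Flat {x | ν x = 0} φ y
  · obtain ⟨y, hy, hF⟩ := hF
    refine ⟨φ y, EqOn.of_subset_closure (g := fun _ => φ y) (s := orb C ν N x) (fun z hz => ?_) hc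
      continuousOn_const subset_closure subset_rfl⟩
    rw [← H.orb_eq hy] at hz
    obtain ⟨k, hk⟩ := mem_iUnion.1 hz
    have e : (C.g ^ (k * N)) ((C.g ^ (-k * N)) z) = z := by
      rw [← C.gz_add, neg_mul, add_neg_cancel, zpow_zero]
      rfl
    rw [← e] at hk
    exact (kg3_per hper (-k) z).symm.trans (kg3_cp C hA hy hφ hF ((H.cp_gz _).1 hk))
  rcases (orb C ν N x).eq_empty_or_nonempty with h0 | ⟨y, hy⟩
  · refine ⟨0, fun y hy => ?_⟩
    rw [h0, closure_empty] at hy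
    exact hy.elim
  have hD : ∀ p ∈ orb C ν N x, ∀ᶠ z in 𝓝[≠] p, z ∈ orb C ν N x →
      φ '' orb C ν N x ∈ 𝓝 (φ z) := fun p hp =>
    ((kg3_dich C hA hp (hφ p (subset_closure hp))).resolve_left fun k => hF ⟨p, hp, k⟩).mono
      fun z a1 hz => (a1 hz).1
  have hK : IsCompact (φ '' closure (orb C ν N x)) := by
    have k1 : IsCompact (closure (orb C ν N x) ∩ C.t ⁻¹' Icc 0 N) :=
      (C.isCompact_t 0 N).inter_left isClosed_closure
    have e : φ '' closure (orb C ν N x) = φ '' (closure (orb C ν N x) ∩ C.t ⁻¹' Icc 0 N) := by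
      refine Subset.antisymm ?_ (image_mono inter_subset_left)
      rintro _ ⟨p, hp, rfl⟩
      have n0 : (0 : ℝ) < N := Nat.cast_pos.2 hN
      have f1 := (le_div_iff₀ n0).1 (Int.floor_le (C.t p / N))
      have f2 := (div_lt_iff₀ n0).1 (Int.lt_floor_add_one (C.t p / N))
      refine ⟨(C.g ^ (-⌊C.t p / N⌋ * N)) p, ⟨map_mem_closure (C.g ^ _ : M ≃ₜ M).continuous hp
        fun z hz => kg3_inv H _ hz, ?_⟩, kg3_per hper _ p⟩
      rw [mem_preimage, C.t_gz]
      push_cast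
      exact ⟨by linarith only [f1], by linarith only [f2]⟩
    rw [e]
    exact k1.image_of_continuousOn (hc.mono inter_subset_left)
  have hsub : φ '' orb C ν N x ⊆ φ '' closure (orb C ν N x) := image_mono subset_closure
  obtain ⟨z, z1, z2⟩ : ∃ z ∈ orb C ν N x, φ '' orb C ν N x ∈ 𝓝 (φ z) := by
    by_contra k
    refine hF ⟨y, hy, ?_⟩
    filter_upwards [eventually_nhdsWithin_iff.1 (hD y hy), hA.op hy] with z a1 a2 hz
    by_contra k'
    exact k ⟨z, a2 hz, a1 (fun e => k' (congrArg φ e)) (a2 hz)⟩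
  refine (kg3_top hK ((H.sing.union (P267C.iso_countable
    {p | p ∈ orb C ν N x ∧ φ '' orb C ν N x ∉ 𝓝 (φ p)})).image φ) ?_
    (mem_of_superset z2 hsub)).elim
  rintro _ ⟨p, hp, rfl⟩ hq
  by_contra k
  refine hq ⟨p, ?_, rfl⟩
  by_cases hs : P267C.Sm C2 ν p
  · have hp' := hA.of_closure hs hp
    exact Or.inr ⟨⟨hp', fun k' => k (mem_of_superset k' hsub)⟩,
      (hD p hp').mono fun z a1 hz => hz.2 (a1 hz.1)⟩
  · exact Or.inl ⟨hA.closure_sub H.closed hp, hs⟩

end Vale.Agent.P267K
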