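import Vale.Agent.P267K.KG2

/-! P267, the case of a twisted canonical section: periodic components. -/

open scoped Manifold ContDiff Topology
open Filter Metric Set Asymptotics

noncomputable section

namespace Vale.Agent.P267K

open Vale.Agent.P267

set_option linter.unusedSectionVars false

variable {M : Type} [TopologicalSpace M] [ChartedSpace C2 M] [IsManifold 𝓘(ℂ, C2) ω M]
  [T2Space M] [ConnectedSpace M] {C : Cov M} {ν : M → ℝ} {A : Set M} {x y : M} {N : ℕ}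
  {F Ψ : C.I → M → ℂ} {σ s : M → ℂ}

/-- Finitely many components up to translation. -/
theorem KH.reps (H : KH C ν) : ∃ T : Finset M, (∀ y ∈ T, P267C.Sm C2 ν y) ∧
    ∀ x, P267C.Sm C2 ν x → C.t x ∈ Icc (0 : ℝ) 1 → ∃ y ∈ T, y ∈ cp ν x := by
  classical
  obtain ⟨I, hI⟩ := C.fin_slab 0 1
  choose T hT hT' using H.fin
  have hf : {y ∈ ⋃ i ∈ I, (C.g ^ (-i.2) : M ≃ₜ M) '' T i.1 | P267C.Sm C2 ν y}.Finite :=
    (I.finite_toSet.biUnion fun i _ => (hT i.1).image _).sep _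
  refine ⟨hf.toFinset, fun y hy => (hf.mem_toFinset.1 hy).2, fun x hx ht => ?_⟩
  have h1 := (C.mem_U_idx x).1
  obtain ⟨y, y1, y2⟩ := hT' _ _ ((C.ch_source _ x).1 h1) ((H.sm_gz _).2 hx)
  have y3 : (C.g ^ (-(C.idx x).2)) y ∈ cp ν x := (H.cp_gz (C.idx x).2).1 (by
    rwa [← C.gz_add, add_neg_cancel, zpow_zero])
  exact ⟨_, hf.mem_toFinset.2 ⟨mem_biUnion (hI _ x h1 ht) (mem_image_of_mem _ y1), cp_sm y3⟩, y3⟩

/-- A component that is not relatively compact is periodic. -/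
theorem KH.periodic (H : KH C ν) (hx : P267C.Sm C2 ν x) (h : ¬ IsCompact (closure (cp ν x))) :
    ∃ k : ℕ, 0 < k ∧ (C.g ^ (k : ℤ)) x ∈ cp ν x := by
  obtain ⟨T, -, hT⟩ := H.reps
  have hS : ((fun z => ⌊C.t z⌋) '' cp ν x).Infinite := fun hf => by
    obtain ⟨a, ha⟩ := hf.bddBelow
    obtain ⟨b, hb⟩ := hf.bddAbove
    refine h ((C.isCompact_t a (b + 1)).of_isClosed_subset isClosed_closure
      (closure_minimal (fun z hz => ⟨?_, ?_⟩) (isClosed_Icc.preimage C.continuous_t)))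
    · exact Int.le_floor.1 (ha (mem_image_of_mem _ hz))
    · have h1 : ((⌊C.t z⌋ : ℤ) : ℝ) ≤ b := Int.cast_le.2 (hb (mem_image_of_mem _ hz))
      linarith [Int.lt_floor_add_one (C.t z)]
  have hy : ∀ k : ℤ, ∃ y, k ∈ (fun z => ⌊C.t z⌋) '' cp ν x → y ∈ T ∧ (C.g ^ k) y ∈ cp ν x := by
    intro k
    by_cases hk : k ∈ (fun z => ⌊C.t z⌋) '' cp ν x
    · obtain ⟨z, hz, rfl⟩ := hk
      obtain ⟨y, y1, y2⟩ := hT _ ((H.sm_gz (-⌊C.t z⌋)).2 (cp_sm hz)) (by
        rw [C.t_gz]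
        push_cast
        constructor <;> linarith [Int.lt_floor_add_one (C.t z), Int.floor_le (C.t z)])
      refine ⟨y, fun _ => ⟨y1, ?_⟩⟩
      have y3 := (H.cp_gz ⌊C.t z⌋).2 y2
      rwa [← C.gz_add, add_neg_cancel, zpow_zero, Homeomorph.one_apply, cp_eq hz] at y3
    · exact ⟨x, fun h' => absurd h' hk⟩
  choose y hy using hy
  have key : ∀ (k k' : ℤ) (w : M), k < k' → (C.g ^ k) w ∈ cp ν x → (C.g ^ k') w ∈ cp ν x →
      ∃ d : ℕ, 0 < d ∧ (C.g ^ (d : ℤ)) x ∈ cp ν x := fun k k' w hk h1 h2 => by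
    refine ⟨(k' - k).toNat, by omega, ?_⟩
    rw [Int.toNat_of_nonneg (by omega)]
    have h3 := (H.cp_gz (k' - k)).2 h1
    rw [← C.gz_add, sub_add_cancel] at h3
    rw [← cp_eq h2, cp_eq h3]
    exact mem_cp ((H.sm_gz _).2 hx)
  obtain ⟨k, hk, k', hk', h1, h2⟩ := hS.exists_ne_map_eq_of_mapsTo (f := y) (t := T)
    (fun k hk => (hy k hk).1) T.finite_toSet
  rcases h1.lt_or_gt with h3 | h3
  · exact key k k' _ h3 (hy k hk).2 (h2 ▸ (hy k' hk').2)
  · exact key k' k _ h3 (h2 ▸ (hy k' hk').2) (hy k hk).2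

/-- A relatively compact component is not periodic. -/
theorem KH.aperiodic (H : KH C ν) (hx : P267C.Sm C2 ν x) (h : IsCompact (closure (cp ν x)))
    {k : ℤ} (hk : (C.g ^ k) x ∈ closure (cp ν x)) : k = 0 := by
  have h1 : (C.g ^ k) x ∈ cp ν x := (part_cp ν x).of_closure ((H.sm_gz k).2 hx) hk
  have h2 : ∀ m : ℕ, (C.g ^ (m * k)) x ∈ cp ν x := fun m => by
    induction m with
    | zero => simpa using mem_cp hx
    | succ m ih =>
      have h3 := (H.cp_gz k).2 ih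
      rwa [← C.gz_add, cp_eq h1, show k + m * k = ((m + 1 : ℕ) : ℤ) * k by push_cast; ring] at h3
  obtain ⟨B, hB⟩ := h.exists_bound_of_continuousOn C.continuous_t.continuousOn
  by_contra h0
  obtain ⟨m, hm⟩ := exists_nat_gt (B + |C.t x|)
  have h3 := hB _ (subset_closure (h2 m))
  rw [C.t_gz, Real.norm_eq_abs] at h3
  have h4 : (1 : ℝ) ≤ |(k : ℝ)| := by exact_mod_cast Int.one_le_abs h0
  have h5 : |(m : ℝ) * k| ≤ |C.t x + m * k| + |C.t x| := by
    simpa using abs_sub (C.t x + m * k) (C.t x)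
  rw [abs_mul, Nat.abs_cast] at h5
  push_cast at h3
  nlinarith [Nat.cast_nonneg (α := ℝ) m]

end Vale.Agent.P267K
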