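import Vale.Agent.P267K.KG4

/-! P267, the case of a twisted canonical section: counting. -/

open scoped Manifold ContDiff Topology
open Filter Metric Set Asymptotics

noncomputable section

namespace Vale.Agent.P267K

open Vale.Agent.P267

set_option linter.unusedSectionVars false

theorem kh_sel {α : Type} (r : α → α → Prop) (T : Finset α) (h1 : ∀ a ∈ T, r a a)
    (h2 : ∀ a ∈ T, ∀ b ∈ T, r a b → r b a) :
    ∃ Y ⊆ T, (∀ a ∈ T, ∃ b ∈ Y, r a b) ∧ ∀ a ∈ Y, ∀ b ∈ Y, r a b → a = b := by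
  classical
  induction T using Finset.induction_on with
  | empty => exact ⟨∅, subset_rfl, by simp, by simp⟩
  | insert a T _ ih =>
    obtain ⟨Y, s, c, d⟩ := ih (fun b hb => h1 b (Finset.mem_insert_of_mem hb))
      fun b hb b' hb' => h2 b (Finset.mem_insert_of_mem hb) b' (Finset.mem_insert_of_mem hb')
    by_cases h : ∃ b ∈ Y, r a b
    · refine ⟨Y, s.trans (Finset.subset_insert _ _), fun b hb => ?_, d⟩
      rcases Finset.mem_insert.1 hb with rfl | hb
      exacts [h, c b hb]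
    · refine ⟨insert a Y, Finset.insert_subset_insert _ s, fun b hb => ?_, fun b hb b' hb' k => ?_⟩
      · rcases Finset.mem_insert.1 hb with rfl | hb
        · exact ⟨b, Finset.mem_insert_self _ _, h1 b (Finset.mem_insert_self _ _)⟩
        · obtain ⟨b', k1, k2⟩ := c b hb
          exact ⟨b', Finset.mem_insert_of_mem k1, k2⟩
      · rcases Finset.mem_insert.1 hb with e | hb <;> rcases Finset.mem_insert.1 hb' with e' | hb'
        · rw [e, e']
        · exact (h ⟨b', hb', e ▸ k⟩).elim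
        · exact (h ⟨b, hb, h2 b (Finset.mem_insert_of_mem (s hb)) a (Finset.mem_insert_self _ _)
            (e' ▸ k)⟩).elim
        · exact d b hb b' hb' k

variable {M : Type} [TopologicalSpace M] [ChartedSpace C2 M] [IsManifold 𝓘(ℂ, C2) ω M]
  [T2Space M] [ConnectedSpace M] {C : Cov M} {ν : M → ℝ} {A : Set M} {x y : M} {N : ℕ}
  {F Ψ : C.I → M → ℂ} {σ s : M → ℂ}

theorem kh_per (H : KH C ν) {k : ℤ} (h : (C.g ^ k) y ∈ cp ν y) (hy : P267C.Sm C2 ν y) (m : ℤ) :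
    (C.g ^ (k * m)) y ∈ cp ν y := by
  induction m using Int.induction_on with
  | zero => simpa using mem_cp hy
  | succ m ih =>
    rw [mul_add, mul_one, C.gz_add, ← cp_eq ih]
    exact (H.cp_gz _).2 h
  | pred m ih =>
    refine (H.cp_gz k).1 ?_
    rwa [cp_eq h, ← C.gz_add, show k + k * (-(m : ℤ) - 1) = k * -(m : ℤ) by ring]

theorem kh_rep (H : KH C ν) : ∃ T : Finset M, (∀ y ∈ T, P267C.Sm C2 ν y) ∧
    ∀ x, P267C.Sm C2 ν x → ∃ y ∈ T, ∃ l : ℤ, x ∈ cp ν ((C.g ^ l) y) := by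
  obtain ⟨T, h1, h2⟩ := H.reps
  refine ⟨T, h1, fun x hx => ?_⟩
  obtain ⟨y, hy, k⟩ := h2 ((C.g ^ (-⌊C.t x⌋)) x) ((H.sm_gz _).2 hx) (by
    rw [C.t_gz, Int.cast_neg]
    exact ⟨by linarith [Int.floor_le (C.t x)], by linarith [Int.lt_floor_add_one (C.t x)]⟩)
  refine ⟨y, hy, ⌊C.t x⌋, ?_⟩
  have := (H.cp_gz ⌊C.t x⌋).2 k
  rw [← C.gz_add, add_neg_cancel, zpow_zero] at this
  rw [cp_eq this]
  exact mem_cp hx

theorem KH.count (H : KH C ν) {n : ℕ}
    (h : ∀ N : ℕ, 0 < N → ∀ W : Finset M, Rp C ν N W → n * N ≤ W.card) :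
    ∃ y : Fin n → M, (∀ i, P267C.Sm C2 ν (y i) ∧ IsCompact (closure (cp ν (y i)))) ∧
      ∀ i j (k : ℤ), (C.g ^ k) (y i) ∈ cp ν (y j) → i = j := by
  classical
  obtain ⟨T, hT, hc⟩ := kh_rep H
  obtain ⟨Y, hY, c1, d1⟩ := kh_sel (fun a b => ∃ k : ℤ, (C.g ^ k) a ∈ cp ν b)
    (T.filter fun a => IsCompact (closure (cp ν a)))
    (fun a ha => ⟨0, by simpa using mem_cp (hT a (Finset.mem_filter.1 ha).1)⟩)
    (fun a _ b hb ⟨k, hk⟩ => ⟨-k, (H.cp_gz k).1 (by
      rw [cp_eq hk, ← C.gz_add, add_neg_cancel, zpow_zero]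
      exact mem_cp (hT b (Finset.mem_filter.1 hb).1))⟩)
  have hY' := fun a (ha : a ∈ Y) => Finset.mem_filter.1 (hY ha)
  by_cases hn : n ≤ Y.card
  · refine ⟨fun i => (Y.equivFin.symm (Fin.castLE hn i)).1, fun i => ?_, fun i j k hk => ?_⟩
    · exact ⟨hT _ (hY' _ (Subtype.prop _)).1, (hY' _ (Subtype.prop _)).2⟩
    · exact Fin.castLE_injective hn (Y.equivFin.symm.injective
        (Subtype.ext (d1 _ (Subtype.prop _) _ (Subtype.prop _) ⟨k, hk⟩)))
  exfalso
  have hk : ∀ a : M, ∃ k : ℕ, 0 < k ∧ (a ∈ T → ¬ IsCompact (closure (cp ν a)) →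
      (C.g ^ (k : ℤ)) a ∈ cp ν a) := fun a => by
    by_cases h' : a ∈ T ∧ ¬ IsCompact (closure (cp ν a))
    · obtain ⟨k, k0, k1⟩ := H.periodic (hT a h'.1) h'.2
      exact ⟨k, k0, fun _ _ => k1⟩
    · exact ⟨1, one_pos, fun a1 a2 => (h' ⟨a1, a2⟩).elim⟩
  choose k k0 k1 using hk
  set P := ∑ a ∈ T, k a with hP
  set N := P * T.card + 1 with hN
  have N0 : 0 < N := Nat.succ_pos _
  set φ : ℕ × M → M := fun v => (C.g ^ (v.1 : ℤ)) v.2 with hφ
  set W₀ := (Finset.range N ×ˢ Y ∪ Finset.range P ×ˢ T).image φ with hW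
  have s0 : ∀ w ∈ W₀, P267C.Sm C2 ν w := fun w hw => by
    obtain ⟨v, hv, rfl⟩ := Finset.mem_image.1 hw
    refine (H.sm_gz _).2 (hT _ ?_)
    rcases Finset.mem_union.1 hv with hv | hv
    exacts [(hY' _ (Finset.mem_product.1 hv).2).1, (Finset.mem_product.1 hv).2]
  have c0 : ∀ x, P267C.Sm C2 ν x → ∃ w ∈ W₀, x ∈ orb C ν N w := fun x hx => by
    obtain ⟨a, ha, l, hl⟩ := hc x hx
    by_cases h' : IsCompact (closure (cp ν a))
    · obtain ⟨b, hb, m, hm⟩ := c1 a (Finset.mem_filter.2 ⟨ha, h'⟩)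
      have N1 : (0 : ℤ) < N := by exact_mod_cast N0
      have e1 := Int.emod_nonneg (l - m) N1.ne'
      have e2 := Int.emod_lt_of_pos (l - m) N1
      refine ⟨φ (((l - m) % N).toNat, b), Finset.mem_image_of_mem _ (Finset.mem_union_left _
        (Finset.mem_product.2 ⟨Finset.mem_range.2 (by omega), hb⟩)),
        mem_iUnion.2 ⟨(l - m) / N, ?_⟩⟩
      have e3 := (H.cp_gz (l - m)).2 hm
      rw [← C.gz_add, sub_add_cancel] at e3
      simp only [hφ]
      rwa [Int.toNat_of_nonneg e1, ← C.gz_add, Int.ediv_mul_add_emod, ← cp_eq e3]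
    · have N1 : (0 : ℤ) < k a := by exact_mod_cast k0 a
      have e1 := Int.emod_nonneg l N1.ne'
      have e2 := Int.emod_lt_of_pos l N1
      have e0 : k a ≤ P := Finset.single_le_sum (f := k) (fun _ _ => Nat.zero_le _) ha
      refine ⟨φ ((l % k a).toNat, a), Finset.mem_image_of_mem _ (Finset.mem_union_right _
        (Finset.mem_product.2 ⟨Finset.mem_range.2 (by omega), ha⟩)), mem_iUnion.2 ⟨0, ?_⟩⟩
      have e3 := (H.cp_gz (l % k a)).2 (kh_per H (k1 a ha h') (hT a ha) (l / k a))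
      rw [← C.gz_add, Int.emod_add_mul_ediv] at e3
      simp only [hφ]
      rwa [Int.toNat_of_nonneg e1, ← C.gz_add, zero_mul, zero_add, ← cp_eq e3]
  obtain ⟨W, hW', c2, d2⟩ := kh_sel (fun a b => a ∈ orb C ν N b) W₀
    (fun a ha => mem_orb N (s0 a ha)) fun a _ b hb hab => by
      rw [H.orb_eq hab]
      exact mem_orb N (s0 b hb)
  have b1 := h N N0 W ⟨fun w hw => s0 w (hW' hw), fun x hx => ?_,
    fun w hw w' hw' e => (d2 w' hw' w hw e).symm⟩
  · have b2 : W.card ≤ N * Y.card + P * T.card := by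
      refine (Finset.card_le_card hW').trans (Finset.card_image_le.trans
        ((Finset.card_union_le _ _).trans ?_))
      simp
    have b3 : (Y.card + 1) * N ≤ n * N := Nat.mul_le_mul_right _ (by omega)
    nlinarith
  · obtain ⟨w, hw, e⟩ := c0 x hx
    obtain ⟨w', hw', e'⟩ := c2 w hw
    exact ⟨w', hw', H.orb_eq e' ▸ e⟩

end Vale.Agent.P267K
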