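import Vale.Agent.P267K.Defs

/-! P267, the case of a twisted canonical section: quotients. -/

open scoped Manifold ContDiff Topology
open Filter Metric Set Asymptotics

noncomputable section

namespace Vale.Agent.P267K

open Vale.Agent.P267

set_option linter.unusedSectionVars false

variable {M : Type} [TopologicalSpace M] [ChartedSpace C2 M] [IsManifold 𝓘(ℂ, C2) ω M]
  [T2Space M] {ν : M → ℝ} {A : Set M} {x y : M}

theorem ku_pt {a b H : M → ℂ} (h0 : ¬ b =ᶠ[𝓝 y] 0) (hc : ContinuousAt H y)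
    (e : a =ᶠ[𝓝 y] H * b) : quo a b y = H y := by
  have : (𝓝[{x | b x ≠ 0}] y).NeBot := frequently_iff_neBot.1 (not_eventually.1 h0)
  refine Tendsto.limUnder_eq ((hc.tendsto.mono_left nhdsWithin_le_nhds).congr' ?_)
  filter_upwards [e.filter_mono nhdsWithin_le_nhds, self_mem_nhdsWithin] with x h1 h2
  rw [Pi.div_apply, h1, Pi.mul_apply, mul_div_cancel_right₀ _ h2]

theorem quo_spec {a b : M → ℂ} (ha : HolAt a y) (hb : HolAt b y) (h0 : ¬ b =ᶠ[𝓝 y] 0)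
    (h : a =O[𝓝 y] b) : HolAt (quo a b) y ∧ a =ᶠ[𝓝 y] quo a b * b := by
  obtain ⟨H, hH, e⟩ := ha.ratio hb h0 h
  have e1 : H =ᶠ[𝓝 y] quo a b := by
    filter_upwards [ae_nev hb h0, ae_cont hH, e.eventually_nhds] with x h1 h2 h3
    exact (ku_pt h1 h2 h3).symm
  exact ⟨hH.congr e1, e.trans (e1.mul EventuallyEq.rfl)⟩

theorem quo_ne {a b : M → ℂ} (ha : HolAt a y) (hb : HolAt b y) (h0 : ¬ b =ᶠ[𝓝 y] 0)
    (h : a =Θ[𝓝 y] b) : quo a b y ≠ 0 := by
  have h1 : ¬ a =ᶠ[𝓝 y] 0 := fun e => h0 (by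
    filter_upwards [e, h.2.eq_zero_imp] with x h2 h3
    exact h3 h2)
  obtain ⟨hH, e⟩ := quo_spec ha hb h0 h.1
  obtain ⟨G, hG, e'⟩ := hb.ratio ha h1 h.2
  have h2 := ae_cancel hb h0 (ae_cont (hG.mul hH)) (ae_cont holAt_one) (by
    filter_upwards [e, e'] with x h2 h3
    simp only [Pi.mul_apply, Pi.one_apply] at h2 h3 ⊢
    linear_combination -G x * h2 - h3)
  exact right_ne_zero_of_mul_eq_one h2.self_of_nhds

theorem quo_comp (a b : M → ℂ) (φ : M ≃ₜ M) (y : M) :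
    quo (a ∘ φ) (b ∘ φ) y = quo a b (φ y) := by
  unfold quo limUnder
  rw [← φ.isOpenEmbedding.map_nhdsWithin_preimage_eq, Filter.map_map]
  rfl

theorem Gen.theta {σ σ' : M → ℂ} {V V' : Set M} (h : Gen A σ V) (h' : Gen A σ' V') (hV : IsOpen V)
    (hV' : IsOpen V') (hy : y ∈ V) (hy' : y ∈ V') : σ =Θ[𝓝 y] σ' :=
  ⟨(h' y hy').2.2.2 σ (h y hy).1 (mem_of_superset (hV.mem_nhds hy) fun x hx hA =>
      (h x hx).2.2.1.2 (subset_closure hA)),
    (h y hy).2.2.2 σ' (h' y hy').1 (mem_of_superset (hV'.mem_nhds hy') fun x hx hA =>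
      (h' x hx).2.2.1.2 (subset_closure hA))⟩

end Vale.Agent.P267K
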