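import Vale.Agent.P267K.KG2
import Vale.Agent.P267K.KU

/-! P267, the case of a twisted canonical section: frames of a divisor. -/

open scoped Manifold ContDiff Topology
open Filter Metric Set Asymptotics

noncomputable section

namespace Vale.Agent.P267K

open Vale.Agent.P267

set_option linter.unusedSectionVars false

variable {M : Type} [TopologicalSpace M] [ChartedSpace C2 M] [IsManifold 𝓘(ℂ, C2) ω M]
  [T2Space M] [ConnectedSpace M] {C : Cov M} {ν : M → ℝ} {A : Set M} {x y : M} {N : ℕ}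
  {F Ψ : C.I → M → ℂ} {σ s : M → ℂ}

theorem ki_comp {φ : M ≃ₜ M} (hφ : ∀ (f : M → ℂ) p, HolAt (f ∘ φ) p ↔ HolAt f (φ p)) {V : Set M}
    (h : Gen (φ '' A) σ V) : Gen A (σ ∘ φ) (φ ⁻¹' V) := by
  intro y hy
  obtain ⟨h1, h2, h3, h4⟩ := h (φ y) hy
  refine ⟨(hφ _ _).2 h1, fun k => h2 ?_, ?_, fun f hf k => ?_⟩
  · rw [← φ.map_nhds_eq]
    exact k
  · rw [← φ.image_closure, φ.injective.mem_set_image] at h3
    exact h3
  · have e : (f ∘ φ.symm) ∘ φ = f := funext fun x => by simp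
    have k1 : HolAt (f ∘ φ.symm) (φ y) := (hφ _ _).1 (by rw [e]; exact hf)
    have k2 : ∀ᶠ x in 𝓝 (φ y), x ∈ φ '' A → (f ∘ φ.symm) x = 0 := by
      rw [← φ.map_nhds_eq, eventually_map]
      filter_upwards [k] with x hx hx'
      rw [φ.injective.mem_set_image] at hx'
      simpa using hx hx'
    have k3 := (h4 _ k1 k2).comp_tendsto φ.continuous.continuousAt
    rwa [e] at k3

theorem ki_congr {V : Set M} (hV : IsOpen V) (h : Gen A σ V) (e : EqOn s σ V) : Gen A s V := by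
  intro y hy
  obtain ⟨h1, h2, h3, h4⟩ := h y hy
  have e' : s =ᶠ[𝓝 y] σ := eventuallyEq_of_mem (hV.mem_nhds hy) e
  refine ⟨h1.congr e'.symm, fun k => h2 (e'.symm.trans k), by rw [e hy]; exact h3, fun f hf k => ?_⟩
  exact (h4 f hf k).congr' EventuallyEq.rfl e'.symm

theorem KH.frames (H : KH C ν) (hA : Part ν A) (hN : ∀ x, (C.g ^ N) x ∈ A ↔ x ∈ A) :
    ∃ F σ, Dv C N A F σ := by
  have h0 : ∀ a B, ∃ σ, Part ν B → Gen B σ (C.e a).source := fun a B => by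
    by_cases k : Part ν B
    · obtain ⟨σ, hσ⟩ := H.fine a B k
      exact ⟨σ, fun _ => hσ⟩
    · exact ⟨0, fun k' => (k k').elim⟩
  choose G hG using h0
  obtain ⟨sg, hsg, hper⟩ : ∃ sg : C.I → M → ℂ, (∀ i, Gen A (sg i) (C.ch i).source) ∧
      ∀ i : C.I, sg (i.1, i.2 - N) ∘ (C.g ^ (N : ℤ) : M ≃ₜ M) = sg i := by
    refine ⟨fun i => G i.1 ((C.g ^ i.2 : M ≃ₜ M) '' A) ∘ (C.g ^ i.2 : M ≃ₜ M), fun i y hy =>
      ki_comp (fun f p => C.hol_gz i.2) (hG i.1 _ (H.part_gz hA i.2)) y ((C.ch_source i y).1 hy),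
      fun i => ?_⟩
    have e1 : ∀ p, (C.g ^ (i.2 - N)) ((C.g ^ (N : ℤ)) p) = (C.g ^ i.2) p := fun p => by
      rw [← C.gz_add, sub_add_cancel]
    have e2 : (C.g ^ (i.2 - N) : M ≃ₜ M) '' A = (C.g ^ i.2 : M ≃ₜ M) '' A := by
      ext x
      constructor
      · rintro ⟨z, hz, rfl⟩
        obtain ⟨w, rfl⟩ := (C.g ^ (N : ℤ)).surjective z
        refine ⟨w, ?_, (e1 w).symm⟩
        rw [zpow_natCast] at hz
        exact (hN w).1 hz
      · rintro ⟨z, hz, rfl⟩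
        refine ⟨(C.g ^ (N : ℤ)) z, ?_, e1 z⟩
        rw [zpow_natCast]
        exact (hN z).2 hz
    funext p
    simp only [Function.comp, e1, e2]
  have hi : ∀ y, y ∈ (C.ch (C.idx y)).source := fun y => (C.mem_U_idx y).1
  have hq : ∀ i j, ∀ y ∈ (C.ch i).source, y ∈ (C.ch j).source →
      (HolAt (quo (sg i) (sg j)) y ∧ sg i =ᶠ[𝓝 y] quo (sg i) (sg j) * sg j) ∧
        quo (sg i) (sg j) y ≠ 0 := fun i j y hy hy' => by
    have k := (hsg i).theta (hsg j) (C.ch i).open_source (C.ch j).open_source hy hy'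
    exact ⟨quo_spec (hsg i y hy).1 (hsg j y hy').1 (hsg j y hy').2.1 k.1,
      quo_ne (hsg i y hy).1 (hsg j y hy').1 (hsg j y hy').2.1 k⟩
  refine ⟨fun i y => quo (sg i) (sg (C.idx y)) y, fun y => sg (C.idx y) y,
    ⟨fun i p hp => (hq i _ p hp (hi p)).2, fun i j p hp => ?_⟩, ?_, fun p => ?_, fun i => ?_⟩
  · refine (hq i j p hp.1 hp.2).1.1.congr ?_
    filter_upwards [((C.ch i).open_source.inter (C.ch j).open_source).mem_nhds hp] with q hq'
    obtain ⟨⟨a1, a2⟩, -⟩ := hq i j q hq'.1 hq'.2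
    obtain ⟨⟨b1, b2⟩, -⟩ := hq i _ q hq'.1 (hi q)
    obtain ⟨⟨c1, c2⟩, c3⟩ := hq j _ q hq'.2 (hi q)
    have k := ae_cancel (hsg _ q (hi q)).1 (hsg _ q (hi q)).2.1 (ae_cont b1) (ae_cont (a1.mul c1))
      (by
        filter_upwards [a2, b2, c2] with z z1 z2 z3
        simp only [Pi.mul_apply] at z1 z2 z3 ⊢
        rw [mul_comm, ← z2, z1, z3]
        ring)
    have k1 := k.self_of_nhds
    simp only [Pi.mul_apply] at k1
    simp only [Pi.div_apply]
    rw [k1, mul_div_cancel_right₀ _ c3]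
  · funext i p
    simp only [Cov.shf]
    rw [C.idx_gz, ← quo_comp, hper, hper]
  · rw [← zpow_natCast, C.idx_gz]
    exact congrFun (hper (C.idx p)) p
  · exact ki_congr (C.ch i).open_source (hsg i) fun y hy =>
      ((hq i _ y hy (hi y)).1.2.self_of_nhds).symm

theorem Fm.sFr (h : Fm C F) : C.SFr F :=
  ⟨fun i p hp => h.ne i p hp.1, fun i j p hp => (h.hol i j p ⟨hp.1.1, hp.2.1⟩).smAt⟩

end Vale.Agent.P267K
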