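import Vale.Agent.P267K.KG4
import Vale.Agent.P267K.KI

/-! P267, the case of a twisted canonical section: the norm of the section. -/

open scoped Manifold ContDiff Topology
open Filter Metric Set Asymptotics

noncomputable section

namespace Vale.Agent.P267K

open Vale.Agent.P267

set_option linter.unusedSectionVars false

variable {M : Type} [TopologicalSpace M] [ChartedSpace C2 M] [IsManifold 𝓘(ℂ, C2) ω M]
  [T2Space M] [ConnectedSpace M] {C : Cov M} {ν : M → ℝ} {A : Set M} {x y : M} {N : ℕ}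
  {F Ψ : C.I → M → ℂ} {σ s : M → ℂ}

theorem ki2_bd (h : Fm C F) {i : C.I} (hx : x ∈ (C.ch i).source) (j : C.I) : ∃ c : ℝ,
    ∀ᶠ y in 𝓝 x, y ∈ C.U j 1 → ‖(F j / F i) y‖ ≤ c ∧ ‖(F i / F j) y‖ ≤ c := by
  by_cases hj : x ∈ {p | p ∈ (C.ch j).source ∧ ‖C.ch j p‖ ≤ 1}
  · have h1 := (h.hol j i x ⟨hj.1, hx⟩).continuousAt.norm.max
      (h.hol i j x ⟨hx, hj.1⟩).continuousAt.norm
    exact ⟨_, (h1.eventually (eventually_le_nhds (lt_add_one _))).mono fun y hy _ =>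
      max_le_iff.1 hy⟩
  · exact ⟨0, Eventually.mono ((C.isCompact_cl j (r := 1) (by norm_num)).isClosed.isOpen_compl.mem_nhds
      hj) fun y hy hu => (hy ⟨hu.1, hu.2.le⟩).elim⟩

theorem Dv.sec (h : Dv C N A F σ) :
    ∃ μ : M → ℝ, P267C.Sec C2 μ ∧ ∀ y, μ y = 0 ↔ y ∈ closure A := by
  refine ⟨fun y => ‖(F (C.idx y) * σ) y‖, fun x => ?_, fun y => norm_eq_zero.trans
    (h.gen _ y (C.mem_U_idx y).1).2.2.1⟩
  have hx := (C.mem_U_idx x).1
  generalize C.idx x = i at hx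
  refine ⟨F i * σ, holAt_iff_contMDiffAt.1 (h.gen i x hx).1, ?_⟩
  choose c hc using ki2_bd h.fm hx
  have h1 : ∀ᶠ y in 𝓝 x, F i y ≠ 0 ∧ F (C.idx y) y ≠ 0 ∧
      ‖F (C.idx y) y / F i y‖ ≤ ∑ j ∈ C.nb i, |c j| ∧
      ‖F i y / F (C.idx y) y‖ ≤ ∑ j ∈ C.nb i, |c j| := by
    filter_upwards [(eventually_all_finset (C.nb i)).2 fun j _ => hc j,
      (C.ch i).open_source.mem_nhds hx] with y h2 hy
    have h3 := C.mem_U_idx y
    have h4 := C.mem_nb hy h3.1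
    have h5 := (le_abs_self _).trans
      (Finset.single_le_sum (f := fun j => |c j|) (fun _ _ => abs_nonneg _) h4)
    exact ⟨h.fm.ne i y hy, h.fm.ne _ y h3.1, (h2 _ h4 h3).1.trans h5, (h2 _ h4 h3).2.trans h5⟩
  refine ⟨IsBigO.of_bound (∑ j ∈ C.nb i, |c j|) (h1.mono fun y ⟨a, _, e, _⟩ => ?_),
    IsBigO.of_bound (∑ j ∈ C.nb i, |c j|) (h1.mono fun y ⟨_, a, _, e⟩ => ?_)⟩
  all_goals
    refine le_trans (le_of_eq ?_) (mul_le_mul_of_nonneg_right e (norm_nonneg _))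
    simp only [norm_norm, Pi.mul_apply]
    rw [← norm_mul, ← mul_assoc, div_mul_cancel₀ _ a]

end Vale.Agent.P267K
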