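import Vale.Agent.P267K.KG2
import Vale.Agent.P267K.KU

/-! P267, the case of a twisted canonical section: multiplicities. -/

open scoped Manifold ContDiff Topology
open Filter Metric Set Asymptotics

noncomputable section

namespace Vale.Agent.P267K

open Vale.Agent.P267

set_option linter.unusedSectionVars false

variable {M : Type} [TopologicalSpace M] [ChartedSpace C2 M] [IsManifold 𝓘(ℂ, C2) ω M]
  [T2Space M] [ConnectedSpace M] {C : Cov M} {ν : M → ℝ} {A : Set M} {x y : M} {N : ℕ}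
  {F Ψ : C.I → M → ℂ} {σ s : M → ℂ}

theorem kj_chg (hF : Fm C F) (σ : M → ℂ) {i j : C.I} {p : M} (hi : p ∈ (C.ch i).source)
    (hj : p ∈ (C.ch j).source) : (F i * σ) =Θ[𝓝 p] (F j * σ) := by
  have h1 : F j =Θ[𝓝 p] F i := isTheta_of_div_tendsto_nhds_ne_zero
    (hF.hol i j p ⟨hi, hj⟩).continuousAt.tendsto (div_ne_zero (hF.ne i p hi) (hF.ne j p hj))
  exact h1.symm.mul (isTheta_refl σ _)

theorem kj_snd [SecondCountableTopology M] {c : M → ℂ × ℂ} {ψ : ℂ × ℂ → M} {p : M}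
    (hc : P267C.Crd C2 c ψ p) : ¬ ∀ᶠ y in 𝓝 p, (c y).2 = 0 := fun h => by
  have h1 : ∀ᶠ v in 𝓝 (0 : ℂ × ℂ), v.2 = 0 := by
    filter_upwards [hc.tψ.eventually h, hc.r] with v a1 a2
    rwa [a2] at a1
  have h2 : Tendsto (fun w : ℂ => ((0 : ℂ), w)) (𝓝[≠] 0) (𝓝 0) :=
    ((Continuous.prodMk_right (0 : ℂ)).tendsto 0).mono_left nhdsWithin_le_nhds
  obtain ⟨w, a1, a2⟩ := ((h2.eventually h1).and self_mem_nhdsWithin).exists
  exact a2 a1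

theorem kj_mult [SecondCountableTopology M] {c : M → ℂ × ℂ} {ψ : ℂ × ℂ → M} {p : M} {f : M → ℂ}
    (hc : P267C.Crd C2 c ψ p) (hf : HolAt f p) (h0 : ¬ f =ᶠ[𝓝 p] 0)
    (h1 : ∀ᶠ y in 𝓝 p, f y = 0 → (c y).2 = 0) : ∃ μ : ℕ, f =Θ[𝓝 p] fun y => (c y).2 ^ μ := by
  have hf' : P267C.An C2 f p := holAt_iff_contMDiffAt.1 hf
  obtain ⟨μ, h2⟩ := P267C.mult (P267C.An.comp_ho (hc.p0.symm ▸ hf') hc.ho) (fun h2 => h0 (by
    filter_upwards [hc.tc.eventually h2, hc.l] with y a2 a3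
    rwa [a3] at a2)) (by
    filter_upwards [hc.tψ.eventually h1, hc.r] with v a2 a3 a4
    exact a3 ▸ a2 a4)
  have h3 : f =ᶠ[𝓝 p] (fun w => f (ψ w)) ∘ c := hc.l.mono fun y hy => (congrArg f hy).symm
  exact ⟨μ, h3.isTheta.trans ⟨h2.1.comp_tendsto hc.tc, h2.2.comp_tendsto hc.tc⟩⟩

theorem kj_lt {X : Type} {l : Filter X} {u : X → ℂ} (hu : Tendsto u l (𝓝 0)) (h0 : ¬ u =ᶠ[l] 0)
    {m m' : ℕ} (h : (u ^ m) =O[l] (u ^ m')) : m' ≤ m := by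
  by_contra hlt
  obtain ⟨k, rfl⟩ := Nat.exists_eq_add_of_lt (not_le.1 hlt)
  have h1 : (fun y => u y ^ (k + 1)) =o[l] fun _ => (1 : ℂ) := by
    rw [isLittleO_one_iff]
    simpa using hu.pow (k + 1)
  have h2 : (u ^ (m + k + 1)) =o[l] (u ^ m) := by
    refine ((isBigO_refl (u ^ m) l).mul_isLittleO h1).congr (fun y => ?_) fun y => mul_one _
    simp only [Pi.pow_apply]
    ring
  refine isLittleO_irrefl ?_ (h.trans_isLittleO h2)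
  refine (not_eventually.1 h0).mono fun y hy => ?_
  exact pow_ne_zero m hy

theorem kj_inv {V : Type} {s : M → V} (hs : ∀ p, s ((C.g ^ N) p) = s p) (k : ℤ) (q : M) :
    s ((C.g ^ (k * N : ℤ)) q) = s q := by
  have h : C.Pd N (fun _ => s) := funext fun i => funext fun p => by
    change s ((C.g ^ (N : ℤ)) p) = s p
    rw [zpow_natCast, hs]
  exact congrFun (congrFun (h.mul_int k) (C.idx q)) q

/-- The multiplicity at `p` is `m`. -/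
def KjP (C : Cov M) (F Ψ : C.I → M → ℂ) (σ s : M → ℂ) (m : ℕ) (p : M) : Prop :=
  ∃ i, p ∈ (C.ch i).source ∧ (Ψ i * s) =Θ[𝓝 p] ((F i * σ) ^ m)

theorem KjP.all {m : ℕ} {p : M} (h : KjP C F Ψ σ s m p) (hΨ : Fm C Ψ) (hF : Fm C F) (i : C.I)
    (hi : p ∈ (C.ch i).source) : (Ψ i * s) =Θ[𝓝 p] ((F i * σ) ^ m) := by
  obtain ⟨j, hj, h⟩ := h
  exact ((kj_chg hΨ s hi hj).trans h).trans ((kj_chg hF σ hj hi).pow m)

theorem KjP.ev {m : ℕ} {p : M} (h : KjP C F Ψ σ s m p) : ∀ᶠ q in 𝓝 p, KjP C F Ψ σ s m q := by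
  have := C.second
  obtain ⟨j, hj, h⟩ := h
  filter_upwards [(C.ch j).open_source.mem_nhds hj, P267C.secb_ev h.1, P267C.secb_ev h.2]
    with q a1 a2 a3 using ⟨j, a1, a2, a3⟩

theorem KjP.shift {m : ℕ} {p : M} (hP : C.Pd N Ψ) (hF : C.Pd N F)
    (hs : ∀ p, s ((C.g ^ N) p) = s p) (hσ : ∀ p, σ ((C.g ^ N) p) = σ p) (k : ℤ)
    (h : KjP C F Ψ σ s m ((C.g ^ (k * N : ℤ)) p)) : KjP C F Ψ σ s m p := by
  obtain ⟨j, hj, h⟩ := h
  have key : ∀ {G : C.I → M → ℂ} {τ : M → ℂ}, C.Pd N G → (∀ p, τ ((C.g ^ N) p) = τ p) → ∀ q,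
      (G (j.1, j.2 + k * N) * τ) q = (G j * τ) ((C.g ^ (k * N : ℤ)) q) := fun {G τ} h1 h2 q => by
    have e := congrFun (congrFun (h1.mul_int k) (j.1, j.2 + k * N)) q
    simp only [Cov.shf, add_sub_cancel_right] at e
    rw [Pi.mul_apply, Pi.mul_apply, kj_inv h2, e]
  have ht : Tendsto (C.g ^ (k * N : ℤ) : M ≃ₜ M) (𝓝 p) (𝓝 ((C.g ^ (k * N : ℤ)) p)) :=
    (C.g ^ (k * N : ℤ) : M ≃ₜ M).continuous.tendsto p
  refine ⟨(j.1, j.2 + k * N), ?_, ?_⟩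
  · rw [C.ch_source] at hj ⊢
    rwa [C.gz_add]
  · have e1 : Ψ (j.1, j.2 + k * N) * s = (Ψ j * s) ∘ (C.g ^ (k * N : ℤ) : M ≃ₜ M) :=
      funext (key hP hs)
    have e2 : (F (j.1, j.2 + k * N) * σ) ^ m =
        ((F j * σ) ^ m) ∘ (C.g ^ (k * N : ℤ) : M ≃ₜ M) :=
      funext fun q => congrArg (· ^ m) (key hF hσ q)
    rw [e1, e2]
    exact ⟨h.1.comp_tendsto ht, h.2.comp_tendsto ht⟩

theorem KjP.uniq {m m' : ℕ} {p : M} (hΨ : Fm C Ψ) (hD : Dv C N A F σ) (hp : p ∈ A)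
    (h : KjP C F Ψ σ s m p) (h' : KjP C F Ψ σ s m' p) : m = m' := by
  have hi := (C.mem_U_idx p).1
  obtain ⟨g1, g2, g3, -⟩ := hD.gen _ p hi
  have h1 := (h.all hΨ hD.fm _ hi).symm.trans (h'.all hΨ hD.fm _ hi)
  have h2 := g1.continuousAt.tendsto
  rw [g3.2 (subset_closure hp)] at h2
  exact le_antisymm (kj_lt h2 g2 h1.2) (kj_lt h2 g2 h1.1)

theorem kj_ex {p : M} (hΨ : Fm C Ψ) (hh : ∀ i, ∀ p ∈ (C.ch i).source, HolAt (Ψ i * s) p)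
    (hz : ∀ x, ν x = 0 ↔ s x = 0) (hA : Part ν A) (hD : Dv C N A F σ) (hp : p ∈ A) :
    ∃ m, KjP C F Ψ σ s m p := by
  have := C.second
  have hi := (C.mem_U_idx p).1
  obtain ⟨g1, g2, g3, g4⟩ := hD.gen _ p hi
  obtain ⟨c, ψ, hc, h⟩ := (hA p hp).1
  have h1 : ∀ᶠ y in 𝓝 p, ((Ψ (C.idx p) * s) y = 0 ↔ (c y).2 = 0) := by
    filter_upwards [h, (C.ch _).open_source.mem_nhds hi] with y a1 a2
    rw [← a1, hz, Pi.mul_apply, mul_eq_zero, or_iff_right (hΨ.ne _ y a2)]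
  obtain ⟨μ, h2⟩ := kj_mult hc (hh _ p hi)
    (fun e => kj_snd hc ((h1.and e).mono fun y hy => hy.1.1 hy.2)) (h1.mono fun y hy => hy.1)
  have h3 : HolAt (fun y => (c y).2) p :=
    holAt_iff_contMDiffAt.2 (P267C.An.post hc.an (u := Prod.snd) analyticAt_snd)
  have h4 := g4 _ h3 (h.mono fun y hy hyA => hy.1 (sm_zero (hA y hyA).1))
  obtain ⟨μ', h5⟩ := kj_mult hc g1 g2 h4.eq_zero_imp
  obtain ⟨k, rfl⟩ := Nat.exists_eq_succ_of_ne_zero (n := μ') (by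
    rintro rfl
    have := h5.2.eq_zero_imp.self_of_nhds (g3.2 (subset_closure hp))
    simp at this)
  have h6 : (fun y => (c y).2 ^ k) =O[𝓝 p] fun _ => (1 : ℂ) :=
    (h3.continuousAt.pow k).isBigO_one ℂ
  have h7 : (F (C.idx p) * σ) =Θ[𝓝 p] fun y => (c y).2 := by
    refine ⟨h5.1.trans ?_, h4⟩
    exact (h6.mul (isBigO_refl (fun y => (c y).2) _)).congr (fun y => (pow_succ _ _).symm)
      fun y => one_mul _
  exact ⟨μ, _, hi, h2.trans (h7.pow μ).symm⟩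

/-- The multiplicity along one orbit. -/
theorem KH.mult (H : KH C ν) (hΨ : Fm C Ψ) (hP : C.Pd N Ψ) (hs : ∀ p, s ((C.g ^ N) p) = s p)
    (hh : ∀ i, ∀ p ∈ (C.ch i).source, HolAt (Ψ i * s) p) (hz : ∀ x, ν x = 0 ↔ s x = 0)
    (hD : Dv C N (orb C ν N x) F σ) :
    ∃ m : ℕ, ∀ i, ∀ p ∈ (C.ch i).source, p ∈ orb C ν N x →
      (Ψ i * s) =Θ[𝓝 p] ((F i * σ) ^ m) := by
  rcases (orb C ν N x).eq_empty_or_nonempty with e | ⟨p₀, hp₀⟩
  · exact ⟨0, fun i p _ hp => by rw [e] at hp; exact hp.elim⟩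
  have hA := part_orb C ν N x
  obtain ⟨m, hm⟩ := kj_ex hΨ hh hz hA hD hp₀
  obtain ⟨k₀, h₀⟩ := mem_iUnion.1 hp₀
  have hsub : cp ν ((C.g ^ (k₀ * N : ℤ)) x) ⊆ orb C ν N x :=
    subset_iUnion (fun k : ℤ => cp ν ((C.g ^ (k * N : ℤ)) x)) k₀
  have key : ∀ q ∈ cp ν ((C.g ^ (k₀ * N : ℤ)) x), KjP C F Ψ σ s m q := fun q hq => by
    refine ((isPreconnected_connectedComponentIn (x := (C.g ^ (k₀ * N : ℤ)) x)
      (F := {y | P267C.Sm C2 ν y})).induction₂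
      (fun a b => ∀ m, KjP C F Ψ σ s m a ↔ KjP C F Ψ σ s m b) ?_
      (fun _ _ _ _ _ _ h h' m => (h m).trans (h' m)) (fun _ _ _ _ h m => (h m).symm) h₀ hq m).1 hm
    intro a ha
    obtain ⟨n, hn⟩ := kj_ex hΨ hh hz hA hD (hsub ha)
    filter_upwards [nhdsWithin_le_nhds hn.ev, self_mem_nhdsWithin] with b b1 b2 n'
    exact ⟨fun h => (hn.uniq hΨ hD (hsub ha) h) ▸ b1, fun h => (b1.uniq hΨ hD (hsub b2) h) ▸ hn⟩
  refine ⟨m, fun i p hi hp => KjP.all ?_ hΨ hD.fm i hi⟩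
  obtain ⟨k, hk⟩ := mem_iUnion.1 hp
  refine KjP.shift hP hD.per hs hD.inv (k₀ - k) (key _ ?_)
  have e : (C.g ^ (k₀ * N : ℤ)) x = (C.g ^ ((k₀ - k) * N : ℤ)) ((C.g ^ (k * N : ℤ)) x) := by
    rw [← C.gz_add, sub_mul, sub_add_cancel]
  rw [e]
  exact (H.cp_gz _).2 hk

end Vale.Agent.P267K
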