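import Vale.Agent.P267K.Defs

/-! P267, the case of a twisted canonical section: bounds outside a countable set. -/

open scoped Manifold ContDiff Topology
open Filter Metric Set Asymptotics

noncomputable section

namespace Vale.Agent.P267K

open Vale.Agent.P267

set_option linter.unusedSectionVars false

variable {M : Type} [TopologicalSpace M] [ChartedSpace C2 M] [IsManifold 𝓘(ℂ, C2) ω M]
  [T2Space M] {ν : M → ℝ} {A : Set M} {x y : M}

theorem kv_hart {a b : M → ℂ} (ha : HolAt a x) (hb : HolAt b x)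
    (h1 : ∀ᶠ y in 𝓝[≠] x, a =O[𝓝 y] b) : a =O[𝓝 x] b := by
  have L : (ℂ × ℂ) ≃L[ℂ] C2 := ContinuousLinearEquiv.ofFinrankEq (by simp)
  have hx := mem_chart_source C2 x
  have hl : ∀ᶠ y in 𝓝 x, (chartAt C2 x).symm (L (L.symm (chartAt C2 x y))) = y :=
    ((chartAt C2 x).eventually_left_inverse hx).mono fun y hy => by simpa using hy
  have hL : Tendsto L (𝓝 (L.symm (chartAt C2 x x))) (𝓝 (chartAt C2 x x)) :=
    L.continuous.tendsto' _ _ (by simp)
  have ht : ∀ᶠ v in 𝓝 (L.symm (chartAt C2 x x)), L v ∈ (chartAt C2 x).target :=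
    hL ((chartAt C2 x).open_target.mem_nhds ((chartAt C2 x).map_source hx))
  have h2 : Tendsto (fun v => (chartAt C2 x).symm (L v)) (𝓝[≠] (L.symm (chartAt C2 x x)))
      (𝓝[≠] x) := by
    refine tendsto_nhdsWithin_iff.2
      ⟨(((chartAt C2 x).tendsto_symm hx).comp hL).mono_left nhdsWithin_le_nhds, ?_⟩
    filter_upwards [nhdsWithin_le_nhds ht, self_mem_nhdsWithin] with v a1 a2 a3
    refine a2 ?_
    have a4 : L v = chartAt C2 x x :=
      ((chartAt C2 x).right_inv a1).symm.trans (congrArg (chartAt C2 x) a3)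
    simp [← a4]
  have h3 := P267C.hart (f := fun v => a ((chartAt C2 x).symm (L v)))
    (g := fun v => b ((chartAt C2 x).symm (L v))) (x := L.symm (chartAt C2 x x))
    (AnalyticAt.comp_of_eq (g := a ∘ (chartAt C2 x).symm) (f := L) ha (L.analyticAt _) (by simp))
    (AnalyticAt.comp_of_eq (g := b ∘ (chartAt C2 x).symm) (f := L) hb (L.analyticAt _) (by simp))
    (by
      filter_upwards [h2.eventually h1, nhdsWithin_le_nhds ht] with v a1 a4
      exact a1.comp_tendsto (((chartAt C2 x).continuousAt_symm a4).comp L.continuous.continuousAt))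
  have h4 : Tendsto (fun y => L.symm (chartAt C2 x y)) (𝓝 x) (𝓝 (L.symm (chartAt C2 x x))) :=
    L.symm.continuous.continuousAt.comp ((chartAt C2 x).continuousAt hx)
  refine (h3.comp_tendsto h4).congr' ?_ ?_
  · exact hl.mono fun y hy => congrArg a hy
  · exact hl.mono fun y hy => congrArg b hy

/-- A bound that holds outside a countable set holds everywhere. -/
theorem hartM {U Q : Set M} (hU : IsOpen U) (hQ : Q.Countable) {a b : M → ℂ}
    (ha : ∀ y ∈ U, HolAt a y) (hb : ∀ y ∈ U, HolAt b y) (h : ∀ y ∈ U, y ∉ Q → a =O[𝓝 y] b) :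
    ∀ y ∈ U, a =O[𝓝 y] b := by
  by_contra hne
  push Not at hne
  have := P267C.lcs C2 M
  obtain ⟨z, hz, hiso⟩ := P267C.iso_pt (U := U) (S := {y | y ∈ U ∧ ¬ a =O[𝓝 y] b}) hU
    (fun y hy => hy.1)
    (fun y hy hy' => (P267C.secb_ev (not_not.1 fun h' => hy' ⟨hy, h'⟩)).mono
      fun w hw hw' => hw'.2 hw)
    (hQ.mono fun y hy => not_not.1 fun h' => hy.2 (h y hy.1 h')) hne
  refine hz.2 (kv_hart (ha z hz.1) (hb z hz.1) ?_)
  filter_upwards [hiso, nhdsWithin_le_nhds (hU.mem_nhds hz.1)] with w h1 h2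
  exact not_not.1 fun h' => h1 ⟨h2, h'⟩

end Vale.Agent.P267K
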