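import Vale.Agent.P267K.KJ
import Vale.Agent.P267K.KV

/-! P267, the case of a twisted canonical section: factorisation. -/

open scoped Manifold ContDiff Topology
open Filter Metric Set Asymptotics

noncomputable section

namespace Vale.Agent.P267K

open Vale.Agent.P267

set_option linter.unusedSectionVars false

variable {M : Type} [TopologicalSpace M] [ChartedSpace C2 M] [IsManifold 𝓘(ℂ, C2) ω M]
  [T2Space M] [ConnectedSpace M] {C : Cov M} {ν : M → ℝ} {A : Set M} {x y : M} {N : ℕ}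
  {F Ψ : C.I → M → ℂ} {σ s : M → ℂ}

theorem kj2_th {a b : M → ℂ} (ha : ContinuousAt a y) (hb : ContinuousAt b y) (ha0 : a y ≠ 0)
    (hb0 : b y ≠ 0) : a =Θ[𝓝 y] b :=
  (((isEquivalent_const_iff_tendsto ha0).2 ha).isTheta.trans (isTheta_const_const ha0 hb0)).trans
    ((isEquivalent_const_iff_tendsto hb0).2 hb).isTheta.symm

theorem KH.fact (H : KH C ν) (hΨ : Fm C Ψ) (hP : C.Pd N Ψ) (hs : ∀ p, s ((C.g ^ N) p) = s p)
    (hh : ∀ i, ∀ p ∈ (C.ch i).source, HolAt (Ψ i * s) p) (hz : ∀ x, ν x = 0 ↔ s x = 0)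
    {W : Finset M} (hW : Rp C ν N W) {F : M → C.I → M → ℂ} {σ : M → M → ℂ}
    (hD : ∀ w ∈ W, Dv C N (orb C ν N w) (F w) (σ w)) :
    ∃ m : M → ℕ, ∀ i, ∀ p ∈ (C.ch i).source,
      (Ψ i * s) =Θ[𝓝 p] ∏ w ∈ W, (F w i * σ w) ^ m w := by
  classical
  choose! m hm using fun w (hw : w ∈ W) => H.mult hΨ hP hs hh hz (hD w hw)
  refine ⟨m, fun i => ?_⟩
  have hb : ∀ S ⊆ W, ∀ y ∈ (C.ch i).source, HolAt (∏ w ∈ S, (F w i * σ w) ^ m w) y :=
    fun S hS y hy => HolAt.prod fun w hw => ((hD w (hS hw)).gen i y hy).1.pow _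
  have hn : ∀ S ⊆ W, ∀ y ∈ (C.ch i).source, (∀ w ∈ S, y ∉ closure (orb C ν N w)) →
      (∏ w ∈ S, (F w i * σ w) ^ m w) y ≠ 0 := fun S hS y hy h => by
    rw [Finset.prod_apply]
    exact Finset.prod_ne_zero_iff.2 fun w hw => pow_ne_zero (m w) fun e =>
      h w hw (((hD w (hS hw)).gen i y hy).2.2.1.1 e)
  have key : ∀ y ∈ (C.ch i).source, y ∉ {x | ν x = 0 ∧ ¬ P267C.Sm C2 ν x} →
      (Ψ i * s) =Θ[𝓝 y] ∏ w ∈ W, (F w i * σ w) ^ m w := fun y hy hQ => by
    by_cases h0 : ν y = 0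
    · have hsm : P267C.Sm C2 ν y := by
        by_contra h1
        exact hQ ⟨h0, h1⟩
      obtain ⟨w0, hw0, hy0⟩ := hW.cov y hsm
      have h1 := hn _ (W.erase_subset w0) y hy fun w hw h2 => by
        obtain ⟨h3, h4⟩ := Finset.mem_erase.1 hw
        refine h3 (hW.dis w h4 w0 hw0 ?_)
        rw [← H.orb_eq ((part_orb C ν N w).of_closure hsm h2), H.orb_eq hy0]
        exact mem_orb N (hW.sm w0 hw0)
      have h2 := (isTheta_refl ((F w0 i * σ w0) ^ m w0) (𝓝 y)).mul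
        (kj2_th (a := fun _ => 1) continuousAt_const
          (hb _ (W.erase_subset w0) y hy).continuousAt one_ne_zero h1)
      rw [← Finset.mul_prod_erase W _ hw0]
      simp only [mul_one] at h2
      exact (hm w0 hw0 i y hy hy0).trans h2
    · exact kj2_th (hh i y hy).continuousAt (hb W subset_rfl y hy).continuousAt
        (mul_ne_zero (hΨ.ne i y hy) fun e => h0 ((hz y).2 e))
        (hn W subset_rfl y hy fun w _ h2 => h0 ((part_orb C ν N w).closure_sub H.closed h2))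
  exact fun p hp => ⟨hartM (C.ch i).open_source H.sing (hh i) (hb W subset_rfl)
      (fun y hy hQ => (key y hy hQ).1) p hp,
    hartM (C.ch i).open_source H.sing (hb W subset_rfl) (hh i)
      (fun y hy hQ => (key y hy hQ).2) p hp⟩

end Vale.Agent.P267K
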