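import Vale.Agent.P267K.KI

/-! P267, the case of a twisted canonical section: the class of the divisor. -/

open scoped Manifold ContDiff Topology
open Filter Metric Set Asymptotics

noncomputable section

namespace Vale.Agent.P267K

open Vale.Agent.P267

set_option linter.unusedSectionVars false

variable {M : Type} [TopologicalSpace M] [ChartedSpace C2 M] [IsManifold 𝓘(ℂ, C2) ω M]
  [T2Space M] [ConnectedSpace M] {C : Cov M} {ν : M → ℝ} {A : Set M} {x y : M} {N : ℕ}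
  {F Ψ : C.I → M → ℂ} {σ s : M → ℂ}

/-- Periodic frames with an invariant section and a given class. -/
structure kk_Ok {n : ℕ} (C : Cov M) (N : ℕ) (c : (C.I → M → ℂ) → Fin n → ℤ) (G : C.I → M → ℂ)
    (τ : M → ℂ) (v : Fin n → ℤ) : Prop where
  fm : Fm C G
  per : C.Pd N G
  inv : ∀ p, τ ((C.g ^ N) p) = τ p
  hol : ∀ i, ∀ p ∈ (C.ch i).source, HolAt (G i * τ) p ∧ ¬ G i * τ =ᶠ[𝓝 p] 0
  cl : c G = v

section
variable {k : M → M → ℂ} {n : ℕ} {Φ : Fin n → C.I → M → ℂ} {c : (C.I → M → ℂ) → Fin n → ℤ}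
  (hL : C.Lat k N Φ c) {G G' : C.I → M → ℂ} {τ τ' : M → ℂ} {v v' : Fin n → ℤ}
include hL

theorem kk_one : kk_Ok C N c 1 1 0 := by
  refine ⟨⟨fun _ _ _ => one_ne_zero, fun _ _ _ _ => ?_⟩, rfl, fun _ => rfl, fun i p _ => ?_, ?_⟩
  · simpa using holAt_one
  · refine ⟨by simpa using holAt_one, fun h => ?_⟩
    simpa using h.self_of_nhds
  · simpa using hL.zpow Cov.sFr_one (rfl : C.Pd N (1 : C.I → M → ℂ)) 0

theorem kk_mul (h : kk_Ok C N c G τ v) (h' : kk_Ok C N c G' τ' v') :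
    kk_Ok C N c (G * G') (τ * τ') (v + v') := by
  refine ⟨⟨fun i p hp => mul_ne_zero (h.fm.ne i p hp) (h'.fm.ne i p hp), fun i j p hp => ?_⟩,
    Cov.LD_pd (f := (· * ·)) h.per h'.per, fun p => ?_, fun i p hp => ?_, ?_⟩
  · rw [Pi.mul_apply, Pi.mul_apply, mul_div_mul_comm]
    exact (h.fm.hol i j p hp).mul (h'.fm.hol i j p hp)
  · rw [Pi.mul_apply, Pi.mul_apply, h.inv, h'.inv]
  · rw [Pi.mul_apply, mul_mul_mul_comm]
    refine ⟨(h.hol i p hp).1.mul (h'.hol i p hp).1, fun h0 => (h'.hol i p hp).2 ?_⟩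
    exact ae_cancel (h.hol i p hp).1 (h.hol i p hp).2 (ae_cont (h'.hol i p hp).1)
      (Eventually.of_forall fun _ => continuousAt_const) (by rwa [mul_zero])
  · rw [hL.mul h.fm.sFr h.per h'.fm.sFr h'.per, h.cl, h'.cl]

theorem kk_pow (h : kk_Ok C N c G τ v) (m : ℕ) : kk_Ok C N c (G ^ m) (τ ^ m) (m • v) := by
  induction m with
  | zero => simpa using kk_one hL
  | succ m ih =>
    rw [pow_succ, pow_succ, succ_nsmul]
    exact kk_mul hL ih h

theorem kk_prod {ι : Type} {W : Finset ι} {G : ι → C.I → M → ℂ} {τ : ι → M → ℂ}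
    {v : ι → Fin n → ℤ} (h : ∀ w ∈ W, kk_Ok C N c (G w) (τ w) (v w)) :
    kk_Ok C N c (∏ w ∈ W, G w) (∏ w ∈ W, τ w) (∑ w ∈ W, v w) := by
  induction W using Finset.cons_induction with
  | empty => simpa using kk_one hL
  | cons a W ha ih =>
    rw [Finset.prod_cons, Finset.prod_cons, Finset.sum_cons]
    exact kk_mul hL (h a (Finset.mem_cons_self _ _)) (ih fun w hw => h w (Finset.mem_cons_of_mem hw))

omit hL in
theorem kk_sh (h : C.Pd N G) (h' : ∀ p, τ ((C.g ^ N) p) = τ p) (i : C.I) :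
    (G (i.1, i.2 - N) * τ) ∘ (C.g ^ (N : ℤ) : M ≃ₜ M) = G i * τ := funext fun q => by
  have e : G (i.1, i.2 - N) ((C.g ^ (N : ℤ)) q) = G i q := congrFun (congrFun h i) q
  rw [Function.comp_apply, Pi.mul_apply, Pi.mul_apply, e, zpow_natCast, h']

theorem kk_main (hG : kk_Ok C N c G τ v) (hΨ : Fm C Ψ) (hP : C.Pd N Ψ)
    (hs : ∀ p, s ((C.g ^ N) p) = s p) (hh : ∀ i, ∀ p ∈ (C.ch i).source, HolAt (Ψ i * s) p)
    (h : ∀ i, ∀ p ∈ (C.ch i).source, (Ψ i * s) =Θ[𝓝 p] (G i * τ)) : c Ψ = v := by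
  have k1 := fun i p hp => quo_spec (hh i p hp) (hG.hol i p hp).1 (hG.hol i p hp).2 (h i p hp).1
  have k2 := fun i p hp => quo_ne (hh i p hp) (hG.hol i p hp).1 (hG.hol i p hp).2 (h i p hp)
  refine (hL.gauge hG.fm.sFr hG.per hΨ.sFr hP (s := fun i => quo (Ψ i * s) (G i * τ))
    (fun i p hp => ⟨(k1 i p hp.1).1.smAt, k2 i p hp.1⟩) ?_ fun i j p hp => ?_).trans hG.cl
  · funext i p
    rw [← kk_sh hG.per hG.inv i, ← kk_sh hP hs i, quo_comp]
    rfl
  · have hi := hp.1.1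
    have hj := hp.2.1
    have k3 := ae_cancel (hG.hol j p hj).1 (hG.hol j p hj).2
      (ae_cont ((hΨ.hol i j p ⟨hi, hj⟩).mul (k1 j p hj).1))
      (ae_cont ((hG.fm.hol i j p ⟨hi, hj⟩).mul (k1 i p hi).1)) (by
        filter_upwards [(k1 i p hi).2, (k1 j p hj).2, (C.ch j).open_source.mem_nhds hj]
          with q a b d
        have e1 := hΨ.ne j q d
        have e2 := hG.fm.ne j q d
        simp only [Pi.mul_apply, Pi.div_apply] at a b ⊢
        field_simp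
        linear_combination Ψ j q * a - Ψ i q * b)
    have k4 := k3.self_of_nhds
    have e2 := hG.fm.ne j p hj
    have e3 := k2 j p hj
    simp only [Pi.mul_apply, Pi.div_apply] at k4
    rw [eq_div_iff (mul_ne_zero e2 e3), mul_left_comm, k4]
    field_simp

end

theorem cls {k : M → M → ℂ} {n : ℕ} {Φ : Fin n → C.I → M → ℂ} {c : (C.I → M → ℂ) → Fin n → ℤ}
    (hL : C.Lat k N Φ c) (hΨ : Fm C Ψ) (hP : C.Pd N Ψ) (hs : ∀ p, s ((C.g ^ N) p) = s p)
    (hh : ∀ i, ∀ p ∈ (C.ch i).source, HolAt (Ψ i * s) p) {W : Finset M} {A : M → Set M}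
    {F : M → C.I → M → ℂ} {σ : M → M → ℂ} (hD : ∀ w ∈ W, Dv C N (A w) (F w) (σ w)) {m : M → ℕ}
    (h : ∀ i, ∀ p ∈ (C.ch i).source, (Ψ i * s) =Θ[𝓝 p] ∏ w ∈ W, (F w i * σ w) ^ m w) :
    c Ψ = ∑ w ∈ W, m w • c (F w) := by
  refine kk_main hL (kk_prod hL fun w hw => kk_pow hL ⟨(hD w hw).fm, (hD w hw).per, (hD w hw).inv,
    fun i p hp => ⟨((hD w hw).gen i p hp).1, ((hD w hw).gen i p hp).2.1⟩, rfl⟩ (m w)) hΨ hP hs hh
    fun i p hp => ?_
  simpa only [Finset.prod_apply, Pi.pow_apply, mul_pow, Finset.prod_mul_distrib] using h i p hp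

end Vale.Agent.P267K
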