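import Vale.Agent.P267K.Defs

/-! P267, the case of a twisted canonical section: counting coordinates. -/

open scoped Manifold ContDiff Topology
open Filter Metric Set Asymptotics

noncomputable section

namespace Vale.Agent.P267K

open Vale.Agent.P267

set_option linter.unusedSectionVars false

theorem comb {ι κ : Type} [Fintype κ] (W : Finset ι) (m : ι → ℕ) (a : ι → κ → ℤ)
    (h : ∑ w ∈ W, m w • a w = 1) (h2 : ∀ w ∈ W, ∑ j, (a w j * a w j + a w j) ≤ 2) :
    Fintype.card κ ≤ W.card := by
  classical
  have n0 : ∀ x : ℤ, 0 ≤ x * x + x := fun x => by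
    rcases le_or_gt 0 x with hx | hx <;> nlinarith
  have h3 : ∀ j, ∃ w ∈ W, 0 < a w j := fun j => by
    by_contra hn
    push Not at hn
    have h4 := congrFun h j
    rw [Finset.sum_apply, Pi.one_apply] at h4
    have h5 : ∑ w ∈ W, (m w • a w) j ≤ 0 := Finset.sum_nonpos fun w hw => by
      rw [Pi.smul_apply, nsmul_eq_mul]
      exact mul_nonpos_of_nonneg_of_nonpos (Nat.cast_nonneg _) (hn w hw)
    omega
  choose f hf hp using h3
  refine Finset.card_le_card_of_injOn f (fun j _ => hf j) fun j _ k _ e => by_contra fun hne => ?_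
  have h4 := Finset.sum_le_sum_of_subset_of_nonneg (Finset.subset_univ {j, k})
    (f := fun i => a (f j) i * a (f j) i + a (f j) i) fun i _ _ => n0 _
  rw [Finset.sum_pair hne] at h4
  have h5 := h2 _ (hf j)
  have h6 := hp j
  have h7 : 0 < a (f j) k := e ▸ hp k
  nlinarith

end Vale.Agent.P267K
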