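import Vale.Agent.P267K.KI
import Vale.Agent.P267S.SCLA

/-! P267, the case of a twisted canonical section: an injection in cohomology. -/

open scoped Manifold ContDiff Topology
open Filter Metric Set Asymptotics

noncomputable section

namespace Vale.Agent.P267K

open Vale.Agent.P267

set_option linter.unusedSectionVars false

variable {M : Type} [TopologicalSpace M] [ChartedSpace C2 M] [IsManifold 𝓘(ℂ, C2) ω M]
  [T2Space M] [ConnectedSpace M] {C : Cov M} {ν : M → ℝ} {A : Set M} {x y : M} {N : ℕ}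
  {F Ψ : C.I → M → ℂ} {σ s : M → ℂ}

theorem kl0_Z {G : M → M} {u f : M → M → ℂ} (h : f ∈ Z1 G u) :
    pull G f = f ∧ ∀ p, ∀ᶠ q in 𝓝 p, HolAt (u q * (f p - f q)) q := by
  induction h using Submodule.span_induction with
  | mem f hf => exact hf
  | zero => exact ⟨rfl, fun p => .of_forall fun q => by simpa using holAt_zero⟩
  | add f f' _ _ h h' =>
    refine ⟨funext₂ fun p q => congrArg₂ (· + ·) (congrFun₂ h.1 p q) (congrFun₂ h'.1 p q),
      fun p => ((h.2 p).and (h'.2 p)).mono fun q hq => ?_⟩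
    rw [Pi.add_apply, Pi.add_apply, add_sub_add_comm, mul_add]
    exact hq.1.add hq.2
  | smul c f _ h =>
    refine ⟨funext₂ fun p q => congrArg (c • ·) (congrFun₂ h.1 p q),
      fun p => (h.2 p).mono fun q hq => ?_⟩
    rw [Pi.smul_apply, Pi.smul_apply, ← smul_sub, mul_smul_comm]
    exact hq.smul c

theorem kl0_src (C : Cov M) (p : M) : ∀ᶠ q in 𝓝 p, q ∈ (C.ch (C.idx p)).source :=
  (C.ch (C.idx p)).open_source.mem_nhds (C.mem_U_idx p).1

theorem kl0_mul (hD : Dv C N A F σ) {w : M → ℂ} (h : HolAt (C.bun F⁻¹ x * w) x) :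
    HolAt (σ * w) x := by
  refine ((hD.gen _ x (C.mem_U_idx x).1).1.mul h).congr ((kl0_src C x).mono fun q hq => ?_)
  have := hD.fm.ne _ q hq
  simp only [Cov.bun, Pi.mul_apply, Pi.inv_apply]
  field_simp

theorem kl0_zero (hD : Dv C N A F σ) (hy : y ∈ closure A) : σ y = 0 :=
  (mul_eq_zero.1 ((hD.gen _ y (C.mem_U_idx y).1).2.2.1.2 hy)).resolve_left
    (hD.fm.ne _ y (C.mem_U_idx y).1)

theorem kl0_per (hD : Dv C N A F σ) (p q : M) :
    F (C.idx ((C.g ^ N) p)) ((C.g ^ N) q) = F (C.idx p) q := by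
  rw [← zpow_natCast, C.idx_gz]
  exact congrFun₂ hD.per (C.idx p) q

/-- Multiplication by a function. -/
def kl0_L (σ : M → ℂ) : (M → M → ℂ) →ₗ[ℂ] M → M → ℂ where
  toFun f p := σ * f p
  map_add' f f' := funext fun p => mul_add σ (f p) (f' p)
  map_smul' c f := funext fun p => mul_smul_comm c σ (f p)

theorem kl0_LZ (hD : Dv C N A F σ) : ∀ f ∈ Z1 (C.g ^ N : M ≃ₜ M) (C.bun F⁻¹),
    kl0_L σ f ∈ Z1 (C.g ^ N : M ≃ₜ M) (1 : M → M → ℂ) := fun f hf => by
  obtain ⟨h1, h2⟩ := kl0_Z hf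
  refine Submodule.subset_span ⟨funext₂ fun p q => congrArg₂ (· * ·) (hD.inv q) (congrFun₂ h1 p q),
    fun p => (h2 p).mono fun q hq => ?_⟩
  have := kl0_mul hD hq
  rw [mul_sub] at this
  rw [Pi.one_apply, one_mul]
  exact this

theorem kl0_LB (hD : Dv C N A F σ) {f : Z1 (C.g ^ N : M ≃ₜ M) (C.bun F⁻¹)}
    (hf : (Submodule.Quotient.mk f : H1 _ _) = 0) :
    kl0_L σ f.1 ∈ B1 (C.g ^ N : M ≃ₜ M) (1 : M → M → ℂ) := by
  obtain ⟨s, h1, h2⟩ := scla_B hf
  refine Submodule.subset_span ⟨σ * s,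
    funext fun q => congrArg₂ (· * ·) (hD.inv q) (congrFun h1 q), fun p => ?_⟩
  have := kl0_mul hD (h2 p)
  rw [mul_sub] at this
  rw [Pi.one_apply, one_mul]
  exact this

theorem kl0_inj (hD : Dv C N A F σ) (hc : Cst C N A) {f : M → M → ℂ}
    (hf : f ∈ Z1 (C.g ^ N : M ≃ₜ M) (C.bun F⁻¹)) (hs : s ∘ (C.g ^ N : M ≃ₜ M) = s)
    (h : ∀ p, HolAt (σ * f p - s) p) : f ∈ B1 (C.g ^ N : M ≃ₜ M) (C.bun F⁻¹) := by
  obtain ⟨f1, f2⟩ := kl0_Z hf
  obtain ⟨c, hc⟩ := hc s (congrFun hs) fun p _ => ⟨_, (h p).neg, .of_forall fun y hy => by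
    simp [kl0_zero hD hy]⟩
  let a : M → M → ℂ := fun p => σ * f p - s + fun _ => c
  let q : M → M → ℂ := fun p => quo (a p) (F (C.idx p) * σ)
  have hq : ∀ p, HolAt (q p) p ∧ a p =ᶠ[𝓝 p] q p * (F (C.idx p) * σ) := fun p => by
    obtain ⟨g1, g2, -, g4⟩ := hD.gen _ p (C.mem_U_idx p).1
    have ha : HolAt (a p) p := (h p).add (holAt_const c)
    refine quo_spec ha g1 g2 (g4 _ ha (.of_forall fun y hy => ?_))
    simp [a, kl0_zero hD (subset_closure hy), hc y (subset_closure hy)]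
  refine Submodule.subset_span ⟨fun y => f y y - F (C.idx y) y * q y y, funext fun y => ?_,
    fun p => (hq p).1.congr ?_⟩
  · have e1 : a ((C.g ^ N) y) ∘ (C.g ^ N : M ≃ₜ M) = a y := funext fun z =>
      congrArg (· + c) (congrArg₂ (· - ·) (congrArg₂ (· * ·) (hD.inv z) (congrFun₂ f1 y z))
        (congrFun hs z))
    have e2 : (F (C.idx ((C.g ^ N) y)) * σ) ∘ (C.g ^ N : M ≃ₜ M) = F (C.idx y) * σ :=
      funext fun z => congrArg₂ (· * ·) (kl0_per hD y z) (hD.inv z)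
    have e3 : q ((C.g ^ N) y) ((C.g ^ N) y) = q y y := by
      have := quo_comp (a ((C.g ^ N) y)) (F (C.idx ((C.g ^ N) y)) * σ) (C.g ^ N) y
      rw [e1, e2] at this
      exact this.symm
    exact congrArg₂ (· - ·) (congrFun₂ f1 y y) (congrArg₂ (· * ·) (kl0_per hD y y) e3)
  · filter_upwards [kl0_src C p, C.hol_ev (hq p).1, (hq p).2.eventually_nhds, f2 p] with
      y y1 y2 y3 y4
    obtain ⟨g1, g2, -, -⟩ := hD.gen _ y (C.mem_U_idx y).1
    have w' : HolAt (F (C.idx p) / F (C.idx y) * q p - q y) y :=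
      ((hD.fm.hol _ _ y ⟨y1, (C.mem_U_idx y).1⟩).mul y2).sub (hq y).1
    have key := (g1.cancel C g2 (ae_cont y4) (ae_cont w') (by
      filter_upwards [kl0_src C y, y3, (hq y).2] with z z1 z2 z3
      have := hD.fm.ne _ z z1
      simp only [a, Cov.bun, Pi.mul_apply, Pi.inv_apply, Pi.sub_apply, Pi.add_apply,
        Pi.div_apply] at z2 z3 ⊢
      field_simp
      linear_combination z2 - z3)).self_of_nhds
    have n1 := hD.fm.ne _ y y1
    have n2 := hD.fm.ne _ y (C.mem_U_idx y).1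
    simp only [Cov.bun, Pi.mul_apply, Pi.inv_apply, Pi.sub_apply, Pi.div_apply] at key ⊢
    field_simp at key ⊢
    linear_combination -key

theorem Dv.inj (hD : Dv C N A F σ) (hc : Cst C N A)
    [FiniteDimensional ℂ (H1 (C.g ^ N : M ≃ₜ M) (1 : M → M → ℂ))] :
    Module.finrank ℂ (H1 (C.g ^ N : M ≃ₜ M) (C.bun F⁻¹)) ≤
      Module.finrank ℂ (H1 (C.g ^ N : M ≃ₜ M) (1 : M → M → ℂ)) := by
  refine LinearMap.finrank_le_finrank_of_injective (f := Submodule.mapQ _ _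
    ((kl0_L σ).restrict (kl0_LZ hD)) fun f hf =>
      kl0_LB hD ((Submodule.Quotient.mk_eq_zero _).2 hf)) ?_
  refine (injective_iff_map_eq_zero _).2 fun x hx => ?_
  obtain ⟨f, rfl⟩ := Submodule.Quotient.mk_surjective _ x
  obtain ⟨s, h1, h2⟩ := scla_B (f := ⟨kl0_L σ f.1, kl0_LZ hD _ f.2⟩) hx
  refine (Submodule.Quotient.mk_eq_zero _).2 (kl0_inj hD hc f.2 h1 fun p => ?_)
  have := h2 p
  rwa [Pi.one_apply, one_mul] at this

end Vale.Agent.P267K
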