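import Vale.Agent.P267K.KL0
import Vale.Agent.P267S.SA9

/-! P267, the case of a twisted canonical section: the genus bound. -/

open scoped Manifold ContDiff Topology
open Filter Metric Set Asymptotics

noncomputable section

namespace Vale.Agent.P267K

open Vale.Agent.P267

set_option linter.unusedSectionVars false

variable {M : Type} [TopologicalSpace M] [ChartedSpace C2 M] [IsManifold 𝓘(ℂ, C2) ω M]
  [T2Space M] [ConnectedSpace M] {C : Cov M} {ν : M → ℝ} {A : Set M} {x y : M} {N : ℕ}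
  {F Ψ : C.I → M → ℂ} {σ s : M → ℂ}

theorem kl1_per (h : s ∘ (C.g ^ N : M ≃ₜ M) = s) (k : ℤ) (p : M) :
    s ((C.g ^ (k * N)) p) = s p := by
  have h1 : ∀ q, s ((C.g ^ (N : ℤ)) q) = s q := fun q => by
    rw [zpow_natCast]
    exact congrFun h q
  induction k using Int.induction_on with
  | zero => simp
  | succ k ih => rw [add_mul, one_mul, add_comm, C.gz_add, h1, ih]
  | pred k ih =>
    rw [← h1, ← C.gz_add, show (N : ℤ) + (-(k : ℤ) - 1) * N = -(k : ℤ) * N by ring, ih]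

theorem kl1_bdd (hN : 0 < N) (h : s ∘ (C.g ^ N : M ≃ₜ M) = s) (hs : ∀ p, HolAt s p) : Bdd s := by
  have hc : Continuous s := continuous_iff_continuousAt.2 fun p => (hs p).continuousAt
  obtain ⟨B, hB⟩ := (C.isCompact_t 0 N).exists_bound_of_continuousOn hc.continuousOn
  refine ⟨B, fun p => ?_⟩
  have hN' : (0 : ℝ) < N := by exact_mod_cast hN
  rw [← kl1_per h (-⌊C.t p / N⌋) p]
  refine hB _ ?_
  have h1 := Int.floor_le (C.t p / N)
  have h2 := Int.lt_floor_add_one (C.t p / N)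
  rw [le_div_iff₀ hN'] at h1
  rw [div_lt_iff₀ hN'] at h2
  rw [mem_preimage, C.t_gz]
  push_cast
  constructor <;> linarith

theorem kl1_one {n : ℕ} {Φ : Fin n → C.I → M → ℂ} {c : (C.I → M → ℂ) → Fin n → ℤ}
    (hL : C.Lat C.κ N Φ c) (hN : 0 < N) (hP : PG C) :
    FiniteDimensional ℂ (H1 (C.g ^ N : M ≃ₜ M) (1 : M → M → ℂ)) ∧
      Module.finrank ℂ (H1 (C.g ^ N : M ≃ₜ M) (1 : M → M → ℂ)) ≤ 1 := by
  have h0 : c 1 = 0 := by
    have h := hL.zpow Cov.sFr_one (rfl : C.Pd N (1 : C.I → M → ℂ)) 0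
    rwa [zpow_zero, zero_smul] at h
  have he := hL.rr 1 1 (fun p => Eventually.of_forall fun q =>
    ⟨one_ne_zero, by simpa using holAt_one⟩) rfl Cov.sFr_one rfl fun p => by simpa using smAt_one
  simp only [h0, Pi.zero_apply, mul_zero, Finset.sum_const_zero, neg_zero, add_zero,
    Int.zero_ediv] at he
  have e := scla_two he fun s h1 h2 => hP N hN s (by simpa [Sec] using h2) (congrFun h1)
  have l : H0 (C.g ^ N : M ≃ₜ M) (1 : M → M → ℂ) ≤ Submodule.span ℂ {(1 : M → ℂ)} :=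
    Submodule.span_le.2 fun s hs => by
      have h2 : ∀ p, HolAt s p := by simpa using hs.2
      obtain ⟨a, ha⟩ := C.hol_const h2 (kl1_bdd hN hs.1 h2)
      exact Submodule.mem_span_singleton.2 ⟨a, funext fun p => by simp [ha]⟩
  have l2 := (Submodule.finrank_mono l).trans (finrank_span_le_card _)
  rw [toFinset_singleton, Finset.card_singleton] at l2
  exact ⟨he.1, by omega⟩

theorem kl1_hol (h : Fm C F) {i j : C.I} {p : M} (hi : p ∈ (C.ch i).source)
    (hj : p ∈ (C.ch j).source) : HolAt (F⁻¹ i / F⁻¹ j) p := by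
  have e : F⁻¹ i / F⁻¹ j = F j / F i := by
    rw [Pi.inv_apply, Pi.inv_apply, inv_div_inv]
  rw [e]
  exact h.hol j i p ⟨hj, hi⟩

theorem Dv.num {n : ℕ} {Φ : Fin n → C.I → M → ℂ} {c : (C.I → M → ℂ) → Fin n → ℤ}
    (hL : C.Lat C.κ N Φ c) (hN : 0 < N) (hP : PG C) (hD : Dv C N A F σ) (hc : Cst C N A) :
    ∑ j, (c F j * c F j + c F j) ≤ 2 := by
  obtain ⟨h1, h2⟩ := kl1_one hL hN hP
  have h3 := hD.inj hc
  have hF : C.SFr F := ⟨fun i p hp => hD.fm.ne i p hp.1,
    fun i j p hp => (hD.fm.hol i j p ⟨hp.1.1, hp.2.1⟩).smAt⟩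
  have hF' : C.SFr F⁻¹ := by simpa using hF.zpow (-1)
  have hp : C.Pd N F⁻¹ := Cov.LD_pd (f := fun a _ => a⁻¹) hD.per hD.per
  have hcl : c F⁻¹ = -c F := by simpa using hL.zpow hF hD.per (-1)
  have he := hL.rr (C.bun F⁻¹) F⁻¹ (fun p => ?_) ?_ hF' hp fun p =>
    (kl1_hol hD.fm (C.mem_U_idx p).1 (C.mem_U_idx p).1).smAt
  · have h4 := he.2
    simp only [hcl, Pi.neg_apply, neg_mul_neg, Finset.sum_neg_distrib] at h4
    rw [Finset.sum_add_distrib]
    omega
  · filter_upwards [(C.ch (C.idx p)).open_source.mem_nhds (C.mem_U_idx p).1] with q hq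
    exact ⟨inv_ne_zero (hD.fm.ne _ q hq), kl1_hol hD.fm hq (C.mem_U_idx q).1⟩
  · funext p q
    have h5 := congrFun (congrFun hp (C.idx p)) q
    have h6 := C.idx_gz N p
    simp only [Cov.shf, zpow_natCast] at h5 h6
    simp only [pull, Cov.bun, h6, h5]

end Vale.Agent.P267K
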