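import Vale.Agent.P267K.Defs
import Vale.Agent.P267S.S2
import Vale.Agent.P267K.K4a

/-! P267, the case of a twisted canonical section: the vanishing theorem for one weight. -/

open scoped Manifold ContDiff Topology
open Filter Metric Set Asymptotics

noncomputable section

namespace Vale.Agent.P267K

open Vale.Agent.P267

set_option linter.unusedSectionVars false

variable {M : Type} [TopologicalSpace M] [ChartedSpace C2 M] [IsManifold 𝓘(ℂ, C2) ω M]
  [T2Space M] [ConnectedSpace M] {C : Cov M} {ν : M → ℝ} {A : Set M} {x y : M} {N : ℕ}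
  {F Ψ : C.I → M → ℂ} {σ s : M → ℂ}

theorem s2d {r r' B δ : ℝ} (hF : C.Fr F r B) (hP : C.Pd 1 F)
    (hN : ∀ s, C.SecF (C.kf / F) s → C.Gr s δ → s = 0) (hδ : 0 < δ) (h1 : 1 < r') (h2 : r' < r)
    (h3 : r ≤ 3) : ∃ K : ℝ, 0 ≤ K ∧ C.S2 F r r' δ K := by
  refine C.k4_s2 hF (fun _ k G _ hG s hs hg => hN s (fun i p hp => (hs i p hp).congr ?_) hg)
    hδ h1 h2 h3
  have e : ∀ i, ∀ p ∈ C.U i 1, G i p = F i p := fun i p hp =>
    tendsto_nhds_unique (hG i p (C.U_mono i (by linarith) hp))
      (tendsto_const_nhds.congr fun l => by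
        have h := congrFun (congrFun (hP.mul_int (k l)) i) p
        rw [Nat.cast_one, mul_one] at h
        exact h.symm)
  filter_upwards [(C.isOpen_U i 1).mem_nhds hp] with q hq
  simp only [Pi.mul_apply, Pi.div_apply, e i q hq]

end Vale.Agent.P267K
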