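import Vale.Agent.P267K.Defs

/-! P267, the case of a twisted canonical section: eigenvalues of a compact operator. -/

open scoped Manifold ContDiff Topology
open Filter Metric Set Asymptotics

noncomputable section

namespace Vale.Agent.P267K

open Vale.Agent.P267

set_option linter.unusedSectionVars false


theorem kn1_riesz {V : Type} [NormedAddCommGroup V] [NormedSpace ℂ V] {F G : Submodule ℂ V}
    [FiniteDimensional ℂ F] (h : F ≤ G) {v : V} (hv : v ∈ G) (hv' : v ∉ F) :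
    ∃ y ∈ G, ‖y‖ ≤ 2 ∧ ∀ z ∈ F, 1 / 2 ≤ ‖y - z‖ := by
  obtain ⟨y, -, h1, h2⟩ := riesz_lemma_of_lt_one (𝕜 := ℂ) (F := F.comap G.subtype)
    (F.closed_of_finiteDimensional.preimage continuous_subtype_val) ⟨⟨v, hv⟩, hv'⟩
    (r := 1 / 2) (by norm_num)
  exact ⟨y, y.2, h1.le.trans one_le_two, fun z hz => h2 ⟨z, h hz⟩ hz⟩

theorem kn1_norm {V : Type} [NormedAddCommGroup V] [NormedSpace ℂ V] (T : V →ₗ[ℂ] V)
    (hT : ∀ x : ℕ → V, (∀ n, ‖x n‖ ≤ 2) → ∀ ε : ℝ, 0 < ε →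
      ∃ m n, m < n ∧ ‖T (x m) - T (x n)‖ < ε) {ε : ℝ} (hε : 0 < ε) :
    {μ : ℂ | ε ≤ ‖μ‖ ∧ ∃ x, x ≠ 0 ∧ T x = μ • x}.Finite := by
  by_contra hinf
  have e := Set.Infinite.natEmbedding _ hinf
  choose v v0 hv using fun n => (e n).2.2
  have li : LinearIndependent ℂ v := Module.End.eigenvectors_linearIndependent' T
    (fun n => (e n : ℂ)) (Subtype.val_injective.comp e.injective) v
    fun n => ⟨Module.End.mem_eigenspace_iff.2 (hv n), v0 n⟩
  obtain ⟨X, hX⟩ : ∃ X : ℕ → Submodule ℂ V, X = fun n => Submodule.span ℂ (v '' Iio n) := ⟨_, rfl⟩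
  have mono : Monotone X := fun m n h => by
    rw [hX]
    exact Submodule.span_mono (image_mono (Iio_subset_Iio h))
  have mem : ∀ {k n}, k < n → v k ∈ X n := fun h => by
    rw [hX]
    exact Submodule.subset_span ⟨_, h, rfl⟩
  have le : ∀ {n} {Y : Submodule ℂ V}, (∀ k < n, v k ∈ Y) → X n ≤ Y := fun h => by
    rw [hX]
    refine Submodule.span_le.2 ?_
    rintro _ ⟨k, hk, rfl⟩
    exact h k hk
  have ex : ∀ n, ∃ y ∈ X (n + 1), ‖y‖ ≤ 2 ∧ ∀ z ∈ X n, 1 / 2 ≤ ‖y - z‖ := fun n => by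
    have : FiniteDimensional ℂ (X n) := by
      rw [hX]
      exact FiniteDimensional.span_of_finite ℂ ((finite_Iio n).image v)
    refine kn1_riesz (mono n.le_succ) (mem n.lt_succ_self) ?_
    rw [hX]
    exact li.notMem_span_image (lt_irrefl n)
  choose y y1 y2 y3 using ex
  obtain ⟨m, n, hmn, h⟩ := hT y y2 (ε / 2) (by positivity)
  have a1 : X (m + 1) ≤ (X n).comap T := le fun k hk => by
    rw [Submodule.mem_comap, hv]
    exact (X n).smul_mem _ (mem (by omega))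
  have a2 : X (n + 1) ≤ (X n).comap (T - (e n : ℂ) • LinearMap.id) := le fun k hk => by
    rw [Submodule.mem_comap, LinearMap.sub_apply, hv, LinearMap.smul_apply, LinearMap.id_apply,
      ← sub_smul]
    rcases (Nat.lt_succ_iff.1 hk).eq_or_lt with rfl | hk
    · rw [sub_self, zero_smul]
      exact zero_mem _
    · exact (X n).smul_mem _ (mem hk)
  have b0 := (e n).2.1
  have b1 : (e n : ℂ) ≠ 0 := norm_pos_iff.1 (hε.trans_le b0)
  have b2 := y3 n _ ((X n).smul_mem (e n : ℂ)⁻¹ (sub_mem (a1 (y1 m)) (a2 (y1 n))))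
  have b3 : T (y n) - T (y m) = (e n : ℂ) • (y n - (e n : ℂ)⁻¹ •
      (T (y m) - (T - (e n : ℂ) • LinearMap.id : V →ₗ[ℂ] V) (y n))) := by
    rw [smul_sub, smul_inv_smul₀ b1, LinearMap.sub_apply, LinearMap.smul_apply, LinearMap.id_apply]
    abel
  rw [norm_sub_rev, b3, norm_smul] at h
  nlinarith [mul_le_mul b0 b2 (by norm_num) (norm_nonneg _)]

theorem eig_fin {V : Type} [AddCommGroup V] [Module ℂ V] (p : Seminorm ℂ V)
    (hp : ∀ x, p x = 0 → x = 0) (T : V →ₗ[ℂ] V)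
    (hT : ∀ x : ℕ → V, (∀ n, p (x n) ≤ 2) → ∀ ε : ℝ, 0 < ε →
      ∃ m n, m < n ∧ p (T (x m) - T (x n)) < ε) {ε : ℝ} (hε : 0 < ε) :
    {μ : ℂ | ε ≤ ‖μ‖ ∧ ∃ x, x ≠ 0 ∧ T x = μ • x}.Finite := by

  let _ : NormedAddCommGroup V := AddGroupNorm.toNormedAddCommGroup
    { p.toAddGroupSeminorm with eq_zero_of_map_eq_zero' := hp }
  let _ : NormedSpace ℂ V := ⟨fun c x => (map_smul_eq_mul p c x).le⟩
  exact kn1_norm T hT hε

end Vale.Agent.P267K
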