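import Vale.Agent.P267K.KN1
import Vale.Agent.P267S.SA9
import Vale.Agent.P267K.NoEig

/-! P267, the case of a twisted canonical section: generic flat bundles. -/

open scoped Manifold ContDiff Topology BoundedContinuousFunction
open Filter Metric Set Asymptotics

noncomputable section

namespace Vale.Agent.P267K

open Vale.Agent.P267

set_option linter.unusedSectionVars false

variable {M : Type} [TopologicalSpace M] [ChartedSpace C2 M] [IsManifold 𝓘(ℂ, C2) ω M]
  [T2Space M] [ConnectedSpace M] {C : Cov M} {ν : M → ℝ} {A : Set M} {x y : M} {N : ℕ}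
  {F Ψ : C.I → M → ℂ} {σ s : M → ℂ}

/-- Infinitely many multipliers in an annulus cannot all have eigenfunctions. -/
theorem kn2_seq (C : Cov M) {N : ℕ} (hN : 2 * C.R ≤ N) (hN0 : 0 < N) {ρ : ℝ} {c : ℕ → ℂ}
    (hc : Function.Injective c) (hc' : ∀ m, 1 ≤ ‖c m‖ ∧ ‖c m‖ ≤ ρ) {f : ℕ → M → ℂ}
    (k1 : ∀ m p, HolAt (f m) p) (k2 : ∀ m p, f m ((C.g ^ (N : ℤ)) p) = c m * f m p)
    (k3 : ∀ m, f m ≠ 0) : False := by
  have hρ0 : 0 < ρ := one_pos.trans_le ((hc' 0).1.trans (hc' 0).2)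
  have hN' : (1 : ℝ) ≤ N := by exact_mod_cast hN0
  have c0 : ∀ m, c m ≠ 0 := fun m => norm_pos_iff.1 (one_pos.trans_le (hc' m).1)
  have k4 : ∀ m p, f m ((C.g ^ (-N : ℤ)) p) = (c m)⁻¹ * f m p := fun m p => by
    have := k2 m ((C.g ^ (-N : ℤ)) p)
    rw [C.cb_zpow_neg'] at this
    rw [this, inv_mul_cancel_left₀ (c0 m)]
  have k5 : ∀ m (j : ℕ) p, f m ((C.g ^ (-(j * N) : ℤ)) p) = (c m)⁻¹ ^ j * f m p := fun m j p => by
    induction j with
    | zero => simp
    | succ j ih =>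
      rw [show (-((j + 1 : ℕ) * N) : ℤ) = -N + -(j * N) by push_cast; ring, C.cb_zpow_add, k4, ih]
      ring
  have hcont : ∀ m, Continuous (f m) := fun m =>
    continuous_iff_continuousAt.2 fun p => cb_cont (k1 m p)
  have k6 : ∀ m, ∃ B, ∀ p, C.t p ≤ 0 → ‖f m p‖ ≤ B := fun m => by
    obtain ⟨B, hB⟩ := (C.isCompact_t 0 N).exists_bound_of_continuousOn (hcont m).continuousOn
    refine ⟨B, fun p hp => ?_⟩
    have hN1 : (0 : ℝ) < N := by linarith
    set j := ⌈-C.t p / N⌉₊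
    have e1 := (div_le_iff₀ hN1).1 (Nat.le_ceil (-C.t p / N))
    have e2 := (lt_div_iff₀ hN1).1 (sub_lt_iff_lt_add.2
      (Nat.ceil_lt_add_one (div_nonneg (neg_nonneg.2 hp) hN1.le)))
    have e3 := k5 m j ((C.g ^ (j * N : ℤ)) p)
    rw [C.cb_zpow_neg] at e3
    rw [e3, norm_mul, norm_pow, norm_inv]
    refine (mul_le_of_le_one_left (norm_nonneg _) (pow_le_one₀ (by positivity)
      (inv_le_one_of_one_le₀ (hc' m).1))).trans (hB _ ?_)
    rw [mem_preimage, C.cb_t]
    push_cast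
    constructor <;> linarith
  choose B hB using k6
  let W := {p : M // C.t p ≤ 0}
  have hG : ∀ p : W, C.t ((C.g ^ (-N : ℤ)) p) ≤ 0 := fun p => by
    rw [C.cb_t]; push_cast; linarith [p.2]
  let G : C(W, W) := ⟨fun p => ⟨(C.g ^ (-N : ℤ)) p, hG p⟩,
    ((C.g ^ (-N : ℤ)).continuous.comp continuous_subtype_val).subtype_mk hG⟩
  let v : ℕ → W →ᵇ ℂ := fun m => BoundedContinuousFunction.ofNormedAddCommGroup (fun p => f m p)
    ((hcont m).comp continuous_subtype_val) (B m) fun p => hB m p p.2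
  obtain ⟨x, h2, h3⟩ := ne_riesz (BoundedContinuousFunction.compContinuousCLM ℂ ℂ G).toLinearMap v
    (fun m => (c m)⁻¹) (fun a b h => hc (inv_injective h)) (fun m h => by
      obtain ⟨p, hp⟩ := Function.ne_iff.1 (k3 m)
      obtain ⟨j, hj⟩ := exists_nat_ge |C.t p|
      have e := DFunLike.congr_fun h ⟨(C.g ^ (-(j * N) : ℤ)) p, by
        rw [C.cb_t]
        push_cast
        nlinarith [le_abs_self (C.t p), abs_nonneg (C.t p)]⟩
      exact mul_ne_zero (pow_ne_zero j (inv_ne_zero (c0 m))) hp ((k5 m j p).symm.trans e))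
    fun m => BoundedContinuousFunction.ext fun p => k4 m p
  have h4 : ∀ y ∈ Submodule.span ℂ (range v), ∃ Y : M → ℂ, (∀ p, HolAt Y p) ∧ ∀ p : W, y p = Y p :=
    fun y hy => by
      induction hy using Submodule.span_induction with
      | mem y hy =>
        obtain ⟨m, rfl⟩ := hy
        exact ⟨f m, k1 m, fun _ => rfl⟩
      | zero => exact ⟨0, fun p => cb_const 0 p, fun _ => rfl⟩
      | add y z _ _ hy hz =>
        obtain ⟨Y, a1, a2⟩ := hy
        obtain ⟨Z, b1, b2⟩ := hz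
        exact ⟨Y + Z, fun p => cb_add (a1 p) (b1 p), fun p => by simp [a2, b2]⟩
      | smul a y _ hy =>
        obtain ⟨Y, a1, a2⟩ := hy
        exact ⟨a • Y, fun p => cb_smul a (a1 p), fun p => by simp [a2]⟩
  choose X h5 h6 using fun m => h4 _ (h2 m).1
  obtain ⟨l, m, hlm, h7⟩ := C.ne_cpt h5 (fun m p hp => by
    rw [← h6 m ⟨p, hp⟩, ← (h2 m).2]
    exact (x m).norm_coe_le_norm _) (ε := ρ⁻¹ / 4) (T := -N) (by positivity) (by linarith)
    (by linarith)
  have h8 := (h3 l m hlm).resolve_right (inv_ne_zero (c0 m))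
  rw [norm_inv] at h8
  have h10 : ρ⁻¹ ≤ ‖c m‖⁻¹ := inv_anti₀ (one_pos.trans_le (hc' m).1) (hc' m).2
  have h9 := h8.trans ((BoundedContinuousFunction.norm_le (C := ρ⁻¹ / 4) (by positivity)).2
    fun p => by
      have := h7 (G p) (by
        change C.t ((C.g ^ (-N : ℤ)) p) ≤ _
        rw [C.cb_t]; push_cast; linarith [p.2])
      rwa [← h6, ← h6] at this)
  linarith [inv_pos.2 hρ0]

theorem eig_gen (C : Cov M) (l₀ : ℝ) : ∃ l : ℝ, l₀ ≤ l ∧ ∀ f : M → ℂ, (∀ p, HolAt f p) →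
    (∀ p, f (C.g p) = Complex.exp l * f p) → f = 0 := by
  by_contra hn
  obtain ⟨N, hN⟩ := exists_nat_ge (2 * C.R)
  have hN1 : 2 * C.R ≤ (N + 1 : ℕ) := by
    push_cast
    linarith
  have hp : ∀ m : ℕ, (0 : ℝ) < 1 / (m + 1) := fun m => by positivity
  let l : ℕ → ℝ := fun m => |l₀| + 1 / (m + 1)
  have h1 : ∀ m, ∃ f : M → ℂ, (∀ p, HolAt f p) ∧ (∀ p, f (C.g p) = Complex.exp (l m) * f p) ∧
      f ≠ 0 := fun m => by
    by_contra h
    exact hn ⟨l m, by linarith [le_abs_self l₀, hp m], fun f k1 k2 =>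
      not_not.1 fun k3 => h ⟨f, k1, k2, k3⟩⟩
  choose f k1 k2 k3 using h1
  have k4 : ∀ m (n : ℕ) p, f m ((C.g ^ n) p) = (Real.exp (n * l m) : ℂ) * f m p := fun m n p => by
    induction n with
    | zero => simp
    | succ n ih =>
      rw [pow_succ']
      refine (k2 m ((C.g ^ n) p)).trans ?_
      rw [ih, ← mul_assoc]
      push_cast
      rw [← Complex.exp_add]
      congr 2
      ring
  have hN2 : (0 : ℝ) < (N + 1 : ℕ) := by positivity
  refine kn2_seq C hN1 (Nat.succ_pos N) (ρ := Real.exp ((N + 1 : ℕ) * (|l₀| + 1)))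
    (c := fun m => (Real.exp ((N + 1 : ℕ) * l m) : ℂ)) (fun a b h => ?_) (fun m => ?_) k1
    (fun m p => by rw [zpow_natCast]; exact k4 m _ p) k3
  · have e := mul_left_cancel₀ hN2.ne' (Real.exp_injective (Complex.ofReal_injective h))
    have e2 : (1 : ℝ) / (a + 1) = 1 / (b + 1) := add_left_cancel e
    rw [one_div, one_div, inv_inj] at e2
    exact_mod_cast add_right_cancel e2
  · rw [Complex.norm_real, Real.norm_of_nonneg (Real.exp_pos _).le]
    have e : (1 : ℝ) / (m + 1) ≤ 1 := by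
      rw [div_le_one (by positivity)]
      linarith [Nat.cast_nonneg (α := ℝ) m]
    exact ⟨Real.one_le_exp (mul_nonneg hN2.le (add_nonneg (abs_nonneg _) (hp m).le)),
      Real.exp_le_exp.2 (mul_le_mul_of_nonneg_left (add_le_add le_rfl e) hN2.le)⟩

end Vale.Agent.P267K
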