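import Vale.Agent.P267K.KT2
import Vale.Agent.P267S.SCLA

/-! P267, the case of a twisted canonical section: vanishing of the first cohomology. -/

open scoped Manifold ContDiff Topology
open Filter Metric Set Asymptotics

noncomputable section

namespace Vale.Agent.P267K

open Vale.Agent.P267

set_option linter.unusedSectionVars false

variable {M : Type} [TopologicalSpace M] [ChartedSpace C2 M] [IsManifold 𝓘(ℂ, C2) ω M]
  [T2Space M] [ConnectedSpace M] {C : Cov M} {ν : M → ℝ} {A : Set M} {x y : M} {N : ℕ}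
  {F Ψ : C.I → M → ℂ} {σ s : M → ℂ}

theorem ko_pull {P : C.I → M → ℂ} (hP : C.Pd 1 P) :
    pull (C.g ^ (1 : ℕ) : M ≃ₜ M) (C.bun P) = C.bun P := by
  funext p q
  have h := congrFun (congrFun hP (C.idx p)) q
  simp only [Cov.shf, Nat.cast_one, zpow_one] at h
  simp only [pull, Cov.bun, pow_one, C.idx_g]
  exact h

theorem ko_bun (C : Cov M) (l : ℂ) : IsBundle HolAt (C.bun (th C l)) := fun p => by
  filter_upwards [(C.ch (C.idx p)).open_source.mem_nhds (C.mem_U_idx p).1] with q h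
  exact ⟨(th_fm C l).ne _ q h, (th_fm C l).hol _ _ q ⟨h, (C.mem_U_idx q).1⟩⟩

theorem ko_sfr (C : Cov M) (l : ℂ) : C.SFr (th C l) :=
  ⟨fun i p hp => (th_fm C l).ne i p hp.1,
    fun i j p hp => ((th_fm C l).hol i j p ⟨hp.1.1, hp.2.1⟩).smAt⟩

theorem ko_gr {f : M → ℂ} (h : Bdd f) : C.Gr f 1 := by
  obtain ⟨B, hB⟩ := h
  exact ⟨B, fun p => (hB p).trans (le_mul_of_one_le_right ((norm_nonneg _).trans (hB p))
    (Real.one_le_exp (by positivity)))⟩

theorem h1z {n : ℕ} {Φ : Fin n → C.I → M → ℂ} {c : (C.I → M → ℂ) → Fin n → ℤ}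
    (hL : C.Lat C.κ 1 Φ c) {l : ℂ}
    (h0 : ∀ f : M → ℂ, (∀ p, HolAt f p) → (∀ p, f (C.g p) = Complex.exp l * f p) → f = 0)
    (h2 : ∀ s, C.SecF (C.kf / th C l) s → C.Gr s 1 → s = 0) : H1z C l := by
  intro P hP hh
  have he := hL.rr (C.bun (th C l)) (th C l) (ko_bun C l) (ko_pull (th_pd C l 1)) (ko_sfr C l)
    (th_pd C l 1) fun p =>
      ((th_fm C l).hol _ _ p ⟨(C.mem_U_idx p).1, (C.mem_U_idx p).1⟩).smAt
  rw [th_cls hL] at he
  simp only [Pi.zero_apply, mul_zero, Finset.sum_const_zero, neg_zero, add_zero,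
    Int.zero_ediv] at he
  obtain ⟨B₁, k1⟩ := C.kf_fr
  obtain ⟨B₂, k2⟩ := th_fr C l
  have k3 := k1.div k2
  have hi : ∀ p, p ∈ C.U (C.idx p) (3 / 2) := fun p => C.U_mono _ (by norm_num) (C.mem_U_idx p)
  have hZ : C.bun P ∈ Z1 (C.g ^ (1 : ℕ) : M ≃ₜ M) (C.bun (th C l)) := by
    refine Submodule.subset_span ⟨ko_pull hP, fun p => ?_⟩
    filter_upwards [(C.isOpen_U _ _).mem_nhds (hi p)] with q hq
    refine (hh _ _ q ⟨hi q, hq⟩).neg.congr (Eventually.of_forall fun z => ?_)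
    simp only [Cov.bun, Pi.neg_apply, Pi.mul_apply, Pi.sub_apply]
    ring
  obtain ⟨β, w, hw, hol, hne⟩ := la_pos he (fun s hs hs' => by
    have k4 : C.SecF (C.kf / th C l) s := fun i p hp =>
      (k3.hol_iff ⟨C.U_mono _ one_le_two hp, C.U_mono _ one_le_two (C.mem_U_idx p)⟩ s).2 (hs' p)
    exact h2 s k4 (ko_gr (inv_bdd k3 one_lt_two k4 fun p => by
      simpa using congrFun hs p))) hZ
  have hwg : ∀ p, w (C.g p) = w p := fun p => by simpa using congrFun hw p
  have hβ : β ≠ 0 := by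
    rintro rfl
    have hw0 : w ≠ 0 := hne.resolve_left (not_not.2 rfl)
    have := h0 (fun q => Complex.exp (l * C.t q) * w q) (fun p => ?_) fun p => ?_
    · refine hw0 (funext fun q => ?_)
      exact (mul_eq_zero.1 (congrFun this q)).resolve_left (Complex.exp_ne_zero _)
    · refine ((hol p).smul (-Complex.exp (-(l * (C.idx p).2)))).congr
        (Eventually.of_forall fun z => ?_)
      have e : Complex.exp (-(l * (C.idx p).2)) * Complex.exp (l * (C.t z + (C.idx p).2)) =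
          Complex.exp (l * C.t z) := by
        rw [← Complex.exp_add]
        congr 1
        ring
      simp only [Cov.bun, th, Pi.smul_apply, Pi.mul_apply, Pi.sub_apply, smul_eq_mul]
      rw [← e]
      ring
    · rw [hwg, C.shift, ← mul_assoc, ← Complex.exp_add]
      congr 2
      push_cast
      ring
  refine ⟨β⁻¹ • w, fun i p hp => ?_⟩
  refine ((hh i _ p ⟨hp, hi p⟩).add (((th_fm C l).hol i _ p ⟨hp.1, (hi p).1⟩).mul
    ((hol p).smul β⁻¹))).congr (Eventually.of_forall fun z => ?_)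
  have e : th C l (C.idx p) z ≠ 0 := Complex.exp_ne_zero _
  simp only [Cov.bun, Pi.smul_apply, Pi.mul_apply, Pi.sub_apply, Pi.add_apply, Pi.div_apply,
    smul_eq_mul]
  field_simp
  ring

end Vale.Agent.P267K
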