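import Vale.Agent.P267K.KT0
import Vale.Agent.P267S.SV3
import Vale.Agent.P267S.Frm

/-! P267, the case of a twisted canonical section: the local data of the twisted solution. -/

open scoped Manifold ContDiff Topology
open Filter Metric Set Asymptotics

noncomputable section

namespace Vale.Agent.P267K

open Vale.Agent.P267

set_option linter.unusedSectionVars false

variable {M : Type} [TopologicalSpace M] [ChartedSpace C2 M] [IsManifold 𝓘(ℂ, C2) ω M]
  [T2Space M] [ConnectedSpace M] {C : Cov M} {ν : M → ℝ} {A : Set M} {x y : M} {N : ℕ}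
  {F Ψ : C.I → M → ℂ} {σ s : M → ℂ}

theorem kp_far (C : Cov M) {L : Set M} (hL : IsCompact L) :
    ∃ T : ℤ, ∀ i : C.I, T ≤ |i.2| → ∀ p ∈ (C.ch i).source, p ∉ L := by
  obtain ⟨T, hT⟩ := hL.exists_bound_of_continuousOn C.continuous_t.continuousOn
  refine ⟨⌈T + C.R⌉ + 1, fun i h p hp hp' => ?_⟩
  have k1 := hT p hp'
  have k2 := C.t_ch hp
  have k3 : ((⌈T + C.R⌉ + 1 : ℤ) : ℝ) ≤ |(i.2 : ℝ)| := by exact_mod_cast h
  have k4 := Int.le_ceil (T + C.R)
  have k5 := abs_sub (C.t p + i.2) (C.t p)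
  rw [add_sub_cancel_left] at k5
  rw [Real.norm_eq_abs] at k1
  push_cast at k3
  linarith

theorem kp_df {r B : ℝ} (hF : C.Fr Ψ r B) (l : ℂ) (α : M → C2 →L[ℝ] ℂ)
    (β : C.I → M → C2 →L[ℝ] ℂ) {i j : C.I} (hp : x ∈ C.U i r ∩ C.U j r) :
    (α - fun q => (Ψ j * s) q • β j q) - (α - fun q => (Ψ i * s) q • β i q) =ᶠ[𝓝 x]
      fun q => (Complex.exp (-(l * i.2)) • (Ψ i * s)) q •
        C.df (th C l / Ψ) (fun i q => Complex.exp (l * i.2) • β i q) i j q := by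
  filter_upwards [Cov.sv_ne hF hp.1, Cov.sv_ne hF hp.2] with q k1 k2
  refine ContinuousLinearMap.ext fun v => ?_
  change α q v - Ψ j q * s q * β j q v - (α q v - Ψ i q * s q * β i q v) =
    Complex.exp (-(l * i.2)) * (Ψ i q * s q) * (Complex.exp (l * i.2) * β i q v -
      Complex.exp (l * (C.t q + i.2)) / Ψ i q / (Complex.exp (l * (C.t q + j.2)) / Ψ j q) *
        (Complex.exp (l * j.2) * β j q v))
  simp only [mul_add, Complex.exp_add, Complex.exp_neg]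
  field_simp
  ring

theorem Inv.tw {B K : ℝ} {l : ℂ} (hI : Inv C Ψ s B) (hK : 0 ≤ K)
    (h2 : C.S2 (th C l / Ψ) (7 / 4) (3 / 2) 1 K) {α : M → C2 →L[ℝ] ℂ} {Q L : Set M}
    (hα : Src C s α Q L) : ∃ b f T D, Tw C l Ψ s α b f T D := by
  obtain ⟨K₁, hK₁, hd⟩ := C.dolM (r := 7 / 4) (r' := 3 / 2) (by norm_num) (by norm_num)
    (by norm_num)
  obtain ⟨B₁, hB₁⟩ := hI.bd
  obtain ⟨A, hA⟩ := Cov.smF_bdd hα.cL fun p _ => hα.sm p
  obtain ⟨T₁, hT₁⟩ := kp_far C hα.cL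
  have hF := hI.fr
  have m1 : ∀ i, C.U i (7 / 4) ⊆ C.U i 2 := fun i => C.U_mono i (by norm_num)
  have m2 : ∀ i, C.U i (3 / 2) ⊆ C.U i (7 / 4) := fun i => C.U_mono i (by norm_num)
  obtain ⟨β, D₀, T, hD₀, hT, hβ⟩ := Cov.sv_forms hα.cK hI.hol
    (fun i p hp hp' => mul_ne_zero (hF.ne i p hp) (hα.ne p hp')) hα.sm hα.cl 0
  obtain ⟨D, hD, hγ⟩ := C.bd_wt (x := fun i p => ‖Complex.exp (l * i.2) • β i p‖) (r := 7 / 4)
    (T := T) (fun i => ⟨‖Complex.exp (l * i.2)‖ * (D₀ * C.wt 0 0 i), fun p hp => by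
      rw [norm_smul]
      exact mul_le_mul_of_nonneg_left (hβ i p hp).2.1 (norm_nonneg _)⟩)
    (fun i hi p _ => by rw [hT i hi, Pi.zero_apply, sv_z, norm_zero]) (2 * 1)
  obtain ⟨f, f1, f2⟩ := h2 0 D (fun i q => Complex.exp (l * i.2) • β i q) ⟨hD,
    fun i p hp => (hβ i p hp).1.smul (smAt_const _), hγ, fun i j p hp => by
      have hp' : p ∈ C.U i 2 ∩ C.U j 2 := ⟨m1 i hp.1, m1 j hp.2⟩
      obtain ⟨k1, -, a, ha⟩ := hβ i p hp.1
      obtain ⟨k2, -, a', ha'⟩ := hβ j p hp.2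
      have k3 : SmAt (fun q => (th C l / Ψ) i q / (th C l / Ψ) j q) p :=
        (((th_sm C l i p).div (th_sm C l j p) (Complex.exp_ne_zero _)).mul
          (hF.hol j i p ⟨hp'.2, hp'.1⟩).smAt).congr (.of_forall fun q => by
            simp only [Pi.mul_apply, Pi.div_apply]
            rw [div_div_div_comm, div_eq_mul_inv _ (Ψ i q / Ψ j q), inv_div])
      exact Cov.sv_cancel ((hI.hol i p hp'.1).smul _) (fun h => hI.ne i p hp'.1
        (h.mono fun q hq => (mul_eq_zero.1 hq).resolve_left (Complex.exp_ne_zero _)))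
        ((k1.smul (smAt_const _)).sub ((k2.smul (smAt_const _)).smul k3))
        ((ha'.sub ha).congr (kp_df hF l α β hp') (EventuallyEq.refl _ _))⟩
  obtain ⟨f', A', e1, e2⟩ := Cov.sv_smooth (F := th C l / Ψ) (by norm_num) zero_le_one
    (mul_nonneg hK hD) f1 fun i j p hp => (f2 i j p hp).1
  have h3 : ∀ i, ∀ p ∈ C.U i (7 / 4), ‖(α - fun q => (Ψ i * s) q • β i q) p‖ ≤
      |A| + B * B₁ * D₀ := fun i p hp => by
    have k1 : ‖α p‖ ≤ |A| := by
      by_cases h : p ∈ L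
      · exact (hA p h).trans (le_abs_self A)
      · rw [(hα.off p h).self_of_nhds, Pi.zero_apply, norm_zero]
        exact abs_nonneg A
    have k2 := (hF.bd i p (m1 i hp)).1
    have k3 := (hβ i p hp).2.1.trans (mul_le_of_le_one_right hD₀ (C.wt_le_one le_rfl 0 i))
    have k4 : ‖(Ψ i * s) p • β i p‖ ≤ B * B₁ * D₀ := by
      rw [norm_smul, Pi.mul_apply, norm_mul]
      have k5 := (norm_nonneg _).trans k2
      exact mul_le_mul (mul_le_mul k2 (hB₁ p) (norm_nonneg _) k5) k3 (norm_nonneg _)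
        (mul_nonneg k5 ((norm_nonneg _).trans (hB₁ p)))
    exact (norm_sub_le _ _).trans (add_le_add k1 k4)
  have h4 : ∀ i : C.I, ∃ b : M → ℂ, (max T T₁ ≤ |i.2| → b = 0) ∧ ∀ p ∈ C.U i (3 / 2),
      C.Prim (α - fun q => (Ψ i * s) q • β i q) b p ∧ ‖b p‖ ≤ |K₁ * (|A| + B * B₁ * D₀)| := by
    intro i
    by_cases h : max T T₁ ≤ |i.2|
    · refine ⟨0, fun _ => rfl, fun p hp =>
        ⟨Cov.Prim.of_hol holAt_zero ?_, norm_zero.trans_le (abs_nonneg _)⟩⟩
      filter_upwards [hα.off p (hT₁ i (le_of_max_le_right h) p hp.1)] with q hq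
      rw [Pi.sub_apply, hq, hT i (le_of_max_le_left h), Pi.zero_apply, sv_z, sub_zero]
    · obtain ⟨b, hb⟩ := hd i _ _ fun p hp => ⟨h3 i p hp, (hβ i p hp).2.2⟩
      exact ⟨b, fun h' => absurd h' h, fun p hp => ⟨(hb p hp).1, (hb p hp).2.trans (le_abs_self _)⟩⟩
  choose b b0 hb using h4
  refine ⟨b, f', max T T₁, |A'| + |K₁ * (|A| + B * B₁ * D₀)|, fun i hi p _ => congrFun (b0 i hi) p,
    fun i p hp => ⟨(hb i p hp).2.trans (le_add_of_nonneg_left (abs_nonneg _)),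
      (e2 i p hp).2.trans (mul_le_mul_of_nonneg_right ((le_abs_self _).trans
        (le_add_of_nonneg_right (abs_nonneg _))) (C.wt_pos _ _ _).le)⟩,
    fun i p hp => (e2 i p hp).1, fun i p hp h0 a ha => ?_, fun i j p hp => ?_⟩
  · have hp' := m1 i (m2 i hp)
    have k1 : C.Prim (fun q => (Ψ i * s) q • β i q) (a - b i) p :=
      (ha.sub (hb i p hp).1).congr (.of_forall fun q => by simp) (EventuallyEq.refl _ _)
    obtain ⟨v, hv⟩ := Cov.sv_cancel (hI.hol i p hp') (hI.ne i p hp') (hβ i p (m2 i hp)).1 k1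
    have k2 := (k1.hol_sub (Cov.sv_mul (hI.hol i p hp') hv)).cd.add
      ((hI.hol i p hp').cd_mul (by rw [Pi.mul_apply, h0, mul_zero]) hv.1.continuousAt)
    rwa [sub_add_cancel] at k2
  · have hp' : p ∈ C.U i 2 ∩ C.U j 2 := ⟨m1 i (m2 i hp.1), m1 j (m2 j hp.2)⟩
    have k1 := (Cov.sv_mul ((hI.hol i p hp'.1).smul _) (f2 i j p hp)).hol_sub
      (((hb j p hp.2).1.sub (hb i p hp.1).1).congr (kp_df hF l α β hp') (EventuallyEq.refl _ _))
    refine k1.congr ((Cov.sv_ne hF hp'.1).mono fun q hq => ?_)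
    rw [e1 i j]
    simp only [Pi.sub_apply, Pi.mul_apply, Pi.add_apply, Pi.div_apply, Pi.smul_apply, th,
      smul_eq_mul, mul_add, Complex.exp_add, Complex.exp_neg]
    field_simp
    ring

end Vale.Agent.P267K
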