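import Vale.Agent.P267K.KT0
import Vale.Agent.P267S.SC2

/-! P267, the case of a twisted canonical section: the sum of the translates. -/

open scoped Manifold ContDiff Topology
open Filter Metric Set Asymptotics

noncomputable section

namespace Vale.Agent.P267K

open Vale.Agent.P267

set_option linter.unusedSectionVars false

variable {M : Type} [TopologicalSpace M] [ChartedSpace C2 M] [IsManifold 𝓘(ℂ, C2) ω M]
  [T2Space M] [ConnectedSpace M] {C : Cov M} {ν : M → ℝ} {A : Set M} {x y : M} {N : ℕ}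
  {F Ψ : C.I → M → ℂ} {σ s : M → ℂ}

theorem kq1_gz {V : Type} {G : C.I → M → V} (h : ∀ i p, G (i.1, i.2 - 1) (C.g p) = G i p) (k : ℤ)
    (i : C.I) (p : M) : G (i.1, i.2 - k) ((C.g ^ k) p) = G i p := by
  induction k using Int.induction_on with
  | zero => simp
  | succ k ih => rw [C.AB_succ, ← ih, ← h (i.1, i.2 - k), sub_add_eq_sub_sub]
  | pred k ih =>
    rw [← ih, ← h (i.1, i.2 - (-(k : ℤ) - 1)), ← C.AB_succ, sub_add_cancel]
    congr 2
    ring

theorem kq1_pd {V : Type} {G : C.I → M → V} (h : C.Pd 1 G) (k : ℤ) (i : C.I) (p : M) :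
    G (i.1, i.2 - k) ((C.g ^ k) p) = G i p :=
  kq1_gz (fun i p => by simpa [Cov.shf] using congrFun (congrFun h i) p) k i p

theorem kq1_sum (i : C.I) (D : ℝ) : Summable fun k : ℤ => D * C.wt 1 0 (i.1, i.2 - k) := by
  obtain ⟨S, -, h⟩ := Cov.wt_tsum one_pos
  refine ((h 1 one_pos i.2).1.congr fun k => ?_).mul_left D
  simp [Cov.wt]

theorem kq1_bd {l : ℂ} {α : M → C2 →L[ℝ] ℂ} {b f : C.I → M → ℂ} {T : ℤ} {D : ℝ}
    (h : Tw C l Ψ s α b f T D) : ∃ D', ∀ i, ∀ p ∈ C.U i (3 / 2),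
      ‖(Complex.exp (l * C.t p))⁻¹ * b i p‖ ≤ D' * C.wt 1 0 i := by
  refine ⟨Real.exp (‖l‖ * (C.R + |(T : ℝ)|)) * D * Real.exp |(T : ℝ)|, fun i p hp => ?_⟩
  have hD : 0 ≤ D := (norm_nonneg _).trans (h.bd i p hp).1
  have hw : 0 < C.wt 1 0 i := Real.exp_pos _
  rcases le_or_gt T |i.2| with h1 | h1
  · rw [h.zero i h1 p hp, mul_zero, norm_zero]
    positivity
  · have h2 : |(i.2 : ℝ)| ≤ |(T : ℝ)| := by exact_mod_cast h1.le.trans (le_abs_self T)
    have h3 : |C.t p| ≤ C.R + |(T : ℝ)| := by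
      have := abs_sub (C.t p + i.2) i.2
      rw [add_sub_cancel_right] at this
      linarith [C.t_ch hp.1]
    have h4 : ‖(Complex.exp (l * C.t p))⁻¹‖ ≤ Real.exp (‖l‖ * (C.R + |(T : ℝ)|)) := by
      rw [← Complex.exp_neg]
      refine (Complex.norm_exp_le_exp_norm _).trans (Real.exp_le_exp.2 ?_)
      rw [norm_neg, norm_mul, Complex.norm_real, Real.norm_eq_abs]
      gcongr
    have h5 : 1 ≤ Real.exp |(T : ℝ)| * C.wt 1 0 i := by
      rw [Cov.wt, ← Real.exp_add]
      refine Real.one_le_exp ?_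
      simp only [Int.cast_zero, sub_zero]
      linarith
    rw [norm_mul, mul_assoc _ (Real.exp _)]
    exact (mul_le_mul h4 (h.bd i p hp).1 (norm_nonneg _) (Real.exp_pos _).le).trans
      (le_mul_of_one_le_right (by positivity) h5)

theorem Inv.ts {B : ℝ} {l : ℂ} (hI : Inv C Ψ s B) (h1 : H1z C l)
    (hg : ∀ k : ℤ, ContMDiff 𝓘(ℂ, C2) 𝓘(ℂ, C2) ω (C.g ^ k : M ≃ₜ M))
    (h : ∀ α Q L, Src C s α Q L → ∃ b f T D, Tw C l Ψ s α b f T D) : TS C l s := by
  classical
  intro α K L hS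
  obtain ⟨b, f, T, D, hT⟩ := h α K L hS
  obtain ⟨D1, hD1⟩ := kq1_bd hT
  obtain ⟨S, hSb⟩ := hI.bd
  obtain ⟨B1, hB1⟩ := th_fr C l
  have hs : ∀ (k : ℤ) p, s ((C.g ^ k) p) = s p := fun k p =>
    kq1_gz (G := fun _ => s) (fun _ => hI.inv) k (C.idx p) p
  set E : M → ℂ := fun q => Complex.exp (l * C.t q) with hE
  have hE0 : ∀ q, E q ≠ 0 := fun q => Complex.exp_ne_zero _
  have hEk : ∀ (k : ℤ) q, E ((C.g ^ k) q) = Complex.exp (l * k) * E q := fun k q => by
    simp only [hE]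
    rw [← Complex.exp_add, C.t_gz]
    push_cast
    congr 1
    ring
  have hth : ∀ i q, th C l i q = Complex.exp (l * i.2) * E q := fun i q => by
    simp only [hE, th]
    rw [← Complex.exp_add]
    congr 1
    ring
  have h32 : ∀ i, C.U i (3 / 2) ⊆ C.U i 2 := fun i => C.U_mono i (by norm_num)
  have hsh : ∀ {i p} (k : ℤ), p ∈ C.U i (3 / 2) → (C.g ^ k) p ∈ C.U (i.1, i.2 - k) (3 / 2) :=
    fun k hp => (C.U_shift _ k _ _).2 hp
  let P : C.I → M → ℂ := fun i q => (E q)⁻¹ * b i q + s q * f i q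
  have hP : ∀ i, ∀ q ∈ C.U i (3 / 2), ‖P i q‖ ≤ (D1 + S * D) * C.wt 1 0 i := fun i q hq => by
    refine (norm_add_le _ _).trans ?_
    rw [add_mul, norm_mul (s q), mul_assoc]
    exact add_le_add (hD1 i q hq)
      (mul_le_mul (hSb q) (hT.bd i q hq).2 (norm_nonneg _) ((norm_nonneg _).trans (hSb q)))
  have hPs : ∀ {i p}, p ∈ C.U i (3 / 2) → Summable fun k : ℤ => P (i.1, i.2 - k) ((C.g ^ k) p) :=
    fun hp => (kq1_sum _ _).of_norm_bounded fun k => hP _ _ (hsh k hp)
  let PP : C.I → M → ℂ := fun i p => ∑' k : ℤ, P (i.1, i.2 - k) ((C.g ^ k) p)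
  have hPd : C.Pd 1 PP := by
    funext i p
    simp only [Cov.shf, PP]
    rw [← (Equiv.addRight (1 : ℤ)).tsum_eq fun k : ℤ => P (i.1, i.2 - k) ((C.g ^ k) p)]
    refine tsum_congr fun k => ?_
    simp only [Equiv.coe_addRight, Nat.cast_one, ← C.gz_add, sub_sub, add_comm k 1]
  obtain ⟨w, hw⟩ := h1 PP hPd fun i j => by
    have hu := tendstoUniformlyOn_tsum (s := C.U i (3 / 2) ∩ C.U j (3 / 2))
      (f := fun (k : ℤ) p => th C l i p * (P (i.1, i.2 - k) ((C.g ^ k) p) -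
        P (j.1, j.2 - k) ((C.g ^ k) p)))
      (((kq1_sum i (D1 + S * D)).add (kq1_sum j (D1 + S * D))).mul_left B1) fun k p hp => by
        rw [norm_mul]
        exact mul_le_mul (hB1.bd i p (h32 i hp.1)).1 ((norm_sub_le _ _).trans
          (add_le_add (hP _ _ (hsh k hp.1)) (hP _ _ (hsh k hp.2)))) (norm_nonneg _)
          ((norm_nonneg _).trans (hB1.bd i p (h32 i hp.1)).1)
    refine C.hol_unif ((C.isOpen_U _ _).inter (C.isOpen_U _ _)) (fun W p hp => ?_)
      (hu.congr_right fun p hp => ?_)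
    · have := HolAt.sum (W := W) fun k _ => HolAt.smul (Complex.exp (l * (i.2 - k)))
        ((C.hol_gz k).2 (hT.hol _ _ _ ⟨hsh k hp.1, hsh k hp.2⟩))
      refine this.congr (Eventually.of_forall fun q => ?_)
      rw [Finset.sum_apply]
      refine Finset.sum_congr rfl fun k _ => ?_
      have e : th C l i q = Complex.exp (l * (i.2 - k)) * E ((C.g ^ k) q) := by
        rw [hth, hEk, ← mul_assoc, ← Complex.exp_add (l * (i.2 - k))]
        congr 2
        ring
      have e0 := hE0 ((C.g ^ k) q)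
      simp only [e, P, Pi.smul_apply, Function.comp_apply, Pi.add_apply, Pi.sub_apply,
        Pi.mul_apply, smul_eq_mul]
      field_simp
      ring
    · simp only [Pi.mul_apply, Pi.sub_apply, PP]
      rw [tsum_mul_left, (hPs hp.1).tsum_sub (hPs hp.2)]
  refine ⟨E * w, fun x hx a W hW hW' => ?_⟩
  set i := C.idx x
  have hi : x ∈ C.U i (3 / 2) := C.U_mono i (by norm_num) (C.mem_U_idx x)
  let G : ℤ → M → ℂ := fun k p => ((th C l / Ψ) (i.1, i.2 - k) * f (i.1, i.2 - k)) ((C.g ^ k) p)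
  have hG : ∀ k p, G k p = th C l i p / Ψ i p * f (i.1, i.2 - k) ((C.g ^ k) p) := fun k p => by
    simp only [G, Pi.mul_apply, Pi.div_apply, kq1_pd hI.per, kq1_pd (th_pd C l 1)]
  have hGb : ∀ k, ∀ p ∈ C.U i (3 / 2), ‖G k p‖ ≤ B1 * B * D * C.wt 1 0 (i.1, i.2 - k) :=
    fun k p hp => by
      have a1 := (hB1.bd i p (h32 i hp)).1
      have a2 := (hI.fr.bd i p (h32 i hp)).2
      have a3 := (norm_nonneg _).trans a1
      rw [hG, div_eq_mul_inv, norm_mul, norm_mul, mul_assoc (B1 * B)]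
      exact mul_le_mul (mul_le_mul a1 a2 (norm_nonneg _) a3) (hT.bd _ _ (hsh k hp)).2
        (norm_nonneg _) (mul_nonneg a3 ((norm_nonneg _).trans a2))
  have hV : ContinuousAt (fun p => ∑' k, G k p) x :=
    (continuousOn_tsum (fun k p hp => ((C.sm_gz k).2
      (hT.sm _ _ (hsh k hp))).continuousAt.continuousWithinAt) (kq1_sum i _)
      fun k p hp => hGb k p hp).continuousAt ((C.isOpen_U _ _).mem_nhds hi)
  let W' : Finset ℤ := W ∪ Finset.Ioo (i.2 - T) (i.2 + T)
  let a' : ℤ → M → ℂ := fun k => if k ∈ W then a k else 0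
  have c1 := (HolAt.smul (Complex.exp (-(l * i.2))) (hw i x hi)).cd
  have c2 := (hI.hol i x (h32 i hi)).cd_mul (mul_eq_zero_of_right _ hx)
    (hV.const_mul (Complex.exp (-(l * i.2))))
  have c3 : P267C.CD C2 (∑ k ∈ W', Complex.exp (-(l * k)) •
      ((a' k - b (i.1, i.2 - k)) ∘ (C.g ^ k : M ≃ₜ M))) x := by
    refine Finset.sum_induction _ (fun F => P267C.CD C2 F x) (fun _ _ u v => u.add v)
      holAt_zero.cd fun k _ => MDifferentiableAt.const_smul ?_ _
    refine MDifferentiableAt.comp x (hT.cd _ _ (hsh k hi) ((hs k x).trans hx) _ ?_)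
      ((hg k x).mdifferentiableAt (by simp))
    simp only [a']
    split_ifs with hk
    · exact hW' k hk
    · exact Cov.Prim.of_hol holAt_zero (hS.off _ (hW k hk))
  refine ((c2.sub c1).sub c3).congr_of_eventuallyEq ?_
  filter_upwards [(C.isOpen_U _ _).mem_nhds hi] with p hp
  have e1 : ∑ k ∈ W, Complex.exp (-(l * k)) * a k ((C.g ^ k) p) =
      ∑ k ∈ W', Complex.exp (-(l * k)) * a' k ((C.g ^ k) p) := by
    refine (Finset.sum_congr rfl fun k hk => by simp only [a', if_pos hk]).trans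
      (Finset.sum_subset Finset.subset_union_left fun k _ hk => by simp [a', hk])
  have hb0 : ∀ k ∉ W', Complex.exp (-(l * k)) * b (i.1, i.2 - k) ((C.g ^ k) p) = 0 := fun k hk => by
    have : ¬(i.2 - T < k ∧ k < i.2 + T) := fun hh =>
      hk (Finset.mem_union_right _ (Finset.mem_Ioo.2 hh))
    rw [hT.zero _ (by simp only [le_abs]; omega) _ (hsh k hp), mul_zero]
  have hΨ := hI.fr.ne i p (h32 i hp)
  have e2 : E p * PP i p = ∑ k ∈ W', Complex.exp (-(l * k)) * b (i.1, i.2 - k) ((C.g ^ k) p) +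
      Ψ i p * s p * (Complex.exp (-(l * i.2)) * ∑' k, G k p) := by
    have sG : Summable fun k => G k p := (kq1_sum i _).of_norm_bounded fun k => hGb k p hp
    rw [← tsum_eq_sum (L := .unconditional ℤ) hb0, ← mul_assoc, ← tsum_mul_left, ← tsum_mul_left,
      ← (summable_of_ne_finset_zero hb0).tsum_add (sG.mul_left _)]
    refine tsum_congr fun k => ?_
    have e0 := hE0 p
    simp only [P, hG, hth, hEk, hs, Complex.exp_neg]
    field_simp
  have e3 : Complex.exp (-(l * i.2)) * th C l i p = E p := by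
    rw [hth, ← mul_assoc, ← Complex.exp_add, neg_add_cancel, Complex.exp_zero, one_mul]
  simp only [Pi.sub_apply, Pi.mul_apply, Pi.smul_apply, Finset.sum_apply, smul_eq_mul,
    Function.comp_apply, mul_sub, Finset.sum_sub_distrib, e1]
  rw [← mul_assoc (Complex.exp _) (th C l i p), ← mul_assoc (Complex.exp _) (th C l i p), e3, e2]
  ring

end Vale.Agent.P267K
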