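import Vale.Agent.P267K.Defs
import Vale.Agent.P267.BE2

/-! P267, the case of a twisted canonical section: simple poles. -/

open scoped Manifold ContDiff Topology
open Filter Metric Set Asymptotics

noncomputable section

namespace Vale.Agent.P267K

open Vale.Agent.P267

set_option linter.unusedSectionVars false

variable {M : Type} [TopologicalSpace M] [ChartedSpace C2 M] [IsManifold 𝓘(ℂ, C2) ω M]
  [T2Space M] [ConnectedSpace M] {C : Cov M} {ν : M → ℝ} {A : Set M} {x y : M} {N : ℕ}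
  {F Ψ : C.I → M → ℂ} {σ s : M → ℂ}

theorem kq2_inv (hg : ∀ p, s (C.g p) = s p) (k : ℤ) (p : M) : s ((C.g ^ k) p) = s p := by
  induction k using Int.induction_on generalizing p with
  | zero => rfl
  | succ k ih => rw [zpow_add_one, Homeomorph.mul_apply, ih, hg]
  | pred k ih =>
    rw [zpow_sub_one, Homeomorph.mul_apply, ih, ← hg]
    exact congrArg s (C.g.apply_symm_apply p)

theorem kq2_fin {L : Set M} (hL : IsCompact L) (x : M) :
    ∃ W : Finset ℤ, 0 ∈ W ∧ ∀ᶠ y in 𝓝 x, |C.t y - C.t x| < 1 ∧ ∀ k ∉ W, (C.g ^ k) y ∉ L := by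
  obtain ⟨T, hT⟩ := hL.exists_bound_of_continuousOn C.continuous_t.continuousOn
  obtain ⟨n, hn⟩ := exists_nat_gt (T + |C.t x| + 1)
  have h1 : ∀ᶠ y in 𝓝 x, |C.t y - C.t x| < 1 :=
    ((C.continuous_t.sub continuous_const).abs.continuousAt (x := x)).eventually_lt
      continuousAt_const (by simp)
  refine ⟨Finset.Icc (-n) n, by simp, h1.mono fun y hy => ⟨hy, fun k hk hk' => hk ?_⟩⟩
  have h2 := hT _ hk'
  rw [Real.norm_eq_abs, C.t_gz, abs_le] at h2
  rw [abs_lt] at hy
  have h3 := le_abs_self (C.t x)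
  have h4 := neg_abs_le (C.t x)
  rw [Finset.mem_Icc]
  constructor
  · have : (-(n : ℝ)) ≤ k := by linarith [h2.1, hy.2]
    exact_mod_cast this
  · have : (k : ℝ) ≤ n := by linarith [h2.2, hy.1]
    exact_mod_cast this

theorem TS.po {l : ℂ} (h : TS C l s) (hg : ∀ p, s (C.g p) = s p) : Po C s := by
  intro c ψ p hc hz
  obtain ⟨P, r, hP, hr, hp, hN, hT, hcP⟩ := crd_chart hc hz
  obtain ⟨α, a, h1, h2, h3, h4, h5⟩ := C.polar hP hT
  have hs1 : ∀ y ∈ P.source, s y = 0 ↔ P y 1 = 0 := fun y hy => by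
    rw [show s y = 0 ↔ (c y).2 = 0 from hN hy, (hcP y hy).2, mul_eq_zero, or_iff_right hr]
  have h00 : ∀ y, P y 0 = 0 → P y 1 = 0 → P y = 0 := fun y e0 e1 => by
    funext j
    fin_cases j
    exacts [e0, e1]
  have hp0 : P p = 0 := by
    obtain ⟨e0, e1⟩ := hcP p hp
    rw [hc.c0] at e0 e1
    exact h00 p ((mul_eq_zero.1 e0.symm).resolve_left hr) ((mul_eq_zero.1 e1.symm).resolve_left hr)
  have hB : closedBall (0 : C2) 2 ⊆ P.target :=
    (closedBall_subset_closedBall (by norm_num)).trans hT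
  have hL : IsCompact (P.symm '' closedBall 0 2) :=
    (isCompact_closedBall 0 2).image_of_continuousOn (P.continuousOn_symm.mono hB)
  have hKB : {z : C2 | 1 ≤ ‖z 1‖ ∧ ‖z‖ ≤ 2} ⊆ closedBall 0 2 := fun z hz =>
    mem_closedBall_zero_iff.2 hz.2
  have hKc : IsClosed {z : C2 | 1 ≤ ‖z 1‖ ∧ ‖z‖ ≤ 2} :=
    (isClosed_le continuous_const (continuous_apply 1).norm).inter
      (isClosed_le continuous_norm continuous_const)
  have hK : IsCompact (P.symm '' {z : C2 | 1 ≤ ‖z 1‖ ∧ ‖z‖ ≤ 2}) :=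
    ((isCompact_closedBall 0 2).of_isClosed_subset hKc hKB).image_of_continuousOn
      (P.continuousOn_symm.mono (hKB.trans hB))
  have hKs : ∀ y ∈ P.symm '' {z : C2 | 1 ≤ ‖z 1‖ ∧ ‖z‖ ≤ 2}, s y ≠ 0 := by
    rintro _ ⟨z, hz, rfl⟩ h0
    have hz' := hB (hKB hz)
    rw [hs1 _ (P.map_target hz'), P.right_inv hz'] at h0
    have := hz.1
    rw [h0, norm_zero] at this
    exact absurd this (by norm_num)
  obtain ⟨h, hh⟩ := h α _ _ ⟨hK, hL, hKs, h1, h3, fun y hy => (h2 y hy).1⟩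
  have hpr : ∀ x, s x = 0 → x ≠ p → C.Prim α a x := fun x hx hxp => by
    by_cases h0 : x ∈ P.source
    · have e1 := (hs1 x h0).1 hx
      refine h4 x h0 (by rw [e1, norm_zero]; exact one_pos) fun e0 => hxp ?_
      exact P.injOn h0 hp ((h00 x e0 e1).trans hp0.symm)
    · have h6 := h2 x (by
        rintro ⟨z, hz, rfl⟩
        exact h0 (P.map_target (hB hz)))
      exact Cov.Prim.of_hol (holAt_zero.congr h6.2.symm) h6.1
  have hsum : ∀ (W : Finset ℤ) y, (∀ k ∉ W, (C.g ^ k) y ∉ P.symm '' closedBall 0 2) →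
      ∑ᶠ k : ℤ, Complex.exp (-(l * k)) * a ((C.g ^ k) y) =
        ∑ k ∈ W, Complex.exp (-(l * k)) * a ((C.g ^ k) y) := fun W y hy =>
    finsum_eq_sum_of_support_subset _ fun k hk => by
      by_contra h0
      exact hk (by
        show _ * _ = 0
        rw [(h2 _ (hy k h0)).2.self_of_nhds, Pi.zero_apply, mul_zero])
  refine ⟨fun y => -r⁻¹ * (h y - ∑ᶠ k : ℤ, Complex.exp (-(l * k)) * a ((C.g ^ k) y)),
    fun x hx hxp => ?_, ?_⟩
  · obtain ⟨W, -, hW⟩ := kq2_fin (C := C) hL x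
    refine ((hh x hx (fun _ => a) W hW.self_of_nhds.2 fun k _ =>
      hpr _ ((kq2_inv hg k x).trans hx) (hxp k)).const_smul (-r⁻¹)).congr_of_eventuallyEq ?_
    filter_upwards [hW] with y hy
    rw [hsum W y hy.2]
    simp only [Pi.smul_apply, Pi.sub_apply, smul_eq_mul, Finset.sum_apply, Function.comp_apply]
  · obtain ⟨W, hW0, hW⟩ := kq2_fin (C := C) hL p
    refine ⟨(-r⁻¹) • (h - ∑ k ∈ W, Complex.exp (-(l * k)) •
      ((if k = 0 then (0 : M → ℂ) else a) ∘ (C.g ^ k : M ≃ₜ M))), ?_⟩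
    have h6 : ∀ᶠ y in 𝓝 p, ‖P y‖ < 1 :=
      (P.continuousAt hp).norm.eventually_lt continuousAt_const (by rw [hp0, norm_zero]; exact one_pos)
    filter_upwards [P.open_source.mem_nhds hp, h6, hW] with y y1 y2 y4 y3
    refine ⟨(hh y y3 (fun k => if k = 0 then 0 else a) W y4.2 fun k _ => ?_).const_smul _,
      fun _ => ?_⟩
    · by_cases hk : k = 0
      · subst hk
        rw [if_pos rfl]
        exact Cov.Prim.of_hol holAt_zero (h5 y y1 y2).1
      · rw [if_neg hk]
        refine hpr _ ((kq2_inv hg k y).trans y3) fun e => hk ?_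
        have e1 := C.t_gz k y
        rw [e] at e1
        have e2 : |(k : ℝ)| < 1 := by
          rw [show (k : ℝ) = -(C.t y - C.t p) by linarith, abs_neg]
          exact y4.1
        exact Int.abs_lt_one_iff.1 (by exact_mod_cast e2)
    · have e1 : ∑ k ∈ W, Complex.exp (-(l * k)) * a ((C.g ^ k) y) = a y +
          ∑ k ∈ W, Complex.exp (-(l * k)) * (if k = 0 then (0 : M → ℂ) else a) ((C.g ^ k) y) := by
        rw [← Finset.add_sum_erase _ _ hW0, ← Finset.add_sum_erase _ _ hW0, ← add_assoc]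
        refine congrArg₂ (· + ·) (by simp) (Finset.sum_congr rfl fun k hk => ?_)
        rw [if_neg (Finset.ne_of_mem_erase hk)]
      rw [hsum W y y4.2, e1]
      simp only [Pi.smul_apply, Pi.sub_apply, smul_eq_mul, Finset.sum_apply, Function.comp_apply,
        (h5 y y1 y2).2, (hcP y y1).1, mul_inv]
      ring

end Vale.Agent.P267K
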