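import Vale.Agent.P267K.KI2

/-! P267, the case of a twisted canonical section: compact components are rational. -/

open scoped Manifold ContDiff Topology
open Filter Metric Set Asymptotics

noncomputable section

namespace Vale.Agent.P267K

open Vale.Agent.P267

set_option linter.unusedSectionVars false

variable {M : Type} [TopologicalSpace M] [ChartedSpace C2 M] [IsManifold 𝓘(ℂ, C2) ω M]
  [T2Space M] [ConnectedSpace M] {C : Cov M} {ν : M → ℝ} {A : Set M} {x y : M} {N : ℕ}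
  {F Ψ : C.I → M → ℂ} {σ s : M → ℂ}

theorem KH.rat (H : KH C ν) (hz : ∀ x, ν x = 0 ↔ s x = 0) (hP : Po C s)
    (hx : P267C.Sm C2 ν x) (hc : IsCompact (closure (cp ν x))) :
    ∃ A, P267C.RatC C2 A ∧ x ∈ A ∧ A ⊆ closure (cp ν x) := by
  have := C.second
  obtain ⟨F, σ, hD⟩ := H.frames (N := 0) (part_cp ν x) fun y => by rw [pow_zero]; rfl
  obtain ⟨μ, h1, h2⟩ := hD.sec
  have h3 : ∀ y, μ y = 0 → ν y = 0 := fun y hy =>
    (part_cp ν x).closure_sub H.closed ((h2 y).1 hy)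
  have h4 := cp_ev hx
  have hx' := hx
  obtain ⟨c, ψ, k1, k2⟩ := hx'
  obtain ⟨f, f1, h, f2⟩ := hP c ψ x k1 (k2.mono fun y hy => (hz y).symm.trans hy)
  obtain ⟨B, hB⟩ := hc.exists_bound_of_continuousOn C.continuous_t.continuousOn
  have hB' : ∀ y, μ y = 0 → -B ≤ C.t y ∧ C.t y ≤ B := fun y hy => abs_le.1 (hB y ((h2 y).1 hy))
  obtain ⟨y₀, hy₀⟩ := H.ne
  have hCu : P267C.Cu C2 C.t μ c ψ x f 0 := by
    refine ⟨C.continuous_t, C.isCompact_t, h1,
      P267C.sing_countable (by simp) h1 ⟨y₀, fun e => hy₀ (h3 _ e)⟩, ⟨B, fun y hy => (hB' y hy).2⟩,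
      k1, ?_, fun y hy hne => f1 y ((hz y).1 (h3 y hy)) fun k hk => hne ?_,
      ⟨h, f2.mono fun y hy e => hy ((hz y).1 (h3 y e))⟩, ?_⟩
    · filter_upwards [k2, h4] with y a1 a2
      exact ⟨fun e => a1.1 (h3 y e), fun e => (h2 y).2 (subset_closure (a2 (a1.2 e)))⟩
    · have e : (C.g ^ (-k)) x = y := by
        rw [← hk, ← Homeomorph.mul_apply, ← zpow_add, neg_add_cancel, zpow_zero]
        rfl
      have e0 := H.aperiodic hx hc (k := -k) (e ▸ (h2 y).1 hy)
      rw [← e, e0, zpow_zero]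
      rfl
    · have e : comap C.t atBot ⊓ 𝓟 {y | μ y = 0} = ⊥ := inf_principal_eq_bot.2
        (mem_of_superset (preimage_mem_comap (Iio_mem_atBot (-B))) fun y hy e =>
          (hB' y e).1.not_gt hy)
      rw [e]
      exact tendsto_bot
  obtain ⟨A, a1, a2, a3⟩ := hCu.rat fun Ω Φ s₀ _ _ b1 b2 b3 => by
    obtain ⟨w, c1, c2⟩ := (b2.and (b3.eventually (eventually_lt_atBot (-B)))).exists
    exact absurd c2 (hB' _ (b1 w c1).2).1.not_gt
  exact ⟨A, a1, a3.self_of_nhds ((h2 x).2 (subset_closure (mem_cp hx))),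
    fun y hy => (h2 y).1 (a2 y hy)⟩

end Vale.Agent.P267K
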