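import Vale.Agent.P267K.KG3
import Vale.Agent.P267K.KH
import Vale.Agent.P267K.KJ2
import Vale.Agent.P267K.KK
import Vale.Agent.P267K.KK2
import Vale.Agent.P267K.KL1
import Vale.Agent.P267K.KM
import Vale.Agent.P267K.KN2
import Vale.Agent.P267K.KO
import Vale.Agent.P267K.KP
import Vale.Agent.P267K.KQ1
import Vale.Agent.P267K.KQ2
import Vale.Agent.P267K.KR

/-! P267, the case of a twisted canonical section: the theorem in the working model. -/

open scoped Manifold ContDiff Topology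
open Filter Metric Set Asymptotics

noncomputable section

namespace Vale.Agent.P267K

open Vale.Agent.P267

set_option linter.unusedSectionVars false

variable {M : Type} [TopologicalSpace M] [ChartedSpace C2 M] [IsManifold 𝓘(ℂ, C2) ω M]
  [T2Space M] [ConnectedSpace M] {C : Cov M} {ν : M → ℝ} {A : Set M} {x y : M} {N : ℕ}
  {F Ψ : C.I → M → ℂ} {σ s : M → ℂ}

theorem ks_inv {μ : ℂ} (H : KH C ν)
    (hs : ∀ i, ∀ p ∈ (C.ch i).source, HolAt ((C.kf * th C μ) i * s) p)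
    (hg : ∀ p, s (C.g p) = s p) (hz : ∀ x, ν x = 0 ↔ s x = 0) :
    ∃ B, Inv C (C.kf * th C μ) s B := by
  obtain ⟨B₁, h1⟩ := C.kf_fr
  obtain ⟨B₂, h2⟩ := th_fr C μ
  have h3 := fr_mul h1 h2
  have := C.second
  refine ⟨_, h3, Cov.LD_pd (f := fun a b => a * b) (Cov.pd_kf 1) (th_pd C μ 1), hg,
    fun i p hp => hs i p hp.1, fun i p hp h => H.sec.ne H.ne p ?_,
    inv_bdd h3 one_lt_two (fun i p hp => hs i p hp.1) hg⟩
  filter_upwards [h, Cov.sv_ne h3 hp] with q k1 k2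
  exact (hz q).2 ((mul_eq_zero.1 k1).resolve_left k2)

theorem ks_po {n : ℕ} {B : ℝ} (H : KH C ν) (hL : C.AllLat C.κ n) (hI : Inv C Ψ s B) : Po C s := by
  obtain ⟨B₁, h1⟩ := C.kf_fr
  obtain ⟨l₁, h2⟩ := vanish h1 one_lt_two
  obtain ⟨l₂, h3⟩ := vanish (fr_mul h1 hI.fr) one_lt_two
  obtain ⟨l, h4, h5⟩ := eig_gen C (max l₁ l₂)
  obtain ⟨Φ, c, h6⟩ := hL 1 one_pos
  obtain ⟨B₂, h7⟩ := th_fr C l
  have e : C.kf / (th C l / Ψ) = C.kf * Ψ / th C l := by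
    funext i p
    simp only [Pi.div_apply, Pi.mul_apply, div_div_eq_mul_div]
  obtain ⟨K, h8, h9⟩ := s2d (r := 7 / 4) (r' := 3 / 2) (δ := 1)
    (Cov.sv_mono (h7.div hI.fr) (by norm_num))
    (Cov.LD_pd (f := fun a b => a / b) (th_pd C l 1) hI.per)
    (e ▸ h3 l ((le_max_right _ _).trans h4)) one_pos (by norm_num) (by norm_num) (by norm_num)
  exact (hI.ts (h1z h6 h5 (h2 l ((le_max_left _ _).trans h4))) H.gh
    fun α Q L hα => hI.tw h8 h9 hα).po hI.inv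

theorem ks_num {n : ℕ} {μ : ℂ} (H : KH C ν) (hL : C.AllLat C.κ n) (hP : PG C)
    (hs : ∀ i, ∀ p ∈ (C.ch i).source, HolAt ((C.kf * th C μ) i * s) p)
    (hg : ∀ p, s (C.g p) = s p) (hz : ∀ x, ν x = 0 ↔ s x = 0) (hN : 0 < N) {W : Finset M}
    (hW : Rp C ν N W) : n * N ≤ W.card := by
  obtain ⟨Φ, c, h1⟩ := hL N hN
  choose F σ hD using fun w => H.frames (N := N) (part_orb C ν N w) fun _ => H.orb_inv
  have h2 := (fm_kf C).mul (th_fm C μ)
  have h3 : C.Pd N (C.kf * th C μ) :=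
    Cov.LD_pd (f := fun a b => a * b) (Cov.pd_kf N) (th_pd C μ N)
  have h4 : ∀ p, s ((C.g ^ N) p) = s p := fun p => by
    rw [← zpow_natCast]
    exact C.sa8_inv hg N p
  obtain ⟨m, hm⟩ := H.fact h2 h3 h4 hs hz hW fun w _ => hD w
  have h5 := cls h1 h2 h3 h4 hs (fun w _ => hD w) hm
  rw [h1.mul (fm_kf C).sFr (Cov.pd_kf N) (th_fm C μ).sFr (th_pd C μ N), h1.canonical,
    th_cls h1, add_zero] at h5
  simpa using comb W m (fun w => c (F w)) h5.symm fun w _ =>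
    (hD w).num h1 hN hP (H.cst hN w)

theorem KH.main {n : ℕ} {μ : ℂ} (H : KH C ν) (hL : C.AllLat C.κ n) (hP : PG C)
    (hs : ∀ i, ∀ p ∈ (C.ch i).source, HolAt ((C.kf * th C μ) i * s) p)
    (hg : ∀ p, s (C.g p) = s p) (hz : ∀ x, ν x = 0 ↔ s x = 0) :
    ∃ A : Fin n → Set M, (∀ i, P267C.RatC C2 (A i)) ∧
      ∀ i j, P267C.Sat C.g.toEquiv (A i) = P267C.Sat C.g.toEquiv (A j) → i = j := by
  obtain ⟨B, hI⟩ := ks_inv H hs hg hz
  have h1 := ks_po H hL hI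
  obtain ⟨y, h2, h3⟩ := H.count (n := n) fun N hN W hW => ks_num H hL hP hs hg hz hN hW
  choose A h4 h5 h6 using fun i => H.rat hz h1 (h2 i).1 (h2 i).2
  refine ⟨A, h4, fun i j e => ?_⟩
  have h7 : y i ∈ P267C.Sat C.g.toEquiv (A j) := e ▸ mem_iUnion.2 ⟨0, y i, h5 i, by simp⟩
  obtain ⟨k, z, hz1, hz2⟩ := mem_iUnion.1 h7
  rw [P267C.toEquiv_zpow] at hz2
  have e2 : (C.g ^ (-k)) (y i) = z := by
    rw [← hz2, ← C.gz_add, neg_add_cancel, zpow_zero]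
    rfl
  exact h3 i j (-k) ((part_cp ν (y j)).of_closure ((H.sm_gz _).2 (h2 i).1) (e2 ▸ h6 j hz1))

end Vale.Agent.P267K
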