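import Vale.Agent.P267K.Defs
import Vale.Agent.P267S.SC1
import Vale.Agent.P267S.SA5

/-! P267, the case of a twisted canonical section: flat frames. -/

open scoped Manifold ContDiff Topology
open Filter Metric Set Asymptotics

noncomputable section

namespace Vale.Agent.P267K

open Vale.Agent.P267

set_option linter.unusedSectionVars false

variable {M : Type} [TopologicalSpace M] [ChartedSpace C2 M] [IsManifold 𝓘(ℂ, C2) ω M]
  [T2Space M] [ConnectedSpace M] {C : Cov M} {ν : M → ℝ} {A : Set M} {x y : M} {N : ℕ}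
  {F Ψ : C.I → M → ℂ} {σ s : M → ℂ}

theorem th_fm (C : Cov M) (l : ℂ) : Fm C (th C l) :=
  ⟨fun _ _ _ => Complex.exp_ne_zero _, fun i j _ _ =>
    (holAt_const (Complex.exp (l * ((i.2 : ℂ) - j.2)))).congr (.of_forall fun q => by
      simp only [th, Pi.div_apply, ← Complex.exp_sub]; congr 1; ring)⟩

theorem th_fr (C : Cov M) (l : ℂ) : ∃ B, C.Fr (th C l) 2 B := by
  refine ⟨Real.exp (‖l‖ * C.R), fun i p hp => (th_fm C l).ne i p hp.1,
    fun i j p hp => (th_fm C l).hol i j p ⟨hp.1.1, hp.2.1⟩, fun i p hp => ?_⟩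
  have h : ‖l * ((C.t p : ℂ) + i.2)‖ ≤ ‖l‖ * C.R := by
    rw [norm_mul, show ((C.t p : ℂ) + i.2) = ((C.t p + i.2 : ℝ) : ℂ) by push_cast; rfl,
      Complex.norm_real]
    exact mul_le_mul_of_nonneg_left (C.t_ch hp.1) (norm_nonneg _)
  refine ⟨(Complex.norm_exp_le_exp_norm _).trans (Real.exp_le_exp.2 h), ?_⟩
  rw [th, ← Complex.exp_neg]
  exact (Complex.norm_exp_le_exp_norm _).trans (Real.exp_le_exp.2 (by rwa [norm_neg]))

theorem th_pd (C : Cov M) (l : ℂ) (N : ℕ) : C.Pd N (th C l) :=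
  funext fun i => funext fun p => by
    simp only [Cov.shf, th, C.t_gz]; congr 1; push_cast; ring

theorem th_sm (C : Cov M) (l : ℂ) (i : C.I) (p : M) : SmAt (th C l i) p :=
  ((smAt_const l).mul ((C.t_sm p).add (smAt_const (i.2 : ℂ)))).exp

theorem th_cls {k : M → M → ℂ} {n : ℕ} {Φ : Fin n → C.I → M → ℂ}
    {c : (C.I → M → ℂ) → Fin n → ℤ} (hL : C.Lat k N Φ c) (l : ℂ) : c (th C l) = 0 := by
  have h1 : c 1 = 0 := by
    have h := hL.mul Cov.sFr_one rfl Cov.sFr_one rfl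
    rw [mul_one] at h
    exact left_eq_add.1 h
  rw [← h1]
  exact hL.equiv Cov.sFr_one rfl ⟨fun _ _ _ => Complex.exp_ne_zero _, fun i j p hp =>
    ((th_fm C l).hol i j p ⟨hp.1.1, hp.2.1⟩).smAt⟩ (th_pd C l N) fun i p _ =>
      (th_sm C l i p).congr (.of_forall fun _ => (div_one _).symm)

theorem fr_mul {r B B' : ℝ} (h : C.Fr F r B) (h' : C.Fr Ψ r B') : C.Fr (F * Ψ) r (B * B') := by
  refine ⟨fun i p hp => mul_ne_zero (h.ne i p hp) (h'.ne i p hp), fun i j p hp =>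
    ((h.hol i j p hp).mul (h'.hol i j p hp)).congr
      (.of_forall fun _ => (mul_div_mul_comm _ _ _ _).symm), fun i p hp => ?_⟩
  have hB : 0 ≤ B := (norm_nonneg _).trans (h.bd i p hp).1
  rw [Pi.mul_apply, Pi.mul_apply, mul_inv, norm_mul, norm_mul]
  exact ⟨mul_le_mul (h.bd i p hp).1 (h'.bd i p hp).1 (norm_nonneg _) hB,
    mul_le_mul (h.bd i p hp).2 (h'.bd i p hp).2 (norm_nonneg _) hB⟩

theorem Fm.mul (h : Fm C F) (h' : Fm C Ψ) : Fm C (F * Ψ) :=
  ⟨fun i p hp => mul_ne_zero (h.ne i p hp) (h'.ne i p hp), fun i j p hp =>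
    ((h.hol i j p hp).mul (h'.hol i j p hp)).congr
      (.of_forall fun _ => (mul_div_mul_comm _ _ _ _).symm)⟩

theorem fm_kf (C : Cov M) : Fm C C.kf :=
  ⟨fun _ _ hp => C.kf_ne hp, fun _ _ _ hp => C.kf_hol hp.1 hp.2⟩

end Vale.Agent.P267K
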