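import Vale.Agent.P267K.Defs
import Vale.Agent.P267M.Model
import Vale.Agent.P267L.LT5

/-! P267, the case of a twisted canonical section: the model. -/

open scoped Manifold ContDiff Topology
open Filter Metric Set Asymptotics

noncomputable section

namespace Vale.Agent.P267K

open Vale.Agent.P267

set_option linter.unusedSectionVars false

variable {X M : Type} [TopologicalSpace X] [ChartedSpace C2 X] [IsManifold 𝓘(ℂ, C2) ω X]
  [TopologicalSpace M] [ChartedSpace C2 M] [IsManifold 𝓘(ℂ, C2) ω M] [T2Space M]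
  [ConnectedSpace M] {π : M → X} {g : M ≃ₜ M} {t : M → ℝ}

theorem model [CompactSpace X] (h : IsCover π g t) (V : M → Set M) (hV : ∀ p, V p ∈ 𝓝 p) :
    ∃ C : Cov M, C.g = g ∧ C.t = t ∧ (∀ a, ∃ p, (C.e a).source ⊆ V p) ∧ ∃ m : M → ℂ,
      (∀ p, m p ≠ 0) ∧ (∀ (k : ℤ) p, m ((g ^ k) p) = m p) ∧
        P267M.Same m C.κ (pull π (canon X)) := by
  obtain ⟨ι, _, e, he, heV⟩ := P267M.exists_atl h V hV
  obtain ⟨idx, hi, hi'⟩ := P267M.exists_idx h he
  obtain ⟨ρ, hρ⟩ := P267M.exists_pou h he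
  obtain ⟨m, hm, hm', hm''⟩ := P267M.exists_met h he hρ
  let C : Cov M :=
    { g := g, t := t, ι := ι, e := e, idx := idx, ρ := ρ
      kc := fun a q => m q * P267M.jac π (e a) q
      R := 2
      tgt := he.tgt
      idx_mem := hi
      idx_g := hi'
      hol := fun a p hp f => (he.adm a).hol hp f
      sm := fun a p hp f => (he.adm a).sm hp f
      hol_g := P267M.hol_g h
      sm_g := P267M.sm_g h
      t_sm := h.smooth
      shift := h.shift
      t_bd := he.bd
      drift := fun a z hz => (he.adm a).drift h (by rwa [he.tgt a])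
      ρ_sm := hρ.sm
      ρ_nonneg := hρ.nonneg
      ρ_supp := hρ.supp
      ρ_sum := hρ.sum
      kc_ne := fun a p hp => mul_ne_zero (hm p) (P267M.jac_ne h (he.adm a) hp)
      kc_sm := hm''
      kc_tr := fun a b k p hp hp' => by
        rw [P267M.jac_tr h (he.adm a) (he.adm b) k hp hp', hm', P267M.tr]
        ring }
  refine ⟨C, rfl, rfl, heV, m, hm, hm', fun p => ?_⟩
  obtain ⟨H, h1, h2, h3⟩ := P267M.jac_canon h (he.adm (idx p).1) (idx p).2 (hi p).1
  refine ⟨H, h1, h2, h3.mono fun q hq => ?_⟩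
  rw [← hq, ← hm' (idx p).2 q]
  rfl

theorem allLat [T2Space X] {C : Cov M} (h : IsCover π C.g C.t) {m : M → ℂ} (h0 : ∀ p, m p ≠ 0)
    (hm : ∀ (k : ℤ) p, m ((C.g ^ k) p) = m p) (hs : P267M.Same m C.κ (pull π (canon X))) {n : ℕ}
    (hL : ∀ N : ℕ, 0 < N → ∃ (L : Fin (n * N) → M → M → ℂ) (c : (M → M → ℂ) → Fin (n * N) → ℤ),
      IsLattice (C.g ^ N) (pull π (canon X)) L c) : C.AllLat C.κ n := fun N hN => by
  obtain ⟨L, c, h1⟩ := hL N hN
  obtain ⟨Φ, h2⟩ := Cov.lat_of h hN h1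
  exact ⟨Φ, _, h2.hol, h2.per, h2.basis, h2.canonical, h2.pair, fun u F a1 a2 a3 a4 a5 =>
    hs.euler h0 (fun p => by simpa using hm N p) (h2.rr u F a1 a2 a3 a4 a5)⟩

end Vale.Agent.P267K
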