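import Vale.Agent.P267K.KT0
import Vale.Agent.P267S.SA8

/-! P267, the case of a twisted canonical section: negative twists. -/

open scoped Manifold ContDiff Topology
open Filter Metric Set Asymptotics

noncomputable section

namespace Vale.Agent.P267K

open Vale.Agent.P267

set_option linter.unusedSectionVars false

variable {M : Type} [TopologicalSpace M] [ChartedSpace C2 M] [IsManifold 𝓘(ℂ, C2) ω M]
  [T2Space M] [ConnectedSpace M] {C : Cov M} {ν : M → ℝ} {A : Set M} {x y : M} {N : ℕ}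
  {F Ψ : C.I → M → ℂ} {σ s : M → ℂ}

theorem kt2_loc {r B : ℝ} (h : C.Fr F r B) (hr : 1 < r) (hs : C.SecF F s) (p : M) :
    ∃ D : ℝ, ∀ᶠ q in 𝓝 p, ‖s q‖ ≤ D := by
  have hp := C.mem_U_idx p
  have h1 := (hs _ p hp).continuousAt.norm
  have h2 : ∀ᶠ q in 𝓝 p, ‖(F (C.idx p) * s) q‖ < ‖(F (C.idx p) * s) p‖ + 1 :=
    h1.eventually (gt_mem_nhds (lt_add_one _))
  refine ⟨B * (‖(F (C.idx p) * s) p‖ + 1), ?_⟩
  filter_upwards [h2, (C.isOpen_U (C.idx p) r).mem_nhds (C.U_mono _ hr.le hp)] with q h3 h4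
  have e : ‖s q‖ = ‖(F (C.idx p) q)⁻¹‖ * ‖(F (C.idx p) * s) q‖ := by
    rw [← norm_mul, Pi.mul_apply, ← mul_assoc, inv_mul_cancel₀ (h.ne _ q h4), one_mul]
  have h5 := (h.bd _ q h4).2
  rw [e]
  exact mul_le_mul h5 h3.le (norm_nonneg _) ((norm_nonneg _).trans h5)

/-- An invariant section of bounded frames is bounded. -/
theorem inv_bdd {r B : ℝ} (h : C.Fr F r B) (hr : 1 < r) (hs : C.SecF F s)
    (hg : ∀ p, s (C.g p) = s p) : Bdd s := by
  obtain ⟨D, hD⟩ : ∃ D : ℝ, ∀ q ∈ C.t ⁻¹' Icc 0 1, ‖s q‖ ≤ D := by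
    refine (C.isCompact_t 0 1).induction_on (p := fun S => ∃ D : ℝ, ∀ q ∈ S, ‖s q‖ ≤ D)
      ⟨0, fun _ hq => hq.elim⟩ (fun S T hST ⟨D, hD⟩ => ⟨D, fun q hq => hD q (hST hq)⟩)
      (fun S T ⟨D, hD⟩ ⟨E, hE⟩ => ⟨max D E, fun q hq => hq.elim
        (fun k => (hD q k).trans (le_max_left _ _)) fun k => (hE q k).trans (le_max_right _ _)⟩)
      fun p _ => ?_
    obtain ⟨D, hD⟩ := kt2_loc h hr hs p
    exact ⟨_, mem_nhdsWithin_of_mem_nhds hD, D, fun q hq => hq⟩
  refine ⟨D, fun p => ?_⟩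
  obtain ⟨k, hk⟩ := C.sa8_slab p
  rw [← C.sa8_inv hg k p]
  exact hD _ hk

/-- Strongly negative flat twists have no section. -/
theorem vanish {r B : ℝ} (hF : C.Fr F r B) (hr : 1 < r) : ∃ l₀ : ℝ, ∀ l : ℝ, l₀ ≤ l →
    ∀ s, C.SecF (F / th C l) s → C.Gr s 1 → s = 0 := by
  obtain ⟨θ, b, hθ, hsub⟩ := C.sa_sub_fr hF hr
  refine ⟨max 0 ((b + (2 * C.R + 1) + 1) / θ), fun l hl s hs ⟨D, hD⟩ => ?_⟩
  have hl0 : 0 ≤ l := (le_max_left _ _).trans hl
  have hl1 : b + (2 * C.R + 1) < l * θ := by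
    have := (div_le_iff₀ hθ).1 ((le_max_right _ _).trans hl)
    linarith
  have h1 : C.SecF F fun q => Complex.exp (-(l * C.t q)) * s q := fun i p hp => by
    refine ((hs i p hp).smul (Complex.exp (l * i.2))).congr (Eventually.of_forall fun q => ?_)
    simp only [Pi.smul_apply, Pi.mul_apply, Pi.div_apply, th, smul_eq_mul]
    rw [mul_add, Complex.exp_add, Complex.exp_neg]
    field_simp
  have h2 := hsub _ h1
  have hn : ∀ q, ‖Complex.exp (-(l * C.t q)) * s q‖ = Real.exp (-(l * C.t q)) * ‖s q‖ := by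
    intro q
    rw [norm_mul, Complex.norm_exp]
    simp
  have hm : ∀ q, ‖Complex.exp (-(l * C.t q)) * s q * (Real.exp (-|C.t q|) : ℝ)‖ =
      ‖Complex.exp (-(l * C.t q)) * s q‖ * Real.exp (-|C.t q|) := fun q => by
    rw [norm_mul _ ((Real.exp (-|C.t q|) : ℝ) : ℂ), Complex.norm_real,
      Real.norm_of_nonneg (Real.exp_pos _).le]
  have h3 : C.Sub (fun q => Complex.exp (-(l * C.t q)) * s q * (Real.exp (-|C.t q|) : ℝ)) θ
      fun _ => b + (2 * C.R + 1) := by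
    intro p m hm0
    obtain ⟨q, hq, h4⟩ := h2 p m hm0
    refine ⟨q, hq, ?_⟩
    have h5 : Real.exp (-|C.t p|) ≤ Real.exp (2 * C.R + 1) * Real.exp (-|C.t q|) := by
      rw [← Real.exp_add, Real.exp_le_exp]
      linarith [abs_sub_abs_le_abs_sub (C.t q) (C.t p)]
    have h6 := mul_le_mul h4 h5 (Real.exp_pos _).le (by positivity)
    simp only [hm]
    rw [Real.exp_add]
    calc _ = ‖Complex.exp (-(l * C.t p)) * s p‖ * Real.exp (m * θ) * Real.exp (-|C.t p|) := by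
          ring
      _ ≤ _ := h6
      _ = _ := by ring
  have h7 := h3.lin (D := D) hl0 hl1 fun p => by
    simp only [hm, hn]
    have h8 := mul_le_mul_of_nonneg_right (hD p) (Real.exp_pos (-|C.t p|)).le
    rw [one_mul, mul_assoc D, ← Real.exp_add, add_neg_cancel, Real.exp_zero, mul_one] at h8
    have e : Real.exp (-(l * C.t p)) * Real.exp (l * C.t p) = 1 := by
      rw [← Real.exp_add, neg_add_cancel, Real.exp_zero]
    calc _ = Real.exp (-(l * C.t p)) * Real.exp (l * C.t p) * (‖s p‖ * Real.exp (-|C.t p|)) := by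
          ring
      _ ≤ D := by rw [e, one_mul]; exact h8
  funext p
  have h9 := congrFun h7 p
  simp only [Pi.zero_apply, mul_eq_zero, Complex.exp_ne_zero, false_or,
    Complex.ofReal_eq_zero, (Real.exp_pos _).ne', or_false] at h9
  exact h9

end Vale.Agent.P267K
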