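import Vale.Agent.P267K.Defs
import Vale.Agent.P267M.Model
import Vale.Agent.P267L.LT5

/-! P267, the case of a twisted canonical section: two-forms on the covers. -/

open scoped Manifold ContDiff Topology
open Filter Metric Set Asymptotics

noncomputable section

namespace Vale.Agent.P267K

open Vale.Agent.P267

set_option linter.unusedSectionVars false

variable {X M : Type} [TopologicalSpace X] [ChartedSpace C2 X] [IsManifold 𝓘(ℂ, C2) ω X]
  [TopologicalSpace M] [ChartedSpace C2 M] [IsManifold 𝓘(ℂ, C2) ω M] [T2Space M]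
  [ConnectedSpace M] {π : M → X} {g : M ≃ₜ M} {t : M → ℝ}

theorem kt3_desc (h : IsCover π g t) {F : X → ℂ} {p : M} (hF : HolAt (F ∘ π) p) :
    HolAt F (π p) := by
  have hl := h.loc p
  rw [P267M.hol_iff] at hF ⊢
  have e : hl.localInverse (π p) = p := hl.localInverse_left_inv hl.localInverse_mem_target
  have h1 : ContMDiffAt 𝓘(ℂ, C2) 𝓘(ℂ, ℂ) ω ((F ∘ π) ∘ hl.localInverse) (π p) :=
    ContMDiffAt.comp (π p) (by rw [e]; exact hF) hl.localInverse_contMDiffAt
  refine h1.congr_of_eventuallyEq ?_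
  filter_upwards [hl.localInverse_eventuallyEq_right] with y hy
  simp only [Function.comp_apply, id] at hy ⊢
  rw [hy]

theorem kt3_prod {ι : Type} (W : Finset ι) {F : ι → M → ℂ} {p : M} (hF : ∀ i, HolAt (F i) p)
    (h0 : ∀ i, ¬ F i =ᶠ[𝓝 p] 0) : ¬ (∏ i ∈ W, F i) =ᶠ[𝓝 p] 0 := by
  classical
  induction W using Finset.induction_on with
  | empty =>
    intro h
    have h1 := h.self_of_nhds
    simp at h1
  | insert a W ha ih =>
    rw [Finset.prod_insert ha]
    exact HolAt.mul_ne (hF a) (HolAt.prod fun i _ => hF i) (h0 a) ih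

theorem kt3_inv (C : Cov M) {P : M → ℂ} (hP : ∀ y, P (C.g y) = P y) (k : ℤ) (y : M) :
    P ((C.g ^ k) y) = P y := by
  induction k using Int.induction_on with
  | zero => simp
  | succ i ih => rw [C.AB_succ, hP, ih]
  | pred i ih =>
    have h1 := hP ((C.g ^ (-(i : ℤ) - 1)) y)
    rw [← C.AB_succ, sub_add_cancel, ih] at h1
    exact h1.symm

theorem pg {C : Cov M} (h : IsCover π C.g C.t) {m : M → ℂ} (h0 : ∀ p, m p ≠ 0)
    (hm : ∀ (k : ℤ) p, m ((C.g ^ k) p) = m p) (hs : P267M.Same m C.κ (pull π (canon X)))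
    (hP : ∀ k : ℕ, 0 < k → ∀ s : X → ℂ, (∀ p, HolAt (canon X p ^ k * s) p) → s = 0) : PG C := by
  intro N hN s hsec hinv
  by_contra hne
  have hs' : Sec (pull π (canon X)) (m * s) := fun p => by
    have h2 := (hs.hol 1 s p).1 (by rw [div_one]; exact hsec p)
    rwa [div_one] at h2
  have hne' : ∀ p, ¬ m * s =ᶠ[𝓝 p] 0 := fun p h1 => by
    refine Sec.ne_germ C C.κ_bundle hsec hne p ?_
    filter_upwards [h1] with q hq
    exact mul_eq_zero_of_right _ ((mul_eq_zero.1 hq).resolve_left (h0 q))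
  have hinv' : ∀ p, (m * s) ((C.g ^ (N : ℤ)) p) = (m * s) p := fun p => by
    rw [Pi.mul_apply, Pi.mul_apply, hm, zpow_natCast, hinv]
  have hb : ∀ p, ∀ᶠ q in 𝓝 p, pull π (canon X) p q ≠ 0 := fun p => by
    obtain ⟨H, -, -, h1⟩ := hs p
    filter_upwards [h1, C.κ_bundle p] with q h2 h3 h4
    exact h3.1 (by rw [h2, h4, mul_zero, mul_zero])
  generalize m * s = σ at hs' hne' hinv'
  have hj : ∀ j : ℕ, Sec (pull π (canon X)) (σ ∘ (C.g ^ (j : ℤ) : M ≃ₜ M)) := fun j p => by
    have h1 := (C.hol_gz (j : ℤ)).2 (hs' ((C.g ^ (j : ℤ)) p))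
    refine h1.congr (Eventually.of_forall fun q => ?_)
    simp only [Function.comp_apply, Pi.mul_apply, pull, P267M.pi_k h]
  have hjn : ∀ (j : ℕ) p,
      ¬ pull π (canon X) p * σ ∘ (C.g ^ (j : ℤ) : M ≃ₜ M) =ᶠ[𝓝 p] 0 := fun j p h1 => by
    refine hne' ((C.g ^ (j : ℤ)) p) ?_
    rw [← (C.g ^ (j : ℤ) : M ≃ₜ M).map_nhds_eq p, EventuallyEq, eventually_map]
    filter_upwards [h1, hb p] with q h2 h3
    exact (mul_eq_zero.1 h2).resolve_left h3
  set Pr : M → ℂ := ∏ j ∈ Finset.range N, σ ∘ (C.g ^ (j : ℤ) : M ≃ₜ M) with hPr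
  have hg : ∀ y, Pr (C.g y) = Pr y := fun y => by
    obtain ⟨n, rfl⟩ := Nat.exists_eq_succ_of_ne_zero hN.ne'
    have e : ∀ j : ℕ, (C.g ^ (j : ℤ)) (C.g y) = (C.g ^ ((j + 1 : ℕ) : ℤ)) y := fun j => by
      rw [Nat.cast_succ, C.gz_add, zpow_one]
    simp only [hPr, Finset.prod_apply, Function.comp_apply, e]
    rw [Finset.prod_range_succ, Finset.prod_range_succ', hinv']
    simp
  have e : ∀ p, pull π (canon X) p ^ N * Pr =
      ∏ j ∈ Finset.range N, (pull π (canon X) p * σ ∘ (C.g ^ (j : ℤ) : M ≃ₜ M)) := fun p => by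
    rw [Finset.prod_mul_distrib, Finset.prod_const, Finset.card_range]
  have hb' : ∀ y, Pr (Function.surjInv h.surj (π y)) = Pr y := fun y => by
    obtain ⟨k, hk⟩ := (h.fib y (Function.surjInv h.surj (π y))).1
      (Function.surjInv_eq h.surj (π y)).symm
    rw [← hk, kt3_inv C hg]
  have hz := hP N hN (fun x => Pr (Function.surjInv h.surj x)) fun x => by
    obtain ⟨p, rfl⟩ := h.surj x
    refine kt3_desc h ?_
    have h1 : HolAt (pull π (canon X) p ^ N * Pr) p := by
      rw [e]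
      exact HolAt.prod fun j _ => hj j p
    refine h1.congr (Eventually.of_forall fun q => ?_)
    simp only [Function.comp_apply, Pi.mul_apply, Pi.pow_apply, pull, hb']
  have hz' : Pr = 0 := funext fun y => by
    rw [← hb' y]
    exact congrFun hz (π y)
  obtain ⟨p⟩ : Nonempty M := inferInstance
  refine kt3_prod (Finset.range N) (fun j => hj j p) (fun j => hjn j p) ?_
  rw [← e, hz', mul_zero]

end Vale.Agent.P267K
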