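import Vale.Agent.P267K.KF
import Vale.Agent.P267K.KS
import Vale.Agent.P267K.KT1
import Vale.Agent.P267K.KT3

/-! P267, the case of a twisted canonical section: the theorem. -/

open scoped Manifold ContDiff Topology
open Filter Metric Set Asymptotics

noncomputable section

namespace Vale.Agent.P267K

open Vale.Agent.P267

set_option linter.unusedSectionVars false

variable {X M : Type} [TopologicalSpace X] [ChartedSpace C2 X] [IsManifold 𝓘(ℂ, C2) ω X]
  [TopologicalSpace M] [ChartedSpace C2 M] [IsManifold 𝓘(ℂ, C2) ω M] [T2Space M]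
  [ConnectedSpace M] {π : M → X} {g : M ≃ₜ M} {t : M → ℝ}

theorem main_zs {u : M → M → ℂ} (C : Cov M) (hu : IsBundle HolAt u) {s : M → ℂ} (hs : Sec u s)
    (h0 : s ≠ 0) : Zs fun x => ‖s x‖ := fun p =>
  ⟨u p * s, hs p, hs.ne_germ C hu h0 p, (hu.ne p).mono fun q hq => by
    simp only [norm_eq_zero, Pi.mul_apply, mul_eq_zero, hq, false_or]⟩

theorem main_sec {C : Cov M} {μ : ℂ} {s : M → ℂ}
    (hs : ∀ i, ∀ p ∈ (C.ch i).source, HolAt ((C.kf * th C μ) i * s) p) :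
    P267C.Sec C2 fun x => ‖s x‖ := fun p => by
  have hp := (C.mem_U_idx p).1
  refine ⟨_, holAt_iff_contMDiffAt.1 (hs _ p hp), isTheta_norm_left.2 ?_⟩
  have h1 : ContinuousAt (fun q => (‖C.kf (C.idx p) q‖ : ℂ) * th C μ (C.idx p) q) p :=
    ((Cov.hFr_kf (C := C)).met _ p (C.U_mono _ (by norm_num) (C.mem_U_idx p))).continuousAt.mul
      (th_sm C μ _ p).continuousAt
  have h2 : (‖C.kf (C.idx p) p‖ : ℂ) * th C μ (C.idx p) p ≠ 0 :=
    mul_ne_zero (by simpa using C.kf_ne hp) (Complex.exp_ne_zero _)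
  have h3 : (fun q => (‖C.kf (C.idx p) q‖ : ℂ) * th C μ (C.idx p) q) =Θ[𝓝 p] fun _ => (1 : ℂ) :=
    ((isEquivalent_const_iff_tendsto h2).2 h1).isTheta.trans (isTheta_const_const h2 one_ne_zero)
  have h4 := h3.mul (isTheta_refl s (𝓝 p))
  simp only [one_mul] at h4
  refine h4.symm.trans (isTheta_norm_left.1 (isTheta_norm_right.1 ?_))
  simp only [Pi.mul_apply, norm_mul, Complex.norm_real, norm_norm]
  exact isTheta_rfl

theorem theoremK [CompactSpace X] [T2Space X] (h : IsCover π g t)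
    (hP : ∀ k : ℕ, 0 < k → ∀ s : X → ℂ, (∀ p, HolAt (canon X p ^ k * s) p) → s = 0) {n : ℕ}
    (hL : ∀ N : ℕ, 0 < N → ∃ (L : Fin (n * N) → M → M → ℂ) (c : (M → M → ℂ) → Fin (n * N) → ℤ),
      IsLattice (g ^ N) (pull π (canon X)) L c) (hK : ¬ NoTwistedCanonical π g) :
    ∃ C : Fin n → Set X, Function.Injective C ∧ ∀ i, IsRationalCurve (C i) := by
  simp only [NoTwistedCanonical, not_forall] at hK
  obtain ⟨c, s, hs, hc, h0⟩ := hK
  obtain ⟨C₀, e1, e2, -⟩ := model h (fun _ => univ) fun _ => univ_mem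
  have hb : IsBundle HolAt (pull π (canon X)) := by
    subst e1 e2
    exact (Cov.canon_kf h).1
  have hZ := main_zs C₀ hb hs h0
  choose V hV T hT hG using genM hZ
  obtain ⟨C, rfl, rfl, hV', m, m0, m1, m2⟩ := model h V hV
  have c0 : c ≠ 0 := fun e => h0 (funext fun p => by
    have := hc (C.g.symm p)
    rwa [Homeomorph.apply_symm_apply, e, zero_mul] at this)
  obtain ⟨μ, rfl⟩ : ∃ μ, Complex.exp μ = c := ⟨_, Complex.exp_log c0⟩
  let s₀ : M → ℂ := fun q => Complex.exp (-(μ * C.t q)) * (m⁻¹ * s) q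
  have k1 : Sec C.κ (m⁻¹ * s) := fun p => by
    have := (m2.hol 1 (m⁻¹ * s) p).2 (by
      rw [div_one, show m * (m⁻¹ * s) = s from funext fun q => mul_inv_cancel_left₀ (m0 q) _]
      exact hs p)
    rwa [div_one] at this
  have k2 : ∀ i, ∀ p ∈ (C.ch i).source, HolAt ((C.kf * th C μ) i * s₀) p := fun i p hp => by
    have a1 := (C.mem_U_idx p).1
    refine (((C.kf_hol hp a1).mul (k1 p)).smul (Complex.exp (μ * i.2))).congr ?_
    filter_upwards [(C.ch _).open_source.mem_nhds a1] with q hq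
    have a2 := C.kf_ne hq
    simp only [Pi.smul_apply, Pi.mul_apply, Pi.div_apply, smul_eq_mul, th, s₀, Cov.κ, mul_add,
      Complex.exp_add, Complex.exp_neg]
    field_simp
  have k3 : ∀ p, s₀ (C.g p) = s₀ p := fun p => by
    have a1 : m (C.g p) = m p := by simpa using m1 1 p
    simp only [s₀, Pi.mul_apply, Pi.inv_apply, a1, hc, C.shift, Complex.ofReal_add,
      Complex.ofReal_one, mul_add, mul_one, neg_add, Complex.exp_add, Complex.exp_neg]
    field_simp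
  have k4 : ∀ x, ‖s₀ x‖ = 0 ↔ ‖s x‖ = 0 := fun x => by
    simp [s₀, m0 x]
  obtain ⟨e3, e4, e5⟩ := sm_congr (ν := fun x => ‖s₀ x‖) (ν' := fun x => ‖s x‖) k4
  have H : KH C fun x => ‖s₀ x‖ := by
    refine ⟨main_sec k2, ?_, fun x => congrArg _ (k3 x), contMDiff_zpow _ h.hol h.hol_inv,
      fun a A hA => ?_, fun a => ?_⟩
    · obtain ⟨x, hx⟩ := Function.ne_iff.1 h0
      exact ⟨x, fun e => hx (norm_eq_zero.1 ((k4 x).1 e))⟩
    · obtain ⟨p, hp⟩ := hV' a
      obtain ⟨σ, hσ⟩ := (hG p A (e5 ▸ hA)).1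
      exact ⟨σ, fun y hy => hσ y (hp hy)⟩
    · obtain ⟨p, hp⟩ := hV' a
      refine ⟨T p, hT p, fun x hx hx' => ?_⟩
      obtain ⟨y, hy⟩ := (hG p _ (e5 ▸ part_cp _ x)).2 ⟨x, mem_cp hx', hp hx⟩
      exact ⟨y, hy.2, hy.1⟩
  obtain ⟨A, h1, h2⟩ := H.main (allLat h m0 m1 m2 hL) (pg h m0 m1 m2 hP) k2 k3
    fun _ => norm_eq_zero
  refine ⟨fun i => π '' A i, fun i j hij => h2 i j ?_, fun i => (h1 i).down h⟩
  have e : π '' A i = π '' A j := hij
  rw [P267C.sat_eq h, P267C.sat_eq h, e]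

end Vale.Agent.P267K
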